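import Vale.Agent.P028.NSum

/-! P028G module ELEM: `n/φ(n)` is doubly logarithmic, large squarefree divisors carry little, and one growth
comparison. -/

namespace Vale.Agent.P028G

open Finset Vale.Agent.P028

/-- `n/φ(n) ≪ log log n`. -/
theorem Ph_le_log : ∃ C : ℝ, 1 ≤ C ∧ ∀ n : ℕ, 0 < n → Ph n ≤ C * Real.log (3 + Real.log n) := by
  obtain ⟨Cu, hCu⟩ := mertens_upto
  refine ⟨max 1 (|Cu| * Real.exp 2), le_max_left _ _, fun n hn => ?_⟩
  set L := Real.log n with hL
  have hL0 : 0 ≤ L := Real.log_nonneg (by exact_mod_cast hn)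
  set z : ℝ := 3 + L with hz
  have hlz : 0 ≤ Real.log z := Real.log_nonneg (by linarith)
  set sm := n.primeFactors.filter (fun p : ℕ => (p : ℝ) ≤ z) with hsm
  set bg := n.primeFactors.filter (fun p : ℕ => ¬ (p : ℝ) ≤ z) with hbg
  rw [Ph_eq_prod n hn, ← prod_filter_mul_prod_filter_not n.primeFactors (fun p : ℕ => (p : ℝ) ≤ z)]
  have hpp : ∀ p ∈ n.primeFactors, (2 : ℝ) ≤ p := fun p hp => by
    exact_mod_cast (Nat.prime_of_mem_primeFactors hp).two_le
  have h1 : ∏ p ∈ sm, (p : ℝ) / ((p : ℝ) - 1) ≤ |Cu| * Real.log z :=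
    (hCu z (by linarith) sm fun p hp => ⟨Nat.prime_of_mem_primeFactors (mem_filter.1 hp).1,
      (mem_filter.1 hp).2⟩).trans (mul_le_mul_of_nonneg_right (le_abs_self _) hlz)
  have hcard : (bg.card : ℝ) * Real.log 2 ≤ L := by
    have h : 2 ^ n.primeFactors.card ≤ n :=
      le_trans (prod_const (2 : ℕ) ▸ prod_le_prod (fun _ _ => Nat.zero_le _)
        fun p hp => (Nat.prime_of_mem_primeFactors hp).two_le)
        (Nat.le_of_dvd hn (Nat.prod_primeFactors_dvd n))
    have h' : (2 : ℝ) ^ bg.card ≤ n := by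
      refine le_trans (pow_le_pow_right₀ one_le_two (card_le_card (filter_subset _ _))) ?_
      exact_mod_cast h
    have := Real.log_le_log (by positivity) h'
    rwa [Real.log_pow, ← hL] at this
  have h2 : ∏ p ∈ bg, (p : ℝ) / ((p : ℝ) - 1) ≤ Real.exp 2 := by
    refine (prod_le_prod (g := fun _ => Real.exp (1 / (z - 1))) (fun p hp => ?_) fun p hp => ?_).trans ?_
    · have := hpp p (mem_filter.1 hp).1
      exact div_nonneg (by linarith) (by linarith)
    · obtain ⟨hp1, hp2⟩ := mem_filter.1 hp
      have := hpp p hp1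
      have h3 : (0 : ℝ) < (p : ℝ) - 1 := by linarith
      have e : (p : ℝ) / ((p : ℝ) - 1) = 1 / ((p : ℝ) - 1) + 1 := by field_simp; ring
      rw [e]
      refine le_trans ?_ (Real.add_one_le_exp _)
      gcongr
      · linarith
      · exact le_of_not_ge hp2
    · rw [prod_const, ← Real.exp_nat_mul]
      refine Real.exp_le_exp.2 ?_
      rw [mul_one_div, div_le_iff₀ (by linarith)]
      have := Real.log_two_gt_d9
      nlinarith
  refine (mul_le_mul h1 h2 (prod_nonneg fun p hp => ?_) (by positivity)).trans ?_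
  · have := hpp p (mem_filter.1 hp).1
    exact div_nonneg (by linarith) (by linarith)
  · rw [mul_right_comm]
    exact mul_le_mul_of_nonneg_right (le_max_right _ _) hlz

/-- Squarefree divisors beyond `X` of a number with `log N ≤ L` carry at most `X^{-1/log L}`. -/
theorem tail_le : ∃ C : ℝ, 1 ≤ C ∧ ∀ (N : ℕ) (L X : ℝ) (F : Finset ℕ), 0 < N → Real.log N ≤ L →
    3 ≤ L → 0 < X → (∀ D ∈ F, D ∣ N ∧ Squarefree D ∧ X < (D : ℝ)) →
    ∑ D ∈ F, (1 : ℝ) / D.totient ≤ C * Ph N ^ 21 * X ^ (-(1 / Real.log L)) := by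
  refine ⟨Real.exp (2 * Real.exp 3), Real.one_le_exp (by positivity),
    fun N L X F hN hNL hL hX hF => ?_⟩
  set σ := 1 / Real.log L with hσdef
  have hl1 : 1 < Real.log L := by
    have h := Real.exp_one_lt_d9
    rw [Real.lt_log_iff_exp_lt (by linarith)]
    linarith
  have hσ : 0 < σ := by positivity
  have hσ1 : σ ≤ 1 := by rw [hσdef, div_le_one (by linarith)]; linarith
  set f : ℕ → ℝ := fun D => (D : ℝ) ^ σ / D.totient with hf
  set s := N.primeFactors with hs
  have hsp : ∀ p ∈ s, p.Prime := fun p hp => Nat.prime_of_mem_primeFactors hp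
  have step1 : ∑ D ∈ F, (1 : ℝ) / D.totient ≤ X ^ (-σ) * ∑ D ∈ F, f D := by
    rw [mul_sum]
    refine sum_le_sum fun D hD => ?_
    obtain ⟨-, -, hXD⟩ := hF D hD
    simp only [hf]
    rw [← mul_div_assoc]
    refine div_le_div_of_nonneg_right ?_ (Nat.cast_nonneg _)
    rw [Real.rpow_neg hX.le, inv_mul_eq_div, le_div_iff₀ (Real.rpow_pos_of_pos hX _), one_mul]
    exact Real.rpow_le_rpow hX.le hXD.le hσ.le
  have step2 : ∑ D ∈ F, f D ≤ ∏ p ∈ s, (1 + (p : ℝ) ^ σ / ((p : ℝ) - 1)) := by
    rw [prod_one_add]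
    have himg : F ⊆ s.powerset.image (fun t => ∏ p ∈ t, p) := fun D hD => by
      obtain ⟨hDN, hsq, -⟩ := hF D hD
      exact mem_image.2 ⟨D.primeFactors, mem_powerset.2 (Nat.primeFactors_mono hDN hN.ne'),
        Nat.prod_primeFactors_of_squarefree hsq⟩
    refine (sum_le_sum_of_subset_of_nonneg himg fun D _ _ => by simp only [hf]; positivity).trans ?_
    have hinj : Set.InjOn (fun t : Finset ℕ => ∏ p ∈ t, p) ↑s.powerset := fun t ht t' ht' h => by
      simp only [coe_powerset, Set.mem_preimage, Set.mem_powerset_iff, coe_subset] at ht ht'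
      rw [← Nat.primeFactors_prod (s := t) fun p hp => hsp p (ht hp),
        ← Nat.primeFactors_prod (s := t') fun p hp => hsp p (ht' hp)]
      exact congrArg Nat.primeFactors h
    rw [sum_image hinj]
    refine le_of_eq (sum_congr rfl fun t ht => ?_)
    have htp : ∀ p ∈ t, p.Prime := fun p hp => hsp p (mem_powerset.1 ht hp)
    have h := th_eq_prod (∏ p ∈ t, p) (prod_pos fun p hp => (htp p hp).pos)
    rw [th, Nat.primeFactors_prod htp] at h
    have hne : ((∏ p ∈ t, p : ℕ) : ℝ) ≠ 0 := by
      exact_mod_cast (prod_pos fun p hp => (htp p hp).pos).ne'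
    rw [div_eq_iff hne] at h
    simp only [hf, h]
    push_cast
    rw [← Real.finsetProd_rpow _ _ (fun p _ => Nat.cast_nonneg p), ← prod_mul_distrib, ← prod_div_distrib]
    refine prod_congr rfl fun p hp => ?_
    have : (p : ℝ) ≠ 0 := by exact_mod_cast (htp p hp).ne_zero
    congr 1
    field_simp
  have step3 : ∏ p ∈ s, (1 + (p : ℝ) ^ σ / ((p : ℝ) - 1)) ≤ Real.exp (2 * Real.exp 3) * Ph N ^ 21 := by
    set sm := s.filter (fun p : ℕ => (p : ℝ) ≤ L ^ 3) with hsm
    set bg := s.filter (fun p : ℕ => ¬ (p : ℝ) ≤ L ^ 3) with hbg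
    have hp2 : ∀ p ∈ s, (2 : ℝ) ≤ p := fun p hp => by exact_mod_cast (hsp p hp).two_le
    have hpos : ∀ p ∈ s, 0 ≤ 1 + (p : ℝ) ^ σ / ((p : ℝ) - 1) := fun p hp => by
      have := hp2 p hp
      have : (0 : ℝ) ≤ (p : ℝ) - 1 := by linarith
      positivity
    have hL3 : (L ^ 3) ^ σ = Real.exp 3 := by
      rw [Real.rpow_def_of_pos (by positivity), Real.log_pow, hσdef]
      congr 1
      field_simp
      norm_num
    rw [← prod_filter_mul_prod_filter_not s (fun p : ℕ => (p : ℝ) ≤ L ^ 3), ← hsm, ← hbg,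
      mul_comm (Real.exp _)]
    refine mul_le_mul ?_ ?_ (prod_nonneg fun p hp => hpos p (mem_filter.1 hp).1)
      (pow_nonneg (Ph_nonneg _) _)
    · calc ∏ p ∈ sm, (1 + (p : ℝ) ^ σ / ((p : ℝ) - 1))
          ≤ ∏ p ∈ sm, ((p : ℝ) / ((p : ℝ) - 1)) ^ 21 := by
            refine prod_le_prod (fun p hp => hpos p (mem_filter.1 hp).1) fun p hp => ?_
            obtain ⟨hp1, hp3⟩ := mem_filter.1 hp
            have := hp2 p hp1
            have h1 : (0 : ℝ) < (p : ℝ) - 1 := by linarith
            have e : (p : ℝ) / ((p : ℝ) - 1) = 1 + 1 / ((p : ℝ) - 1) := by field_simp; ring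
            rw [e]
            refine le_trans ?_ (one_add_mul_le_pow
              (le_trans (by norm_num) (by positivity : (0 : ℝ) ≤ 1 / ((p : ℝ) - 1))) 21)
            have h2 : (p : ℝ) ^ σ ≤ 21 := by
              refine (Real.rpow_le_rpow (Nat.cast_nonneg p) hp3 hσ.le).trans ?_
              rw [hL3]
              have h := Real.exp_one_lt_d9
              have h0 := Real.exp_pos 1
              rw [show (3 : ℝ) = ((3 : ℕ) : ℝ) * 1 by norm_num, Real.exp_nat_mul]
              nlinarith [mul_lt_mul'' h h h0.le h0.le]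
            rw [mul_one_div]
            push_cast
            gcongr
        _ = (∏ p ∈ sm, (p : ℝ) / ((p : ℝ) - 1)) ^ 21 := by rw [← prod_pow]
        _ ≤ _ := by
            rw [Ph_eq_prod N hN]
            refine pow_le_pow_left₀ (prod_nonneg fun p hp => ?_)
              (prod_le_prod_of_subset_of_one_le (filter_subset _ _) (fun p hp => ?_)
                fun p hp _ => ratio_nonneg (hsp p hp).two_le) _ <;>
            linarith [ratio_nonneg (hsp p (mem_filter.1 hp).1).two_le]
    · have hcard : (bg.card : ℝ) ≤ 2 * L := by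
        have h : 2 ^ s.card ≤ N :=
          le_trans (prod_const (2 : ℕ) ▸ prod_le_prod (fun _ _ => Nat.zero_le _)
            fun p hp => (hsp p hp).two_le) (Nat.le_of_dvd hN (Nat.prod_primeFactors_dvd N))
        have h' : Real.exp 1 ^ (bg.card : ℕ) ≤ (N : ℝ) ^ 2 := by
          refine le_trans (pow_le_pow_left₀ (Real.exp_pos 1).le (show Real.exp 1 ≤ (2 : ℝ) ^ 2 by
            linarith [Real.exp_one_lt_d9]) _) ?_
          rw [← pow_mul, mul_comm, pow_mul]
          refine pow_le_pow_left₀ (by positivity) ?_ 2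
          refine le_trans (pow_le_pow_right₀ one_le_two (card_le_card (filter_subset _ _))) ?_
          exact_mod_cast h
        have := Real.log_le_log (by positivity) h'
        rw [Real.log_pow, Real.log_exp, Real.log_pow, mul_one] at this
        push_cast at this
        linarith
      calc ∏ p ∈ bg, (1 + (p : ℝ) ^ σ / ((p : ℝ) - 1))
          ≤ ∏ _p ∈ bg, Real.exp (2 * Real.exp 3 / L ^ 3) := by
            refine prod_le_prod (fun p hp => hpos p (mem_filter.1 hp).1) fun p hp => ?_
            obtain ⟨hp1, hp3⟩ := mem_filter.1 hp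
            have := hp2 p hp1
            refine le_trans ?_ ((add_comm (1 : ℝ) _).le.trans (Real.add_one_le_exp _))
            refine add_le_add le_rfl ?_
            have h1 : (0 : ℝ) < p := by linarith
            calc (p : ℝ) ^ σ / ((p : ℝ) - 1) ≤ (p : ℝ) ^ σ / ((p : ℝ) / 2) := by
                  gcongr
                  linarith
              _ = 2 * (p : ℝ) ^ (σ - 1) := by rw [Real.rpow_sub_one h1.ne']; field_simp
              _ ≤ 2 * (L ^ 3) ^ (σ - 1) := mul_le_mul_of_nonneg_left
                  (Real.rpow_le_rpow_of_nonpos (by positivity) (le_of_not_ge hp3) (by linarith))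
                  (by norm_num)
              _ = _ := by rw [Real.rpow_sub_one (by positivity), hL3]; ring
        _ ≤ _ := by
            rw [prod_const, ← Real.exp_nat_mul]
            refine Real.exp_le_exp.2 ?_
            rw [← mul_div_assoc, div_le_iff₀ (by positivity), mul_comm]
            refine le_trans (mul_le_mul_of_nonneg_left hcard (by positivity)) ?_
            have hLL : 2 * L ≤ L ^ 3 := by nlinarith [mul_le_mul hL hL (by norm_num) (by linarith)]
            exact (mul_le_mul_of_nonneg_left hLL (by positivity)).trans (le_of_eq (by ring))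
  calc _ ≤ X ^ (-σ) * (Real.exp (2 * Real.exp 3) * Ph N ^ 21) :=
        step1.trans (mul_le_mul_of_nonneg_left (step2.trans step3) (Real.rpow_nonneg hX.le _))
    _ = _ := by ring

/-- Any power is absorbed by `exp (-c x / log x)`. -/
theorem absorb (K : ℕ) (c : ℝ) (hc : 0 < c) : ∃ C : ℝ, 0 < C ∧ ∀ x : ℝ, 0 ≤ x →
    (1 + x) ^ K * Real.exp (-(c * x / (Real.log (1 + x) + 1))) ≤ C := by
  set c' := c / 3 with hc'
  have hc0 : 0 < c' := by positivity
  refine ⟨((2 * K).factorial : ℝ) / c' ^ (2 * K) * Real.exp c', by positivity, fun x hx => ?_⟩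
  set y := Real.sqrt (1 + x) with hy
  have hy2 : y ^ 2 = 1 + x := Real.sq_sqrt (by linarith)
  have hy1 : 1 ≤ y := by rw [hy]; exact Real.one_le_sqrt.2 (by linarith)
  have hlog : Real.log (1 + x) + 1 ≤ 3 * y := by
    rw [← hy2, Real.log_pow]
    push_cast
    linarith [Real.log_le_sub_one_of_pos (show 0 < y by linarith)]
  have h1 : -(c * x / (Real.log (1 + x) + 1)) ≤ -(c' * y) + c' := by
    have hlp : 0 < Real.log (1 + x) + 1 := by linarith [Real.log_nonneg (show 1 ≤ 1 + x by linarith)]
    have h2 : c' * (y - 1) ≤ c * x / (Real.log (1 + x) + 1) := by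
      refine le_trans ?_ (div_le_div_of_nonneg_left (by positivity) hlp hlog)
      rw [le_div_iff₀ (by positivity), hc']
      nlinarith
    linarith
  calc (1 + x) ^ K * Real.exp (-(c * x / (Real.log (1 + x) + 1)))
      ≤ (1 + x) ^ K * (Real.exp (-(c' * y)) * Real.exp c') := by
        rw [← Real.exp_add]
        exact mul_le_mul_of_nonneg_left (Real.exp_le_exp.2 h1) (by positivity)
    _ ≤ ((2 * K).factorial : ℝ) / c' ^ (2 * K) * Real.exp (c' * y)
          * (Real.exp (-(c' * y)) * Real.exp c') := by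
        refine mul_le_mul_of_nonneg_right ?_ (by positivity)
        have h := Real.pow_div_factorial_le_exp (c' * y) (show 0 ≤ c' * y by positivity) (2 * K)
        rw [div_le_iff₀ (by positivity), mul_pow, pow_mul y, hy2] at h
        rw [div_mul_eq_mul_div, le_div_iff₀ (by positivity)]
        linarith
    _ = _ := by
        rw [show Real.exp (-(c' * y)) = (Real.exp (c' * y))⁻¹ from Real.exp_neg _]
        field_simp

end Vale.Agent.P028G
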