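import Vale.Agent.P028G.Density
import Vale.Agent.P028G.Elem
import Vale.Agent.P028M.State

/-! P028G module CLS: the bounds for one class between two levels `t ≪ s`. -/

namespace Vale.Agent.P028G

open Finset
open Vale.Agent.P028
open Vale.Agent.P028L
open Vale.Agent.P028X (Small aX)
open Vale.Agent.P028M (wgt)

/-- The data of two levels of a slice `log q ≤ H`. -/
def Lev (γ a t0 H t s : ℝ) (ψ : ℕ → ℝ) (V W : Finset ℕ) (A : ℤ) (B : ℕ) (A' : ℤ) (B' : ℕ) : Prop :=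
  (∀ q, 0 ≤ ψ q) ∧
    (∀ q ∈ V, 0 < q ∧ Real.exp (-(1 + zeta0) * t) ≤ ψ q ∧ ψ q ≤ Real.exp (-t) ∧ Real.log q ≤ H) ∧
    (∀ r ∈ W, 0 < r ∧ Real.exp (-(1 + zeta0) * s) ≤ ψ r ∧ ψ r ≤ Real.exp (-s) ∧ Real.log r ≤ H) ∧
    (3 ≤ H ∧ t ≤ 2 * H ∧ a * Real.log H ≤ t ∧ t0 ≤ t ∧ 10 ^ 7 * t ≤ s) ∧
    IsApprox γ (Real.exp (t / 2)) A B ∧ IsApprox γ (Real.exp (s / 2)) A' B'

/-- `M + M²` for the two levels. -/
noncomputable def om (ψ : ℕ → ℝ) (V W : Finset ℕ) : ℝ :=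
  msum (mu ψ) (V ∪ W) + msum (mu ψ) (V ∪ W) ^ 2

lemma om_nonneg {ψ : ℕ → ℝ} (hψ : ∀ q, 0 ≤ ψ q) (V W : Finset ℕ) : 0 ≤ om ψ V W := by
  have : 0 ≤ msum (mu ψ) (V ∪ W) := sum_nonneg fun q _ => mu_nonneg' hψ q
  unfold om
  positivity

lemma pairSum_union {μ : ℕ → ℝ} (hμ : ∀ q, 0 ≤ μ q) {G : ℕ → ℕ → ℝ} (hG : ∀ q r, 0 ≤ G q r)
    (V W : Finset ℕ) : pairSum μ G V W ≤ pairSum μ G (V ∪ W) (V ∪ W) := by
  refine le_trans (sum_le_sum fun q _ => sum_le_sum_of_subset_of_nonneg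
    (show W ⊆ V ∪ W from subset_union_right)
    fun r _ _ => mul_nonneg (mul_nonneg (hμ q) (hμ r)) (hG q r)) ?_
  exact sum_le_sum_of_subset_of_nonneg subset_union_left fun q _ _ => sum_nonneg fun r _ =>
    mul_nonneg (mul_nonneg (hμ q) (hμ r)) (hG q r)

lemma pairSum_nonneg {μ : ℕ → ℝ} (hμ : ∀ q, 0 ≤ μ q) {G : ℕ → ℕ → ℝ} (hG : ∀ q r, 0 ≤ G q r)
    (V W : Finset ℕ) : 0 ≤ pairSum μ G V W :=
  sum_nonneg fun q _ => sum_nonneg fun r _ => mul_nonneg (mul_nonneg (hμ q) (hμ r)) (hG q r)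

lemma pairSum_flip (μ : ℕ → ℝ) (G : ℕ → ℕ → ℝ) (V W : Finset ℕ) :
    pairSum μ G V W = pairSum μ (fun r q => G q r) W V := by
  simp only [pairSum]
  rw [sum_comm]
  exact sum_congr rfl fun q _ => sum_congr rfl fun r _ => by ring

/-- Cauchy-Schwarz between a weight and an event. -/
lemma cauchy2 (μ : ℕ → ℝ) (P E c : ℕ → ℕ → ℝ) (V W : Finset ℕ) (hμ : ∀ q, 0 ≤ μ q)
    (hc : ∀ q r, 0 ≤ c q r) (hP : ∀ q r, 0 ≤ P q r) (hE : ∀ q r, 0 ≤ E q r ∧ E q r ≤ 1) :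
    pairSum μ (fun q r => P q r * E q r * c q r) V W
      ≤ Real.sqrt (pairSum μ (fun q r => P q r ^ 2 * c q r) V W) *
          Real.sqrt (pairSum μ (fun q r => E q r * c q r) V W) := by
  simp only [pairSum, ← Finset.sum_product']
  refine le_trans (Finset.sum_le_sum fun z _ => ?_)
    (Real.sum_sqrt_mul_sqrt_le _
      (f := fun z : ℕ × ℕ => μ z.1 * μ z.2 * (P z.1 z.2 ^ 2 * c z.1 z.2))
      (g := fun z : ℕ × ℕ => μ z.1 * μ z.2 * (E z.1 z.2 * c z.1 z.2))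
      (fun z => mul_nonneg (mul_nonneg (hμ _) (hμ _)) (mul_nonneg (sq_nonneg _) (hc _ _)))
      (fun z => mul_nonneg (mul_nonneg (hμ _) (hμ _)) (mul_nonneg (hE _ _).1 (hc _ _))))
  have hm := mul_nonneg (hμ z.1) (hμ z.2)
  rw [← Real.sqrt_mul (mul_nonneg hm (mul_nonneg (sq_nonneg _) (hc _ _)))]
  refine Real.le_sqrt_of_sq_le ?_
  have h0 := mul_nonneg (mul_nonneg (mul_nonneg hm hm) (sq_nonneg (P z.1 z.2)))
    (mul_nonneg (mul_nonneg (hc z.1 z.2) (hc z.1 z.2)) (hE z.1 z.2).1)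
  have h1 := mul_le_of_le_one_right h0 (hE z.1 z.2).2
  linarith

/-- Two bounds combined. -/
lemma two_bounds {x A B θ : ℝ} (hx : 0 ≤ x) (hA : x ≤ A) (hB : x ≤ B) (h0 : 0 ≤ θ) (h1 : θ ≤ 1) :
    x ≤ A ^ (1 - θ) * B ^ θ := by
  calc x = x ^ (1 - θ) * x ^ θ := by
        rw [← Real.rpow_add' hx (by norm_num)]; norm_num
    _ ≤ _ := mul_le_mul (Real.rpow_le_rpow hx hA (by linarith)) (Real.rpow_le_rpow hx hB h0)
        (Real.rpow_nonneg hx _) (Real.rpow_nonneg (hx.trans hA) _)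

/-- The class, the class weighted by `Φ²`. -/
theorem cls2 :
    ∃ C : ℝ, 0 < C ∧ ∀ (ψ : ℕ → ℝ) (V W : Finset ℕ) (y1 y2 : ℝ), (∀ q, 0 ≤ ψ q) →
      (∀ q ∈ V ∪ W, 0 < q ∧ 0 < ψ q) → 0 < y1 → 0 < y2 →
      pairSum (mu ψ) (clsI ψ y1 y2) V W ≤ C * ((y1 * y2) ^ (1 / 2 - eps) * om ψ V W) ∧
      pairSum (mu ψ) (fun q r => Ph (uu q r * vv q r) ^ 2 * clsI ψ y1 y2 q r) V W
        ≤ C * ((y1 * y2) ^ (1 / 2 - eps) * om ψ V W) := by
  obtain ⟨Cc, hCc, hcls⟩ := cls_bound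
  obtain ⟨Cp, hphi⟩ := phi_moment_bound
  refine ⟨max Cc (max Cp 0) + 1, by positivity, fun ψ V W y1 y2 hψ hS hy1 hy2 => ?_⟩
  set S := V ∪ W with hSd
  have hμ := mu_nonneg' hψ
  set Ω := (msum (mu ψ) S * msum (mu ψ) S) ^ aE with hΩd
  have hΩ : Ω ≤ om ψ V W := midOmega _ (sum_nonneg fun q _ => hμ q)
  have hΩ0 : 0 ≤ Ω := Real.rpow_nonneg (mul_self_nonneg _) _
  set P := (y1 * y2) ^ (1 / 2 - eps)
  have hP : 0 ≤ P := by positivity
  have fin : ∀ (x K : ℝ), x ≤ K * P * Ω → K ≤ max Cc (max Cp 0) + 1 →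
      x ≤ (max Cc (max Cp 0) + 1) * (P * om ψ V W) := fun x K h1 h2 => by
    refine h1.trans ((mul_assoc _ _ _).le.trans ?_)
    exact mul_le_mul h2 (mul_le_mul_of_nonneg_left hΩ hP) (by positivity) (by positivity)
  constructor
  · exact fin _ Cc ((pairSum_union hμ (fun q r => (cls_mem ψ y1 y2 q r).1) V W).trans
      (hcls ψ S y1 y2 hψ hS hy1 hy2)) (by linarith [le_max_left Cc (max Cp 0)])
  · exact fin _ Cp ((pairSum_union hμ
      (fun q r => mul_nonneg (sq_nonneg _) (cls_mem ψ y1 y2 q r).1) V W).trans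
      (hphi ψ S y1 y2 hψ hS hy1 hy2))
      (by linarith [le_max_left Cp 0, le_max_right Cc (max Cp 0)])

lemma Lev.pos {γ a t0 H t s : ℝ} {ψ : ℕ → ℝ} {V W : Finset ℕ} {A A' : ℤ} {B B' : ℕ}
    (h : Lev γ a t0 H t s ψ V W A B A' B') : ∀ q ∈ V ∪ W, 0 < q ∧ 0 < ψ q := by
  obtain ⟨-, hV, hW, -⟩ := h
  intro q hq
  rcases mem_union.1 hq with h | h
  · exact ⟨(hV q h).1, lt_of_lt_of_le (Real.exp_pos _) (hV q h).2.1⟩
  · exact ⟨(hW q h).1, lt_of_lt_of_le (Real.exp_pos _) (hW q h).2.1⟩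

lemma Lev.low {γ a t0 H t s : ℝ} {ψ : ℕ → ℝ} {V W : Finset ℕ} {A A' : ℤ} {B B' : ℕ}
    (h : Lev γ a t0 H t s ψ V W A B A' B') (ht : 0 ≤ t) :
    ∀ q ∈ V, Real.exp (-(2 * t)) ≤ ψ q := fun q hq =>
  le_trans (Real.exp_le_exp.2 (by unfold zeta0; nlinarith)) (h.2.1 q hq).2.1

/-- The event, seen from the low level. -/
theorem ev2_low :
    ∃ C t1 : ℝ, 0 < C ∧ ∀ (γ a t0 H t s : ℝ) (ψ : ℕ → ℝ) (V W : Finset ℕ) (A A' : ℤ) (B B' D : ℕ)
      (y1 y2 Y : ℝ), Lev γ a t0 H t s ψ V W A B A' B' → t1 ≤ t → 0 < y1 → Y = 2 * max y1 y2 →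
      0 < D → Nat.Coprime D (B * B') → (D : ℝ) ≤ Real.exp (t / 2) →
      Real.exp (-(2 * t)) ≤ Y → Y ≤ 4 * (D : ℝ) → Y * Real.exp (-nuM * s) ≤ y2 →
      pairSum (mu ψ) (fun q r => EV2i γ A B A' B' Y D q r * clsI ψ y1 y2 q r) V W
        ≤ C * ((Y / D) ^ (5 * eps) * (y1 * y2) ^ (1 / 2 - eps) * om ψ V W) := by
  obtain ⟨C, t1, hC, hev⟩ := ev2_gain
  refine ⟨C + 1, max t1 0, by linarith, ?_⟩
  intro γ a t0 H t s ψ V W A A' B B' D y1 y2 Y hL ht1 hy1 hY hD hcop hDt hYlo hYD hy2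
  have ht : 0 ≤ t := (le_max_right _ _).trans ht1
  have hlow := hL.low ht
  obtain ⟨hψ, hV, hW, ⟨-, -, -, -, hts⟩, hA, hA'⟩ := hL
  have hY0 : 0 < Y := lt_of_lt_of_le (Real.exp_pos _) hYlo
  have hm1 := le_max_left y1 y2
  have hm2 := le_max_right y1 y2
  have hy2' : 0 < y2 := lt_of_lt_of_le (mul_pos hY0 (Real.exp_pos _)) hy2
  have h := hev γ ψ W V t s Y y2 y1 A' A B' B D ((le_max_left _ _).trans ht1) (by linarith) hψ
    (fun r hr => ⟨(hW r hr).1, (hW r hr).2.1, (hW r hr).2.2.1⟩)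
    (fun q hq => ⟨(hV q hq).1, hlow q hq⟩) hA' hA hD (by rwa [mul_comm]) hDt hYlo hYD hy2
    (by linarith) hy1 (by linarith)
  rw [pairSum_flip]
  refine le_trans (le_of_eq ?_) (h.trans ?_)
  · refine sum_congr rfl fun r _ => sum_congr rfl fun q _ => ?_
    simp only [EV2i_swap γ A B A' B' Y D q r, evD_clsI_swap ψ y1 y2 q r]
  rw [union_comm W V, mul_comm y2 y1]
  have hΩ := midOmega (msum (mu ψ) (V ∪ W)) (sum_nonneg fun q _ => mu_nonneg' hψ q)
  have h0 : 0 ≤ (Y / D) ^ (5 * eps) * (y1 * y2) ^ (1 / 2 - eps) := by positivity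
  have hom := om_nonneg hψ V W
  calc C * (Y / D) ^ (5 * eps) * (y1 * y2) ^ (1 / 2 - eps) *
        (msum (mu ψ) (V ∪ W) * msum (mu ψ) (V ∪ W)) ^ aE
      = C * ((Y / D) ^ (5 * eps) * (y1 * y2) ^ (1 / 2 - eps) *
        (msum (mu ψ) (V ∪ W) * msum (mu ψ) (V ∪ W)) ^ aE) := by ring
    _ ≤ (C + 1) * ((Y / D) ^ (5 * eps) * (y1 * y2) ^ (1 / 2 - eps) * om ψ V W) :=
        mul_le_mul (by linarith) (mul_le_mul_of_nonneg_left hΩ h0)
          (mul_nonneg h0 (Real.rpow_nonneg (mul_self_nonneg _) _)) (by linarith)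

lemma log_grow {a : ℝ} (ha : 0 < a) {x : ℝ} (hx : 0 ≤ x) :
    Real.log (1 + x) ≤ a * x + |Real.log a| + a := by
  have h1 : Real.log (1 + x) = -Real.log a + Real.log (a * (1 + x)) := by
    rw [Real.log_mul ha.ne' (by linarith)]; ring
  have h2 := Real.log_le_sub_one_of_pos (show 0 < a * (1 + x) by positivity)
  linarith [neg_abs_le (Real.log a), neg_le_abs (Real.log a)]

/-- The class bound between two levels, for every length. -/
theorem level_all (a : ℝ) (ha : 0 < a) :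
    ∃ C κ t1 : ℝ, 0 < C ∧ 0 < κ ∧ ∀ (γ t0 H t s : ℝ) (ψ : ℕ → ℝ) (V W : Finset ℕ) (A A' : ℤ)
      (B B' : ℕ) (y1 y2 Y : ℝ), Lev γ a t0 H t s ψ V W A B A' B' → t1 ≤ t → 0 < y1 → 0 < y2 →
      Y = 2 * max y1 y2 → Y ≤ 4 * (1 + Real.log H) ^ 4 → Real.exp (-(2 * t)) ≤ Y →
      Y * Real.exp (-nuM * s) ≤ y2 →
      pairSum (mu ψ) (clsI ψ y1 y2) V W
        ≤ C * (Y ^ (1 - 3 * eps) * max 1 (Y / 4) ^ (3 * eps) * wgt κ H s * om ψ V W) := by
  have hε : Small eps := ⟨eps_pos, le_of_eq rfl⟩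
  obtain ⟨C, κ, hC, hκ, hlev⟩ := P028M.level_class hε
  refine ⟨4 * C + 1, κ / 2, max 100 (|Real.log a| + a), by linarith, by linarith, ?_⟩
  intro γ t0 H t s ψ V W A A' B B' y1 y2 Y hL ht1 hy1 hy2 hY hYhi hYlo hb2
  have ht : 100 ≤ t := (le_max_left _ _).trans ht1
  have hlow := hL.low (by linarith)
  have hpos := hL.pos
  obtain ⟨hψ, hV, hW, ⟨hH, htH, hat, -, hts⟩, -, -⟩ := hL
  have hY0 : 0 < Y := lt_of_lt_of_le (Real.exp_pos _) hYlo
  have hl1 : 1 ≤ Real.log H := P028M.log_one hH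
  have hm1 := le_max_left y1 y2
  have hm2 := le_max_right y1 y2
  set lg := Real.log (max 1 (Y / 4)) with hlg
  have hM1 : 1 ≤ max 1 (Y / 4) := le_max_left _ _
  have hlg0 : 0 ≤ lg := Real.log_nonneg hM1
  have hlgH : lg ≤ 4 * Real.log H ∧ lg ≤ 8 * t := by
    have h1 : lg ≤ 4 * Real.log (1 + Real.log H) := by
      have h2 : max 1 (Y / 4) ≤ (1 + Real.log H) ^ 4 :=
        max_le (one_le_pow₀ (by linarith)) (by linarith)
      have h3 := Real.log_le_log (by linarith) h2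
      rw [Real.log_pow, ← hlg] at h3
      push_cast at h3
      linarith
    have h4 := Real.log_le_sub_one_of_pos (show 0 < 1 + Real.log H by linarith)
    have h5 := log_grow ha (show 0 ≤ Real.log H by linarith)
    exact ⟨by linarith, by linarith [(le_max_right _ _).trans ht1]⟩
  set k := 1 / max 1 (Y / 4) with hk
  have hk0 : 0 < k := by positivity
  have hk1 : k ≤ 1 := by rw [hk, div_le_one (by linarith)]; exact hM1
  have hkexp : k = Real.exp (-lg) := by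
    rw [hk, hlg, Real.exp_neg, Real.exp_log (by linarith), one_div]
  set ψ' : ℕ → ℝ := fun q => k * ψ q with hψ'
  have e1 : ∀ q, mu ψ' q = k * mu ψ q := fun q => by simp only [mu, hψ']; ring
  have ec : ∀ q r, clsI ψ y1 y2 q r = clsI ψ' (k * y1) (k * y2) q r := fun q r => by
    classical
    unfold clsI
    refine if_congr ?_ rfl rfl
    simp only [InCls, hψ', mul_left_comm _ k, mul_div_assoc,
      mul_lt_mul_iff_of_pos_left hk0, mul_le_mul_iff_of_pos_left hk0]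
  set Y' := k * Y with hY'
  have hY'4 : Y' ≤ 4 := by
    rw [hY', hk, one_div_mul_eq_div, div_le_iff₀ (by linarith)]
    linarith [le_max_right 1 (Y / 4)]
  have hHlog : Real.log (2 * H) ≤ 2 * Real.log H := by
    rw [Real.log_mul two_ne_zero (by linarith)]
    linarith [Real.log_two_lt_d9]
  have h := hlev ψ' V W (2 * H) (t + lg / 2) s (k * y1) (k * y2) Y'
    (fun q => mul_nonneg hk0.le (hψ q))
    (fun q hq => ⟨(hpos q hq).1, mul_pos hk0 (hpos q hq).2⟩)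
    (fun q hq => ⟨by linarith [(hV q hq).2.2.2], by
      show _ ≤ k * ψ q
      rw [hkexp, show -(2 * (t + lg / 2)) = -lg + -(2 * t) by ring, Real.exp_add]
      exact mul_le_mul_of_nonneg_left (hlow q hq) (Real.exp_pos _).le⟩)
    (fun r hr => (mul_le_of_le_one_left (hψ r) hk1).trans (hW r hr).2.2.1)
    (by linarith) (by linarith [Real.log_le_sub_one_of_pos (show 0 < H by linarith)])
    (by linarith [hlgH.2]) (by linarith) (mul_pos hk0 hy1) (mul_pos hk0 hy2)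
    (mul_le_mul_of_nonneg_left (by linarith) hk0.le)
    (mul_le_mul_of_nonneg_left (by linarith) hk0.le) hY'4 (by
      refine le_trans ?_ (mul_le_mul_of_nonneg_left hb2 hk0.le)
      refine le_trans ?_ (mul_le_mul_of_nonneg_left (mul_le_mul_of_nonneg_right hYlo
        (Real.exp_pos _).le) hk0.le)
      rw [hkexp, ← Real.exp_add, ← Real.exp_add]
      exact Real.exp_le_exp.2 (by unfold nuM; linarith [hlgH.2]))
  set M := msum (mu ψ) (V ∪ W) with hMd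
  have hM0 : 0 ≤ M := sum_nonneg fun q _ => mu_nonneg' hψ q
  have eM : msum (mu ψ') (V ∪ W) = k * M := by
    simp only [msum, hMd, e1, mul_sum]
  have eP : pairSum (mu ψ') (clsI ψ' (k * y1) (k * y2)) V W
      = k ^ 2 * pairSum (mu ψ) (clsI ψ y1 y2) V W := by
    simp only [pairSum, mul_sum, e1]
    exact sum_congr rfl fun q _ => sum_congr rfl fun r _ => by rw [← ec]; ring
  rw [eP, eM] at h
  set w := wgt κ (2 * H) s
  set w' := wgt (κ / 2) H s with hw'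
  have hww : w ≤ w' := by
    refine add_le_add (Real.exp_le_exp.2 ?_)
      (Real.rpow_le_rpow_of_nonpos (by linarith) (by linarith) (by norm_num))
    rw [neg_mul, neg_div, neg_mul, neg_div, neg_le_neg_iff]
    rw [div_le_div_iff₀ (by linarith) (Real.log_pos (by linarith))]
    have := mul_le_mul_of_nonneg_left hHlog (show 0 ≤ κ * s / 2 by
      have : 0 ≤ s := by linarith
      positivity)
    linarith
  have hw0 : 0 < w := P028M.wgt_pos (by linarith)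
  have hY'p : Y' ^ (1 - 3 * eps)
      = Y ^ (1 - 3 * eps) * max 1 (Y / 4) ^ (3 * eps) * k := by
    rw [hY', Real.mul_rpow hk0.le hY0.le, hk, one_div, Real.inv_rpow (by linarith),
      ← Real.rpow_neg (by linarith), ← Real.rpow_neg_one (max 1 (Y / 4)), mul_assoc,
      ← Real.rpow_add (lt_of_lt_of_le one_pos hM1), mul_comm]
    ring_nf
  refine le_of_mul_le_mul_left (h.trans ?_) (pow_pos hk0 2)
  rw [hY'p]
  unfold om
  rw [← hMd]
  have hkk : k * M + (k * M) ^ 2 ≤ k * (M + M ^ 2) := by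
    have := mul_le_mul_of_nonneg_right hk1 (mul_nonneg hk0.le (sq_nonneg M))
    linarith
  set Q := Y ^ (1 - 3 * eps) * max 1 (Y / 4) ^ (3 * eps) with hQ
  have hQ0 : 0 ≤ Q := by positivity
  calc C * (Q * k) * w * (k * M + (k * M) ^ 2) ≤ (4 * C + 1) * (Q * k) * w' * (k * (M + M ^ 2)) := by
        have hw'0 : 0 < w' := lt_of_lt_of_le hw0 hww
        exact mul_le_mul (mul_le_mul (mul_le_mul_of_nonneg_right (by linarith)
          (by positivity)) hww hw0.le (by positivity)) hkk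
          (by positivity) (by positivity)
    _ = _ := by ring

end Vale.Agent.P028G
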