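import Vale.Agent.P028G.Lin
import Vale.Agent.P028G.Elem
import Vale.Agent.P028L.Cross
import Vale.Agent.P028.CellMid

/-! P028G module KERNEL: the coincidences off the common resonance of one pair of a slice `log q ≤ H`. -/

namespace Vale.Agent.P028G

open Finset
open Vale.Agent.P028
open Vale.Agent.P028.Overlap (sum_dset)
open Vale.Agent.P028L

/-- All admissible moduli of a pair together. -/
lemma dset_sum_le (B : ℕ) {q r : ℕ} (hq : 0 < q) :
    ∑ D ∈ dset B q r, (1 : ℝ) / D.totient ≤ Ph (Nat.gcd q r) := by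
  classical
  have hg : 0 < Nat.gcd q r := Nat.gcd_pos_of_pos_left _ hq
  have h := sum_dset (B := B) (q := q) (r := r) (D := (Nat.gcd q r : ℤ)) hg (by exact_mod_cast hg.ne')
  have e : (dset B q r).filter (fun d : ℕ => (d : ℤ) ∣ (Nat.gcd q r : ℤ)) = dset B q r :=
    filter_eq_self.2 fun d hd =>
      Int.natCast_dvd_natCast.2 (Nat.dvd_of_mem_divisors (mem_filter.1 hd).1)
  rw [e] at h
  rw [h]
  refine le_trans (le_of_eq (prod_congr rfl fun p hp => ?_))
    (prod_ratio_le_Ph hg (filter_subset _ _))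
  have h2 : (2 : ℝ) ≤ p := by
    exact_mod_cast (Nat.prime_of_mem_primeFactors (mem_filter.1 hp).1).two_le
  have : (p : ℝ) - 1 ≠ 0 := by linarith
  field_simp
  ring

/-- `n/φ(n)` on a slice. -/
lemma Ph_slice : ∃ C : ℝ, 1 ≤ C ∧ ∀ (n : ℕ) (H : ℝ), 0 < n → 3 ≤ H → Real.log n ≤ 2 * H →
    Ph n ≤ C * (1 + Real.log H) := by
  obtain ⟨C, hC, h⟩ := Ph_le_log
  refine ⟨2 * C, by linarith, fun n H hn hH hl => (h n hn).trans ?_⟩
  have h1 : Real.log (3 + Real.log n) ≤ Real.log (3 * H) :=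
    Real.log_le_log (by linarith [Real.log_natCast_nonneg n]) (by linarith)
  rw [Real.log_mul (by norm_num) (by linarith)] at h1
  have h3 : Real.log 3 ≤ 2 := by
    linarith [Real.log_le_sub_one_of_pos (show (0 : ℝ) < 3 by norm_num)]
  have h4 : 0 ≤ Real.log H := Real.log_nonneg (by linarith)
  calc C * Real.log (3 + Real.log n) ≤ C * (2 * (1 + Real.log H)) := by
        refine mul_le_mul_of_nonneg_left ?_ (by linarith)
        linarith
    _ = _ := by ring

/-- Above the band the part off the main term is negligible. -/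
lemma above_band : ∃ C : ℝ, 0 ≤ C ∧ ∀ (γ η Yc : ℝ) (A A' : ℤ) (B B' q r : ℕ) (H : ℝ) (P : ℕ → Prop)
    [DecidablePred P], 0 < q → 0 < r → 3 ≤ H → Real.log q ≤ H → Real.log r ≤ H → 1 ≤ η →
    (1 + Real.log H) ^ 4 < η →
    Real.log (Real.log η + 3) * (phiBig Yc (uu q r * vv q r) *
      ∑ D ∈ (dset (B * B') q r).filter P, EV2i γ A B A' B' η D q r / (D.totient : ℝ)) ≤ C * η := by
  obtain ⟨Cs, hCs, hslice⟩ := Ph_slice
  refine ⟨6 * Cs ^ 2, by positivity, fun γ η Yc A A' B B' q r H P _ hq hr hH hlq hlr h1' hband => ?_⟩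
  have hη0 : 0 < η := by linarith
  have hn0 : 0 < uu q r * vv q r := uu_mul_vv_pos q r hq hr
  have hg : 0 < Nat.gcd q r := Nat.gcd_pos_of_pos_left _ hq
  have hle : uu q r * vv q r ≤ q * r :=
    Nat.mul_le_mul (Nat.div_le_self _ _) (Nat.div_le_self _ _)
  have hPn : Ph (uu q r * vv q r) ≤ Cs * (1 + Real.log H) := by
    refine hslice _ H hn0 hH ((Real.log_le_log (by exact_mod_cast hn0) (Nat.cast_le.2 hle)).trans ?_)
    rw [Nat.cast_mul, Real.log_mul (by exact_mod_cast hq.ne') (by exact_mod_cast hr.ne')]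
    linarith
  have hPg : Ph (Nat.gcd q r) ≤ Cs * (1 + Real.log H) :=
    hslice _ H hg hH ((Real.log_le_log (by exact_mod_cast hg)
      (Nat.cast_le.2 (Nat.gcd_le_left r hq))).trans (by linarith))
  set S := ∑ D ∈ (dset (B * B') q r).filter P, EV2i γ A B A' B' η D q r / (D.totient : ℝ)
  have hS0 : 0 ≤ S := sum_nonneg fun D _ => div_nonneg (EV2i_mem ..).1 (Nat.cast_nonneg _)
  have hS : S ≤ Ph (Nat.gcd q r) :=
    ((sum_le_sum fun D _ => div_le_div_of_nonneg_right (EV2i_mem ..).2 (Nat.cast_nonneg _)).trans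
      (sum_le_sum_of_subset_of_nonneg (filter_subset _ _) fun D _ _ => by positivity)).trans
      (dset_sum_le _ hq)
  have hl : 0 ≤ Real.log η := Real.log_nonneg h1'
  have hx : 0 ≤ 1 + Real.log H := by linarith [Real.log_nonneg (show 1 ≤ H by linarith)]
  have hphi0 : 0 ≤ phiBig Yc (uu q r * vv q r) := prod_nonneg fun p hp => by
    linarith [ratio_nonneg (Nat.prime_of_mem_primeFactors (mem_filter.1 hp).1).two_le]
  have hsq : (1 + Real.log H) ^ 2 ≤ η ^ (1 / 2 : ℝ) := by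
    rw [← Real.sqrt_eq_rpow]
    exact Real.le_sqrt_of_sq_le (le_of_eq_of_le (by ring) hband.le)
  have hlη : Real.log (Real.log η + 3) ≤ 6 * η ^ (1 / 4 : ℝ) := by
    have e1 := Real.log_le_sub_one_of_pos (show 0 < Real.log η + 3 by linarith)
    have e2 : Real.log η ≤ η ^ (1 / 4 : ℝ) / (1 / 4) := Real.log_le_rpow_div hη0.le (by norm_num)
    have e3 : (1 : ℝ) ≤ η ^ (1 / 4 : ℝ) := Real.one_le_rpow h1' (by norm_num)
    linarith
  calc Real.log (Real.log η + 3) * (phiBig Yc (uu q r * vv q r) * S)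
      ≤ 6 * η ^ (1 / 4 : ℝ) * ((Cs * (1 + Real.log H)) * (Cs * (1 + Real.log H))) :=
        mul_le_mul hlη (mul_le_mul ((midPhiBig_le_Ph _ _ hn0).trans hPn) (hS.trans hPg) hS0
          (by positivity)) (mul_nonneg hphi0 hS0) (by positivity)
    _ = 6 * Cs ^ 2 * (η ^ (1 / 4 : ℝ) * (1 + Real.log H) ^ 2) := by ring
    _ ≤ 6 * Cs ^ 2 * η := by
        refine mul_le_mul_of_nonneg_left ?_ (by positivity)
        refine (mul_le_mul_of_nonneg_left hsq (by positivity)).trans ?_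
        rw [← Real.rpow_add hη0]
        exact Real.rpow_le_self_of_one_le h1' (by norm_num)

/-- A short window in the kernel. -/
lemma small_key (γ : ℝ) (A A' : ℤ) (B B' q r : ℕ) (η Y θ C : ℝ) (hq : 0 < q) (hr : 0 < r) (hη0 : 0 < η)
    (h1 : η < 1) (hηY : η ≤ Y) (hY4 : Y ≤ 4 * η) (hθ : 0 ≤ θ) (hC : 8 ≤ C) :
    ∑ n ∈ (nWin γ η q r).filter (fun n => D2 A B A' B' q r n ≠ 0), W2 A B A' B' q r n
      ≤ C * (max 1 (Y / 4) ^ θ / Y * (Ph (uu q r * vv q r) *
          ∑ D ∈ (dset (B * B') q r).filter (fun D : ℕ => Y ≤ 4 * (D : ℝ)),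
            EV2i γ A B A' B' Y D q r / (D.totient : ℝ))) * η := by
  have hY : 0 < Y := lt_of_lt_of_le hη0 hηY
  set Z := ∑ D ∈ (dset (B * B') q r).filter (fun D : ℕ => Y ≤ 4 * (D : ℝ)),
      EV2i γ A B A' B' Y D q r / (D.totient : ℝ) with hZ
  have hZ0 : 0 ≤ Z := sum_nonneg fun D _ => div_nonneg (EV2i_mem ..).1 (Nat.cast_nonneg _)
  have hs : ∑ D ∈ dset (B * B') q r, EV2i γ A B A' B' η D q r / (D.totient : ℝ) ≤ Z := by
    rw [hZ, filter_eq_self.2 fun D hD => ?_]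
    · exact sum_le_sum fun D _ => div_le_div_of_nonneg_right
        (EV2i_mono γ A B A' B' D q r hηY) (Nat.cast_nonneg _)
    · have : (1 : ℝ) ≤ D := Nat.one_le_cast.2 (Nat.pos_of_mem_divisors (mem_filter.1 hD).1)
      linarith
  have hn := Ph_nonneg (uu q r * vv q r)
  calc _ ≤ 2 * Ph (uu q r * vv q r) * Z := (sum_W2_small γ η A A' B B' q r hq hr hη0 h1).trans
        (mul_le_mul_of_nonneg_left hs (by positivity))
    _ = 8 * (1 / Y * (Ph (uu q r * vv q r) * Z)) * (Y / 4) := by field_simp; ring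
    _ ≤ _ := mul_le_mul (mul_le_mul hC (mul_le_mul_of_nonneg_right (div_le_div_of_nonneg_right
          (Real.one_le_rpow (le_max_left _ _) hθ) hY.le) (by positivity)) (by positivity)
          (by linarith)) (by linarith) (by positivity) (by positivity)

/-- Inside the band. -/
lemma band_key (θ η Y Φ S Z : ℝ) (hθ0 : 0 < θ) (hθ1 : θ ≤ 1) (h1' : 1 ≤ η) (hηY : η ≤ Y)
    (hY4 : Y ≤ 4 * η) (hΦ : 0 ≤ Φ) (hS : 0 ≤ S) (hSZ : S ≤ Z) {φ : ℝ} (hφ : 0 ≤ φ) (hφΦ : φ ≤ Φ) :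
    Real.log (Real.log η + 3) * (φ * S)
      ≤ 16 * (1 / θ + 2) * (max 1 (Y / 4) ^ θ / Y * (Φ * Z)) * η := by
  set Y1 := max 1 (Y / 4)
  have hη0 : 0 < η := by linarith
  have hY : 0 < Y := by linarith
  have hZ : 0 ≤ Z := hS.trans hSZ
  have hY11 : 1 ≤ Y1 := le_max_left _ _
  have hθi : 0 < 1 / θ := by positivity
  have hL0 : 0 ≤ Real.log η := Real.log_nonneg h1'
  have e1 := Real.log_le_sub_one_of_pos (show 0 < Real.log η + 3 by linarith)
  have e2 : Real.log η ≤ η ^ θ / θ := Real.log_le_rpow_div hη0.le hθ0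
  have e3 : (1 : ℝ) ≤ η ^ θ := Real.one_le_rpow h1' hθ0.le
  have e4 : η ^ θ ≤ 4 * Y1 ^ θ := by
    calc η ^ θ ≤ (4 * Y1) ^ θ :=
          Real.rpow_le_rpow hη0.le (by linarith [le_max_right 1 (Y / 4)]) hθ0.le
      _ = (4 : ℝ) ^ θ * Y1 ^ θ := Real.mul_rpow (by norm_num) (by linarith)
      _ ≤ _ := mul_le_mul_of_nonneg_right (Real.rpow_le_self_of_one_le (by norm_num) hθ1)
          (by positivity)
  have hll : Real.log (Real.log η + 3) ≤ 4 * (1 / θ + 2) * Y1 ^ θ := by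
    calc Real.log (Real.log η + 3) ≤ Real.log η + 2 := by linarith
      _ ≤ (1 / θ + 2) * η ^ θ := by rw [add_mul, one_div_mul_eq_div]; linarith
      _ ≤ (1 / θ + 2) * (4 * Y1 ^ θ) := mul_le_mul_of_nonneg_left e4 (by positivity)
      _ = _ := by ring
  calc Real.log (Real.log η + 3) * (φ * S)
      ≤ 4 * (1 / θ + 2) * Y1 ^ θ * (Φ * Z) :=
        mul_le_mul hll (mul_le_mul hφΦ hSZ hS hΦ) (mul_nonneg hφ hS) (by positivity)
    _ = 16 * (1 / θ + 2) * (Y1 ^ θ / Y * (Φ * Z)) * (Y / 4) := by field_simp; ring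
    _ ≤ _ := mul_le_mul_of_nonneg_left (by linarith) (by positivity)

/-- The kernel of one pair, on its class, with any power of the length. -/
theorem restK_gen (θ : ℝ) (hθ0 : 0 < θ) (hθ1 : θ ≤ 1) : ∃ C : ℝ, 0 ≤ C ∧ ∀ (γ : ℝ) (ψ : ℕ → ℝ) (A A' : ℤ) (B B' q r : ℕ) (H Y : ℝ),
    0 < q → 0 < r → 0 < etaP ψ q r → etaP ψ q r ≤ Y → Y ≤ 4 * etaP ψ q r → 3 ≤ H →
    Real.log q ≤ H → Real.log r ≤ H →
    restK γ ψ A B A' B' q r ≤ C * (1
      + Real.exp (-(2 * (Yof (max 1 (Y / 4)) - 2))) *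
          Real.exp (Yof (max 1 (Y / 4)) * sBig (Yof (max 1 (Y / 4))) (uu q r * vv q r))
      + (if etaP ψ q r ≤ (1 + Real.log H) ^ 4 then
          max 1 (Y / 4) ^ θ / Y * (Ph (uu q r * vv q r) *
            ∑ D ∈ (dset (B * B') q r).filter (fun D : ℕ => Y ≤ 4 * (D : ℝ)),
              EV2i γ A B A' B' Y D q r / D.totient) else 0)) := by
  obtain ⟨C1, hC1n, hC1⟩ := sum_W2_mid
  obtain ⟨Ca, hCa, habove⟩ := above_band
  have hθi : 0 < 1 / θ := by positivity
  set k := 16 * (1 / θ + 2) + Ca with hk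
  have hk32 : 32 ≤ k := by linarith
  set C := (C1 + 1) * ((Real.exp 4 + 1) * k) with hC
  have hE1 : 1 ≤ Real.exp 4 + 1 := by linarith [Real.exp_pos 4]
  have hC8 : 8 ≤ C := by
    rw [hC]
    calc (8 : ℝ) ≤ 1 * (1 * k) := by linarith
      _ ≤ _ := mul_le_mul (by linarith) (mul_le_mul_of_nonneg_right hE1 (by linarith))
          (by linarith) (by linarith)
  refine ⟨C, by linarith, fun γ ψ A A' B B' q r H Y hq hr hη0 hηY hY4 hH hlq hlr => ?_⟩
  set η := etaP ψ q r with hη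
  set Y1 := max 1 (Y / 4) with hY1
  set n := uu q r * vv q r with hn
  set Z := ∑ D ∈ (dset (B * B') q r).filter (fun D : ℕ => Y ≤ 4 * (D : ℝ)),
      EV2i γ A B A' B' Y D q r / (D.totient : ℝ) with hZ
  set X := Real.exp (-(2 * (Yof Y1 - 2))) * Real.exp (Yof Y1 * sBig (Yof Y1) n) with hX
  have hYpos : 0 < Y := lt_of_lt_of_le hη0 hηY
  have hY11 : 1 ≤ Y1 := le_max_left _ _
  have hn0 : 0 < n := uu_mul_vv_pos q r hq hr
  have hev0 : ∀ (y : ℝ) (D : ℕ), 0 ≤ EV2i γ A B A' B' y D q r / (D.totient : ℝ) := fun y D =>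
    div_nonneg (EV2i_mem ..).1 (Nat.cast_nonneg _)
  have hZ0 : 0 ≤ Z := sum_nonneg fun D _ => hev0 Y D
  have hX0 : 0 < X := by positivity
  have hP0 : 0 ≤ Ph n := Ph_nonneg n
  have hT0 : 0 ≤ Y1 ^ θ / Y * (Ph n * Z) := by positivity
  have hx1 : 1 ≤ Real.log H := by
    rw [Real.le_log_iff_exp_le (by linarith)]
    linarith [Real.exp_one_lt_d9]
  have hdsub : ∀ (P : ℕ → Prop) [DecidablePred P],
      (∀ D ∈ dset (B * B') q r, P D → Y ≤ 4 * (D : ℝ)) →
      ∑ D ∈ (dset (B * B') q r).filter P, EV2i γ A B A' B' η D q r / (D.totient : ℝ) ≤ Z := by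
    intro P _ hP
    refine le_trans (sum_le_sum fun D _ => div_le_div_of_nonneg_right
      (EV2i_mono γ A B A' B' D q r hηY) (Nat.cast_nonneg _)) ?_
    exact sum_le_sum_of_subset_of_nonneg
      (fun D hD => mem_filter.2 ⟨(mem_filter.1 hD).1, hP D (mem_filter.1 hD).1 (mem_filter.1 hD).2⟩)
      (fun D _ _ => hev0 Y D)
  rw [restK, ← hη, div_le_iff₀ hη0]
  by_cases h1 : η < 1
  · refine (small_key γ A A' B B' q r η Y θ C hq hr hη0 h1 hηY hY4 hθ0.le hC8).trans ?_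
    rw [if_pos (h1.le.trans (one_le_pow₀ (by linarith)))]
    exact mul_le_mul_of_nonneg_right
      (mul_le_mul_of_nonneg_left (by linarith) (by linarith)) hη0.le
  have h1' : 1 ≤ η := not_lt.1 h1
  refine (hC1 γ η A A' B B' q r hq hr h1').trans ?_
  set Lη := Real.log η with hL
  have hL0 : 0 ≤ Lη := Real.log_nonneg h1'
  have hY1η : Y1 ≤ η := max_le h1' (by linarith)
  have hmono : Yof Y1 ≤ Yof η := by
    have hl1 : 0 ≤ Real.log Y1 := Real.log_nonneg hY11
    have hl2 : Real.log Y1 ≤ Lη := Real.log_le_log (by linarith) hY1η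
    unfold Yof
    exact pow_le_pow_left₀ (by linarith [midY0_ge]) (by linarith) 2
  have hY2 : 2 ≤ Yof Y1 := by
    have h2 := midY0_ge
    have hl1 : 0 ≤ Real.log Y1 := Real.log_nonneg hY11
    unfold Yof
    nlinarith
  have hphi : phiBig (Yof η) n ≤ Real.exp 4 + X := midPhiBig_split (Yof Y1) (Yof η) n hmono hY2
  have hphi0 : 0 ≤ phiBig (Yof η) n := prod_nonneg fun p hp => by
    linarith [ratio_nonneg (Nat.prime_of_mem_primeFactors (mem_filter.1 hp).1).two_le]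
  set S := ∑ D ∈ (dset (B * B') q r).filter (fun D : ℕ => 2 * η < (D : ℝ)),
      EV2i γ A B A' B' η D q r / (D.totient : ℝ) with hS
  have hS0 : 0 ≤ S := sum_nonneg fun D _ => hev0 η D
  have hll0 : 0 ≤ Real.log (Lη + 3) := Real.log_nonneg (by linarith)
  set R := if η ≤ (1 + Real.log H) ^ 4 then Y1 ^ θ / Y * (Ph n * Z) else 0 with hR
  have hR0 : 0 ≤ R := by
    rw [hR]
    split_ifs
    · exact hT0
    · exact le_rfl
  have hkey : Real.log (Lη + 3) * (phiBig (Yof η) n * S) ≤ k * (R + 1) * η := by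
    by_cases hband : η ≤ (1 + Real.log H) ^ 4
    · have hSZ : S ≤ Z := hdsub (fun D : ℕ => 2 * η < (D : ℝ)) (fun D _ h => by linarith)
      rw [hR, if_pos hband]
      exact (band_key θ η Y (Ph n) S Z hθ0 hθ1 h1' hηY hY4 hP0 hS0 hSZ
        hphi0 (midPhiBig_le_Ph _ n hn0)).trans (mul_le_mul_of_nonneg_right
          (mul_le_mul (by rw [hk]; linarith) (by linarith) hT0 (by linarith)) hη0.le)
    · -- above the band
      push Not at hband
      rw [hR, if_neg (not_le.2 hband), zero_add, mul_one]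
      exact (habove γ η (Yof η) A A' B B' q r H (fun D : ℕ => 2 * η < (D : ℝ)) hq hr hH hlq hlr h1'
        hband).trans (mul_le_mul_of_nonneg_right (le_add_of_nonneg_left (by positivity)) hη0.le)
  calc C1 * (phiBig (Yof η) n * (η + Real.log (Lη + 3) * S))
      = C1 * (phiBig (Yof η) n * η + Real.log (Lη + 3) * (phiBig (Yof η) n * S)) := by ring
    _ ≤ (C1 + 1) * ((Real.exp 4 + X) * η + k * (R + 1) * η) := by
        refine mul_le_mul (by linarith) (add_le_add (mul_le_mul_of_nonneg_right hphi hη0.le) hkey)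
          (add_nonneg (mul_nonneg hphi0 hη0.le) (mul_nonneg hll0 (mul_nonneg hphi0 hS0)))
          (by linarith)
    _ ≤ (C1 + 1) * ((Real.exp 4 + 1) * k * (1 + X + R) * η) := by
        refine mul_le_mul_of_nonneg_left ?_ (by linarith)
        rw [← add_mul]
        refine mul_le_mul_of_nonneg_right ?_ hη0.le
        set e := (Real.exp 4 + 1) * k with he
        have g1 : Real.exp 4 + k ≤ e := by
          have := mul_le_mul_of_nonneg_left (show (1 : ℝ) ≤ k by linarith) (Real.exp_pos 4).le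
          rw [he]; linarith
        have g2 : (1 : ℝ) ≤ e := le_trans (by linarith [Real.exp_pos 4]) g1
        have g3 : k ≤ e := le_trans (by linarith [Real.exp_pos 4]) g1
        linarith [mul_le_mul_of_nonneg_right g2 hX0.le, mul_le_mul_of_nonneg_right g3 hR0]
    _ = _ := by rw [hC]; ring

/-- The kernel of one pair, on its class. -/
theorem restK_le : ∃ C : ℝ, 0 ≤ C ∧ ∀ (γ : ℝ) (ψ : ℕ → ℝ) (A A' : ℤ) (B B' q r : ℕ) (H Y : ℝ),
    0 < q → 0 < r → 0 < etaP ψ q r → etaP ψ q r ≤ Y → Y ≤ 4 * etaP ψ q r → 3 ≤ H →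
    Real.log q ≤ H → Real.log r ≤ H →
    restK γ ψ A B A' B' q r ≤ C * (1
      + Real.exp (-(2 * (Yof (max 1 (Y / 4)) - 2))) *
          Real.exp (Yof (max 1 (Y / 4)) * sBig (Yof (max 1 (Y / 4))) (uu q r * vv q r))
      + (if etaP ψ q r ≤ (1 + Real.log H) ^ 4 then
          max 1 (Y / 4) ^ (eps / 4) / Y * (Ph (uu q r * vv q r) *
            ∑ D ∈ (dset (B * B') q r).filter (fun D : ℕ => Y ≤ 4 * (D : ℝ)),
              EV2i γ A B A' B' Y D q r / D.totient) else 0)) :=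
  restK_gen (eps / 4) (by unfold eps; norm_num) (by unfold eps; norm_num)

end Vale.Agent.P028G
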