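import Vale.Agent.P028G.Cls
import Vale.Agent.P028G.Kernel
import Vale.Agent.P028X.Group
import Vale.Agent.P028L.Main

/-! P028G module CROSS: the coincidences off the common resonance between all pairs of levels of a slice. -/

namespace Vale.Agent.P028G

open Finset
open Vale.Agent.P028
open Vale.Agent.P028.Overlap (sum_dset)
open Vale.Agent.P028L
open Vale.Agent.P028.MainAux (cls scale cls_spec one_le_scale)
open Vale.Agent.P028X (midDel_sum)
open Vale.Agent.P028M (wgt)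

/-- The gain between two levels. -/
noncomputable def wg (c H s : ℝ) : ℝ := Real.exp (-(c * s) / Real.log H) + H ^ (-(1 / 800) : ℝ)

/-- The length attached to the dyadic class of a pair. -/
noncomputable def Yown (ψ : ℕ → ℝ) (q r : ℕ) : ℝ :=
  2 * max ((2 : ℝ) ^ (midIdx ((vv q r : ℝ) * ψ q) : ℝ)) ((2 : ℝ) ^ (midIdx ((uu q r : ℝ) * ψ r) : ℝ))

/-- The excess of the large primes. -/
noncomputable def exK (Y : ℝ) (n : ℕ) : ℝ :=
  Real.exp (-(2 * (Yof (max 1 (Y / 4)) - 2))) *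
    Real.exp (Yof (max 1 (Y / 4)) * sBig (Yof (max 1 (Y / 4))) n)

/-- The sum over moduli of a pair in the band. -/
noncomputable def bK (γ : ℝ) (A : ℤ) (B : ℕ) (A' : ℤ) (B' : ℕ) (Y : ℝ) (q r : ℕ) : ℝ :=
  max 1 (Y / 4) ^ (eps / 4) / Y * (Ph (uu q r * vv q r) *
    ∑ D ∈ (dset (B * B') q r).filter (fun D : ℕ => Y ≤ 4 * (D : ℝ)),
      EV2i γ A B A' B' Y D q r / D.totient)

lemma bK_nonneg (γ : ℝ) (A : ℤ) (B : ℕ) (A' : ℤ) (B' : ℕ) {Y : ℝ} (hY : 0 ≤ Y) (q r : ℕ) :
    0 ≤ bK γ A B A' B' Y q r := by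
  have h1 : (0 : ℝ) ≤ max 1 (Y / 4) := zero_le_one.trans (le_max_left _ _)
  exact mul_nonneg (div_nonneg (Real.rpow_nonneg h1 _) hY) (mul_nonneg (Ph_nonneg _)
    (sum_nonneg fun D _ => div_nonneg (EV2i_mem ..).1 (Nat.cast_nonneg _)))

/-- A power of `1 + log H` is below any power of `H`. -/
lemma poly_le (n : ℕ) {θ : ℝ} (hθ : 0 < θ) :
    ∃ C : ℝ, 0 < C ∧ ∀ x : ℝ, 0 ≤ x → (1 + x) ^ n ≤ C * Real.exp (θ * x) := by
  refine ⟨(n.factorial : ℝ) / θ ^ n * Real.exp θ, by positivity, fun x hx => ?_⟩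
  have h := Real.pow_div_factorial_le_exp (θ * (1 + x)) (show 0 ≤ θ * (1 + x) by positivity) n
  rw [mul_pow, mul_add, Real.exp_add, mul_one, div_le_iff₀ (by positivity)] at h
  rw [div_mul_eq_mul_div, div_mul_eq_mul_div, le_div_iff₀ (by positivity)]
  linarith

lemma wg_pos {c H s : ℝ} (hH : 3 ≤ H) : 0 < wg c H s :=
  add_pos (Real.exp_pos _) (Real.rpow_pos_of_pos (by linarith) _)

lemma wg_anti {c c' H s : ℝ} (hH : 3 ≤ H) (hs : 0 ≤ s) (h : c ≤ c') : wg c' H s ≤ wg c H s := by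
  refine add_le_add (Real.exp_le_exp.2 ?_) le_rfl
  rw [div_le_div_iff_of_pos_right (Real.log_pos (by linarith))]
  linarith [mul_le_mul_of_nonneg_right h hs]

lemma wgt_root {κ H s : ℝ} (hH : 3 ≤ H) :
    wgt κ H s ^ (1 / 50 : ℝ) ≤ Real.exp (-(κ / 50 * s) / Real.log H) + H ^ (-(1 / 400) : ℝ) := by
  have h0 : 0 ≤ H := by linarith
  rw [wgt]
  refine (Real.rpow_add_le_add_rpow (Real.exp_pos _).le (Real.rpow_nonneg h0 _) (by norm_num)
    (by norm_num)).trans (add_le_add (le_of_eq ?_) (le_of_eq ?_))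
  · rw [← Real.exp_mul]; ring_nf
  · rw [← Real.rpow_mul h0]; norm_num

/-- Cauchy-Schwarz and the two bounds of an event, combined. -/
lemma geo {X E f P Q w Ω K : ℝ} (hX0 : 0 ≤ X) (hE0 : 0 ≤ E) (hf : 0 ≤ f) (hP : 0 ≤ P) (hQ : 0 ≤ Q)
    (hw : 0 ≤ w) (hΩ : 0 ≤ Ω) (hK : 1 ≤ K) (hX : X ≤ K * (P * Ω)) (h1 : E ≤ K * (f * P * Ω))
    (h2 : E ≤ K * (Q * w * Ω)) :
    Real.sqrt X * Real.sqrt E
      ≤ K * (f ^ (12 / 25 : ℝ) * (P ^ (49 / 50 : ℝ) * Q ^ (1 / 50 : ℝ)) * w ^ (1 / 50 : ℝ) * Ω) := by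
  have hK0 : 0 ≤ K := zero_le_one.trans hK
  rw [← Real.sqrt_mul hX0]
  refine Real.sqrt_le_iff.2 ⟨by positivity, ?_⟩
  have hE := two_bounds hE0 h1 h2 (show (0 : ℝ) ≤ 1 / 25 by norm_num) (by norm_num)
  refine (mul_le_mul hX hE hE0 (by positivity)).trans (le_of_eq ?_)
  have esq : ∀ x b : ℝ, 0 ≤ x → (x ^ b) ^ 2 = x ^ (b * 2) := fun x b hx => by
    rw [← Real.rpow_two, ← Real.rpow_mul hx]
  have eK : K ^ (24 / 25 : ℝ) * K ^ (1 / 25 : ℝ) = K := by
    rw [← Real.rpow_add' hK0 (by norm_num)]; norm_num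
  have eΩ : Ω ^ (24 / 25 : ℝ) * Ω ^ (1 / 25 : ℝ) = Ω := by
    rw [← Real.rpow_add' hΩ (by norm_num)]; norm_num
  have eP : P * P ^ (24 / 25 : ℝ) = P ^ (49 / 25 : ℝ) := by
    rw [← Real.rpow_one_add' hP (by norm_num)]; norm_num
  simp only [mul_pow, esq _ _ hf, esq _ _ hP, esq _ _ hQ, esq _ _ hw]
  rw [Real.mul_rpow hK0 (by positivity), Real.mul_rpow (by positivity) hΩ, Real.mul_rpow hf hP,
    Real.mul_rpow hK0 (by positivity), Real.mul_rpow (by positivity) hΩ, Real.mul_rpow hQ hw]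
  norm_num
  calc K * (P * Ω) * (K ^ (24 / 25 : ℝ) * (f ^ (24 / 25 : ℝ) * P ^ (24 / 25 : ℝ) * Ω ^ (24 / 25 : ℝ)) *
        (K ^ (1 / 25 : ℝ) * (Q ^ (1 / 25 : ℝ) * w ^ (1 / 25 : ℝ) * Ω ^ (1 / 25 : ℝ))))
      = K * (K ^ (24 / 25 : ℝ) * K ^ (1 / 25 : ℝ)) * (f ^ (24 / 25 : ℝ) *
          ((P * P ^ (24 / 25 : ℝ)) * Q ^ (1 / 25 : ℝ)) * w ^ (1 / 25 : ℝ)) *
          (Ω * (Ω ^ (24 / 25 : ℝ) * Ω ^ (1 / 25 : ℝ))) := by ring
    _ = _ := by rw [eK, eΩ, eP]; ring

/-- The exponents of a balanced class. -/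
lemma balNum (y1 y2 Y b : ℝ) (hy1 : 0 < y1) (hy2 : 0 < y2) (hY : Y = 2 * max y1 y2)
    (hb : b ≤ -(7 / 10 * eps)) (hb1 : -1 ≤ b) :
    max 1 (Y / 4) ^ b / Y * (Y ^ (12 / 5 * eps) * (((y1 * y2) ^ (1 / 2 - eps)) ^ (49 / 50 : ℝ) *
        (Y ^ (1 - 3 * eps) * max 1 (Y / 4) ^ (3 * eps)) ^ (1 / 50 : ℝ)))
      ≤ 16 * midDel (eps / 4) y1 y2 := by
  obtain ⟨hY0, hr0, hP, -, hr1⟩ := midRatio y1 y2 Y hy1 hy2 hY
  have heps : eps = 1 / 100000 := rfl
  have hM : (0 : ℝ) < max 1 (Y / 4) := lt_of_lt_of_le one_pos (le_max_left _ _)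
  have hd := midDelta (eps / 4) (19 / 50 * eps) (b + 3 / 50 * eps) Y hY0 (by linarith) (by linarith)
    (by linarith) (by linarith) (by linarith)
  unfold midDel
  rw [hP, ← hY]
  set r := y1 * y2 / Y ^ 2
  set Y1 := max 1 (Y / 4)
  rw [Real.mul_rpow (by positivity) (by positivity), Real.mul_rpow (by positivity) (by positivity),
    ← Real.rpow_mul hr0.le, ← Real.rpow_mul hY0.le, ← Real.rpow_mul hY0.le, ← Real.rpow_mul hM.le]
  calc Y1 ^ b / Y * (Y ^ (12 / 5 * eps) * (r ^ ((1 / 2 - eps) * (49 / 50)) *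
        Y ^ (2 * (1 / 2 - eps) * (49 / 50)) *
        (Y ^ ((1 - 3 * eps) * (1 / 50)) * Y1 ^ (3 * eps * (1 / 50)))))
      = r ^ ((1 / 2 - eps) * (49 / 50)) * ((Y ^ (12 / 5 * eps) * (Y ^ (2 * (1 / 2 - eps) * (49 / 50))
          * Y ^ ((1 - 3 * eps) * (1 / 50)))) / Y * (Y1 ^ b * Y1 ^ (3 * eps * (1 / 50)))) := by ring
    _ = r ^ ((1 / 2 - eps) * (49 / 50)) *
          (Y ^ (19 / 50 * eps) * Y1 ^ (b + 3 / 50 * eps)) := by
        rw [← Real.rpow_add hY0, ← Real.rpow_add hY0, ← Real.rpow_sub_one hY0.ne',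
          ← Real.rpow_add hM]
        ring_nf
    _ ≤ r ^ (1 / 10 : ℝ) * (16 * Real.exp (-(eps / 4) * |Real.log Y|)) := by
        refine mul_le_mul (Real.rpow_le_rpow_of_exponent_ge hr0 hr1 ?_) hd (by positivity)
          (by positivity)
        rw [heps]; norm_num
    _ = _ := by ring

/-- The exponents of an imbalanced class. -/
lemma imbalNum (y1 y2 Y t s : ℝ) (hy1 : 0 < y1) (hy2 : 0 < y2) (hY : Y = 2 * max y1 y2)
    (ht : 0 ≤ t) (hts : 10 ^ 7 * t ≤ s) (hYlo : Real.exp (-(2 * t)) ≤ Y)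
    (hbal : ¬ (Y * Real.exp (-nuM * s) ≤ y1 ∧ Y * Real.exp (-nuM * s) ≤ y2)) :
    (y1 * y2) ^ (1 / 2 - eps) / Y ≤ Real.exp (-(s / 500000)) * midDel (eps / 4) y1 y2 := by
  obtain ⟨hY0, hr0, hP, -, hr1⟩ := midRatio y1 y2 Y hy1 hy2 hY
  have heps : eps = 1 / 100000 := rfl
  have hm1 := le_max_left y1 y2
  have hm2 := le_max_right y1 y2
  unfold midDel
  rw [hP, ← hY, mul_div_assoc, ← Real.rpow_sub_one hY0.ne']
  set r := y1 * y2 / Y ^ 2 with hrd
  have hrν : r ≤ Real.exp (-nuM * s) := by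
    rw [hrd, div_le_iff₀ (by positivity)]
    rcases not_and_or.1 hbal with h | h
    · linarith [mul_le_mul (not_le.1 h).le (show y2 ≤ Y by linarith) hy2.le (by positivity)]
    · linarith [mul_le_mul (not_le.1 h).le (show y1 ≤ Y by linarith) hy1.le (by positivity)]
  have hr : r ^ (1 / 2 - eps) ≤ r ^ (1 / 10 : ℝ) * Real.exp (-(3 / 10) * nuM * s) := by
    calc r ^ (1 / 2 - eps) ≤ r ^ (1 / 10 + 3 / 10 : ℝ) :=
          Real.rpow_le_rpow_of_exponent_ge hr0 hr1 (by rw [heps]; norm_num)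
      _ = r ^ (1 / 10 : ℝ) * r ^ (3 / 10 : ℝ) := Real.rpow_add hr0 _ _
      _ ≤ r ^ (1 / 10 : ℝ) * Real.exp (-nuM * s) ^ (3 / 10 : ℝ) := by gcongr
      _ = _ := by rw [← Real.exp_mul]; ring_nf
  have key : Real.exp (-(3 / 10) * nuM * s) * Y ^ (2 * (1 / 2 - eps) - 1)
      ≤ Real.exp (-(s / 500000)) * Real.exp (-(eps / 4) * |Real.log Y|) := by
    rw [Real.rpow_def_of_pos hY0, ← Real.exp_add, ← Real.exp_add]
    refine Real.exp_le_exp.2 ?_
    have hl : -(2 * t) ≤ Real.log Y := (Real.le_log_iff_exp_le hY0).2 hYlo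
    unfold nuM
    rw [heps]
    rcases abs_cases (Real.log Y) with ⟨e, h⟩ | ⟨e, h⟩ <;> rw [e] <;> linarith
  calc r ^ (1 / 2 - eps) * Y ^ (2 * (1 / 2 - eps) - 1)
      ≤ r ^ (1 / 10 : ℝ) * Real.exp (-(3 / 10) * nuM * s) * Y ^ (2 * (1 / 2 - eps) - 1) :=
        mul_le_mul_of_nonneg_right hr (by positivity)
    _ ≤ r ^ (1 / 10 : ℝ) * (Real.exp (-(s / 500000)) * Real.exp (-(eps / 4) * |Real.log Y|)) := by
        rw [mul_assoc]
        exact mul_le_mul_of_nonneg_left key (by positivity)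
    _ = _ := by ring

/-- The moduli above `e^{t/2}`. -/
lemma tail_K (a κ : ℝ) (ha : 0 < a) (hκ : 0 < κ) :
    ∃ C : ℝ, 0 ≤ C ∧ ∀ (γ t0 H t s : ℝ) (ψ : ℕ → ℝ) (V W : Finset ℕ) (A A' : ℤ) (B B' : ℕ),
      Lev γ a t0 H t s ψ V W A B A' B' → 1 ≤ t → ∃ K : ℝ, 0 ≤ K ∧
        K * ((1 + Real.log H) * wgt κ H s ^ (1 / 50 : ℝ)) ≤ C * wg (κ / 100) H s ∧
        ∀ q ∈ V, ∀ r ∈ W, ∀ Y : ℝ, 0 < Y → Y ≤ 4 * (1 + Real.log H) ^ 4 →
          (vv q r : ℝ) * ψ q ≤ Y → (uu q r : ℝ) * ψ r ≤ Y →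
          ∑ D ∈ (dset (B * B') q r).filter (fun D : ℕ => Real.exp (t / 2) < (D : ℝ)),
            EV2i γ A B A' B' Y D q r / D.totient ≤ K * EV2i γ A B A' B' Y 1 q r := by
  classical
  obtain ⟨Cl, hCl, hlog⟩ := Ph_le_log
  obtain ⟨Cs, hCs, hslice⟩ := Ph_slice
  obtain ⟨Ct, hCt, htail⟩ := tail_le
  obtain ⟨Ca, hCa, habs⟩ := absorb 26 (a / 8) (by positivity)
  obtain ⟨Ch, hCh, hpolyH⟩ := poly_le 2 (show (0 : ℝ) < 1 / 800 by norm_num)
  obtain ⟨Ce, hCe, hpolyE⟩ := poly_le 2 (show (0 : ℝ) < κ / 100 by positivity)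
  set Kc := 9 * (Ct * (7 * Cl) ^ 21) with hKc
  have hKc0 : 0 ≤ Kc := by positivity
  refine ⟨Kc * Ca + Cs * (Ce + Ch), by positivity, ?_⟩
  intro γ t0 H t s ψ V W A A' B B' hL ht
  have hlow := hL.low (by linarith)
  obtain ⟨hψ, hV, hW, ⟨hH, htH, hat, -, hts⟩, ⟨hB, hBQ, -, hBA⟩, ⟨hB', hBQ', -, hBA'⟩⟩ := hL
  set x := Real.log H with hx
  have hx1 : 1 ≤ x := P028M.log_one hH
  have hs : 0 ≤ s := by linarith
  have hts' : t ≤ s := by linarith
  have hroot := wgt_root (κ := κ) (s := s) hH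
  have hw0 : 0 ≤ wgt κ H s ^ (1 / 50 : ℝ) := Real.rpow_nonneg (P028M.wgt_pos hH).le _
  have hwg := wg_pos (c := κ / 100) (s := s) hH
  have hroot' : wgt κ H s ^ (1 / 50 : ℝ) ≤ wg (κ / 100) H s := by
    refine hroot.trans (add_le_add (Real.exp_le_exp.2 ?_)
      (Real.rpow_le_rpow_of_exponent_le (by linarith) (by norm_num)))
    rw [div_le_div_iff_of_pos_right (by linarith)]
    linarith [mul_nonneg hκ.le hs]
  have hone : ∀ (Y : ℝ) (D q r : ℕ), EV2i γ A B A' B' Y D q r ≤ EV2i γ A B A' B' Y 1 q r := by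
    intro Y D q r
    unfold EV2i
    split_ifs with h1 h2 <;> norm_num
    obtain ⟨n, hn, -, hne⟩ := h1
    exact h2 ⟨n, hn, one_dvd _, hne⟩
  by_cases hsmall : s ≤ (1 + x) ^ 4
  · -- the moduli are large against the determinant
    set E := Real.exp (-(a / 8 * x / (Real.log (1 + x) + 1))) with hE
    refine ⟨Kc * ((1 + x) ^ 25 * E), by positivity, ?_, ?_⟩
    · calc Kc * ((1 + x) ^ 25 * E) * ((1 + x) * wgt κ H s ^ (1 / 50 : ℝ))
          = Kc * ((1 + x) ^ 26 * E) * wgt κ H s ^ (1 / 50 : ℝ) := by ring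
        _ ≤ Kc * Ca * wg (κ / 100) H s := mul_le_mul
            (mul_le_mul_of_nonneg_left (habs x (by linarith)) hKc0) hroot' hw0 (by positivity)
        _ ≤ _ := mul_le_mul_of_nonneg_right (le_add_of_nonneg_right (by positivity)) hwg.le
    intro q hq r hr Y hY hYhi hv hu
    have hq0 := (hV q hq).1
    have hr0 := (hW r hr).1
    set F := (dset (B * B') q r).filter (fun D : ℕ => Real.exp (t / 2) < (D : ℝ)) with hF
    rcases (EV2i_mem γ A B A' B' Y 1 q r).1.eq_or_lt with he | he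
    · rw [← he, mul_zero]
      refine sum_nonpos fun D _ => ?_
      have h1 := hone Y D q r
      rw [← he] at h1
      exact div_nonpos_of_nonpos_of_nonneg h1 (Nat.cast_nonneg _)
    have he1 : EV2i γ A B A' B' Y 1 q r = 1 := by
      unfold EV2i at he ⊢
      split_ifs at he ⊢ with h
      · rfl
      · exact absurd he (lt_irrefl _)
    rw [he1, mul_one]
    set N := (nWin γ Y q r).filter (fun n : ℤ => D2 A B A' B' q r n ≠ 0) with hN
    set L := 3 * s + 4 * (1 + x) + 8 with hL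
    have hL3 : 3 ≤ L := by linarith
    have hp4 : (1 : ℝ) ≤ (1 + x) ^ 4 := one_le_pow₀ (by linarith)
    have hp4' : 1 + x ≤ (1 + x) ^ 4 := le_self_pow₀ (by linarith) (by norm_num)
    have hl15 : Real.log (18 * (1 + x) ^ 4) ≤ 3 + 4 * Real.log (1 + x) := by
      rw [Real.log_mul (by norm_num) (by positivity), Real.log_pow]
      push_cast
      have h18 : Real.log 18 ≤ 3 := by
        rw [Real.log_le_iff_le_exp (by norm_num)]
        have h1 := Real.exp_one_gt_d9
        have h3 : Real.exp 3 = Real.exp 1 ^ 3 := by rw [← Real.exp_nat_mul]; norm_num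
        rw [h3]
        exact le_trans (by norm_num) (pow_le_pow_left₀ (by norm_num : (0 : ℝ) ≤ 2.7182818283) h1.le 3)
      linarith
    have hlL : Real.log L ≤ 4 * (Real.log (1 + x) + 1) := by
      refine le_trans (Real.log_le_log (by linarith) ?_) (hl15.trans (by linarith))
      linarith
    have hlogN : ∀ n ∈ N, 0 < (D2 A B A' B' q r n).natAbs ∧
        Real.log ((D2 A B A' B' q r n).natAbs : ℝ) ≤ L := by
      intro n hn
      obtain ⟨hn1, hn2⟩ := mem_filter.1 hn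
      have hpos := Int.natAbs_pos.2 hn2
      refine ⟨hpos, ?_⟩
      have habsN : |(n : ℝ) + γ * (hh q r : ℝ)| ≤ Y := ((mem_nWin γ Y q r n).1 hn1).le
      have hvY : (vv q r : ℝ) ≤ Y * Real.exp (2 * t) := by
        rw [← div_le_iff₀ (Real.exp_pos _), div_eq_mul_inv, ← Real.exp_neg]
        exact (mul_le_mul_of_nonneg_left (hlow q hq) (Nat.cast_nonneg _)).trans hv
      have huY : (uu q r : ℝ) ≤ Y * Real.exp (2 * s) := by
        rw [← div_le_iff₀ (Real.exp_pos _), div_eq_mul_inv, ← Real.exp_neg]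
        refine (mul_le_mul_of_nonneg_left (le_trans (Real.exp_le_exp.2 ?_) (hW r hr).2.1)
          (Nat.cast_nonneg _)).trans hu
        unfold zeta0; linarith
      have hone' : ∀ z : ℝ, 0 ≤ z → 1 / Real.exp (z / 2) ≤ 1 := fun z hz => by
        rw [div_le_one (Real.exp_pos _)]; exact Real.one_le_exp (by linarith)
      have hbig : |(D2 A B A' B' q r n : ℝ)| ≤ 3 * (Y * Real.exp (3 * s)) := by
        refine (abs_D2_le γ A A' B B' q r n).trans ?_
        have b1 : (B : ℝ) * B' * |(n : ℝ) + γ * (hh q r : ℝ)| ≤ Y * Real.exp (3 * s) := by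
          calc (B : ℝ) * B' * |(n : ℝ) + γ * (hh q r : ℝ)|
              ≤ Real.exp (t / 2) * Real.exp (s / 2) * Y :=
                mul_le_mul (mul_le_mul hBQ hBQ' (Nat.cast_nonneg _) (Real.exp_pos _).le) habsN
                  (abs_nonneg _) (by positivity)
            _ ≤ Real.exp (3 * s) * Y := by
                rw [← Real.exp_add]
                exact mul_le_mul_of_nonneg_right (Real.exp_le_exp.2 (by linarith)) hY.le
            _ = _ := mul_comm _ _
        have b2 : |(B : ℝ) * γ - A| * B' * (vv q r : ℝ) ≤ Y * Real.exp (3 * s) := by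
          calc |(B : ℝ) * γ - A| * B' * (vv q r : ℝ)
              ≤ 1 * Real.exp (s / 2) * (Y * Real.exp (2 * t)) :=
                mul_le_mul (mul_le_mul (hBA.trans (hone' t (by linarith))) hBQ' (Nat.cast_nonneg _)
                  zero_le_one) hvY (Nat.cast_nonneg _) (by positivity)
            _ = Y * (Real.exp (s / 2) * Real.exp (2 * t)) := by ring
            _ ≤ _ := by
                rw [← Real.exp_add]
                exact mul_le_mul_of_nonneg_left (Real.exp_le_exp.2 (by linarith)) hY.le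
        have b3 : |(B' : ℝ) * γ - A'| * B * (uu q r : ℝ) ≤ Y * Real.exp (3 * s) := by
          calc |(B' : ℝ) * γ - A'| * B * (uu q r : ℝ)
              ≤ 1 * Real.exp (t / 2) * (Y * Real.exp (2 * s)) :=
                mul_le_mul (mul_le_mul (hBA'.trans (hone' s hs)) hBQ (Nat.cast_nonneg _)
                  zero_le_one) huY (Nat.cast_nonneg _) (by positivity)
            _ = Y * (Real.exp (t / 2) * Real.exp (2 * s)) := by ring
            _ ≤ _ := by
                rw [← Real.exp_add]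
                exact mul_le_mul_of_nonneg_left (Real.exp_le_exp.2 (by linarith)) hY.le
        linarith
      rw [Nat.cast_natAbs, Int.cast_abs]
      have hpos' : 0 < |(D2 A B A' B' q r n : ℝ)| := abs_pos.2 (Int.cast_ne_zero.2 hn2)
      have hle : |(D2 A B A' B' q r n : ℝ)| ≤ 18 * (1 + x) ^ 4 * Real.exp (3 * s) := by
        have h1 := mul_le_mul_of_nonneg_right hYhi (Real.exp_pos (3 * s)).le
        have h2 : 0 ≤ (1 + x) ^ 4 * Real.exp (3 * s) := by positivity
        linarith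
      refine (Real.log_le_log hpos' hle).trans ?_
      rw [Real.log_mul (by positivity) (Real.exp_pos _).ne', Real.log_exp]
      linarith [Real.log_le_sub_one_of_pos (show 0 < 1 + x by linarith)]
    have hterm : ∀ n ∈ N, ∑ D ∈ F.filter (fun D : ℕ => (D : ℤ) ∣ D2 A B A' B' q r n),
        (1 : ℝ) / D.totient ≤ Ct * (7 * Cl * (1 + x)) ^ 21 * E := by
      intro n hn
      obtain ⟨hpos, hlN⟩ := hlogN n hn
      refine (htail (D2 A B A' B' q r n).natAbs L (Real.exp (t / 2)) _ hpos hlN hL3 (Real.exp_pos _)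
        fun D hD => ?_).trans ?_
      · obtain ⟨h1, h2⟩ := mem_filter.1 hD
        obtain ⟨h3, h4⟩ := mem_filter.1 h1
        exact ⟨Int.natCast_dvd.1 h2, (mem_filter.1 h3).2.1, h4⟩
      refine mul_le_mul (mul_le_mul_of_nonneg_left (pow_le_pow_left₀ (Ph_nonneg _) ?_ 21)
        (by linarith)) ?_ (Real.rpow_nonneg (Real.exp_pos _).le _) (by positivity)
      · refine (hlog _ hpos).trans ?_
        rw [mul_comm 7 Cl, mul_assoc]
        refine mul_le_mul_of_nonneg_left ?_ (by linarith)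
        refine (Real.log_le_log (by linarith [Real.log_natCast_nonneg (D2 A B A' B' q r n).natAbs])
          (show _ ≤ 18 * (1 + x) ^ 4 by linarith)).trans (hl15.trans ?_)
        linarith [Real.log_le_sub_one_of_pos (show 0 < 1 + x by linarith)]
      · rw [hE, ← Real.exp_mul]
        refine Real.exp_le_exp.2 ?_
        have hl0 : 0 < Real.log (1 + x) + 1 := by linarith [Real.log_nonneg (show 1 ≤ 1 + x by linarith)]
        have hlLp : 0 < Real.log L := Real.log_pos (by linarith)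
        rw [mul_neg, neg_le_neg_iff, mul_one_div, div_le_div_iff₀ hl0 hlLp]
        have h1 := mul_le_mul_of_nonneg_left hlL (show 0 ≤ a / 8 * x by positivity)
        have h2 := mul_le_mul_of_nonneg_right hat hl0.le
        linarith
    have hcardN : (N.card : ℝ) ≤ 9 * (1 + x) ^ 4 := by
      have h := card_class γ Y q r 1 0 1 hY one_pos isCoprime_one_left
      simp at h
      have h2 : (N.card : ℝ) ≤ (nWin γ Y q r).card := by exact_mod_cast card_filter_le _ _
      linarith [(abs_le.1 h).2]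
    calc ∑ D ∈ F, EV2i γ A B A' B' Y D q r / (D.totient : ℝ)
        ≤ ∑ D ∈ F, ∑ n ∈ N, if (D : ℤ) ∣ D2 A B A' B' q r n then (1 : ℝ) / D.totient else 0 := by
          refine sum_le_sum fun D _ => ?_
          have h0 : ∀ n ∈ N, 0 ≤ if (D : ℤ) ∣ D2 A B A' B' q r n then (1 : ℝ) / D.totient else 0 :=
            fun n _ => by split_ifs <;> positivity
          unfold EV2i
          split_ifs with h
          · obtain ⟨n, hn, hd, hne⟩ := h
            refine le_trans (le_of_eq ?_) (single_le_sum h0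
              (mem_filter.2 ⟨(mem_nWin γ Y q r n).2 hn, hne⟩))
            rw [if_pos hd]
          · rw [zero_div]; exact sum_nonneg h0
      _ = ∑ n ∈ N, ∑ D ∈ F.filter (fun D : ℕ => (D : ℤ) ∣ D2 A B A' B' q r n),
            (1 : ℝ) / D.totient := by
          rw [sum_comm]; simp only [sum_filter]
      _ ≤ N.card * (Ct * (7 * Cl * (1 + x)) ^ 21 * E) := by
          rw [← nsmul_eq_mul]; exact sum_le_card_nsmul _ _ _ hterm
      _ ≤ 9 * (1 + x) ^ 4 * (Ct * (7 * Cl * (1 + x)) ^ 21 * E) :=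
          mul_le_mul_of_nonneg_right hcardN (by positivity)
      _ = _ := by rw [hKc, mul_pow (7 * Cl)]; ring
  · -- the weight absorbs the logarithms
    refine ⟨Cs * (1 + x), by positivity, ?_, ?_⟩
    · have hs4 := not_le.1 hsmall
      have e1 : (1 + x) ^ 2 * Real.exp (-(κ / 50 * s) / x)
          ≤ Ce * Real.exp (-(κ / 100 * s) / x) := by
        refine (mul_le_mul_of_nonneg_right (hpolyE x (by linarith)) (Real.exp_pos _).le).trans ?_
        rw [mul_assoc, ← Real.exp_add]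
        refine mul_le_mul_of_nonneg_left (Real.exp_le_exp.2 ?_) hCe.le
        have h1 : x * x ≤ s := by
          have : x * x ≤ (1 + x) ^ 4 := by
            refine le_trans ?_ (pow_le_pow_right₀ (show 1 ≤ 1 + x by linarith) (show 2 ≤ 4 by norm_num))
            linarith [show (1 + x) ^ 2 = 1 + 2 * x + x * x by ring]
          linarith
        rw [le_div_iff₀ (by linarith), add_mul, div_mul_cancel₀ _ (show x ≠ 0 by linarith)]
        linarith [mul_le_mul_of_nonneg_left h1 (show 0 ≤ κ / 100 by positivity)]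
      have e2 : (1 + x) ^ 2 * H ^ (-(1 / 400) : ℝ) ≤ Ch * H ^ (-(1 / 800) : ℝ) := by
        refine (mul_le_mul_of_nonneg_right (hpolyH x (by linarith))
          (Real.rpow_nonneg (by linarith) _)).trans (le_of_eq ?_)
        rw [mul_assoc, mul_comm (1 / 800 : ℝ) x, hx, ← Real.rpow_def_of_pos (by linarith),
          ← Real.rpow_add (by linarith)]
        norm_num
      calc Cs * (1 + x) * ((1 + x) * wgt κ H s ^ (1 / 50 : ℝ))
          = Cs * ((1 + x) ^ 2 * wgt κ H s ^ (1 / 50 : ℝ)) := by ring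
        _ ≤ Cs * ((1 + x) ^ 2 * (Real.exp (-(κ / 50 * s) / x) + H ^ (-(1 / 400) : ℝ))) :=
            mul_le_mul_of_nonneg_left (mul_le_mul_of_nonneg_left hroot (sq_nonneg _)) (by linarith)
        _ = Cs * ((1 + x) ^ 2 * Real.exp (-(κ / 50 * s) / x) + (1 + x) ^ 2 * H ^ (-(1 / 400) : ℝ)) := by
            ring
        _ ≤ Cs * (Ce * Real.exp (-(κ / 100 * s) / x) + Ch * H ^ (-(1 / 800) : ℝ)) :=
            mul_le_mul_of_nonneg_left (add_le_add e1 e2) (by linarith)
        _ ≤ Cs * ((Ce + Ch) * wg (κ / 100) H s) := by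
            refine mul_le_mul_of_nonneg_left ?_ (by linarith)
            rw [wg, mul_add]
            exact add_le_add
              (mul_le_mul_of_nonneg_right (by linarith) (Real.exp_pos _).le)
              (mul_le_mul_of_nonneg_right (by linarith) (Real.rpow_nonneg (by linarith) _))
        _ ≤ _ := by
            rw [← mul_assoc]
            exact mul_le_mul_of_nonneg_right (le_add_of_nonneg_left (by positivity)) hwg.le
    intro q hq r hr Y _ _ _ _
    have hg : 0 < Nat.gcd q r := Nat.gcd_pos_of_pos_left _ (hV q hq).1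
    have hgq : Real.log (Nat.gcd q r : ℝ) ≤ 2 * H := by
      refine (Real.log_le_log (by exact_mod_cast hg)
        (Nat.cast_le.2 (Nat.gcd_le_left r (hV q hq).1))).trans ?_
      linarith [(hV q hq).2.2.2]
    calc _ ≤ ∑ D ∈ dset (B * B') q r, EV2i γ A B A' B' Y 1 q r * ((1 : ℝ) / D.totient) := by
          refine le_trans (sum_le_sum fun D _ => ?_)
            (sum_le_sum_of_subset_of_nonneg (filter_subset _ _)
              fun D _ _ => mul_nonneg (EV2i_mem ..).1 (by positivity))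
          rw [mul_one_div]
          exact div_le_div_of_nonneg_right (hone Y D q r) (Nat.cast_nonneg _)
      _ ≤ EV2i γ A B A' B' Y 1 q r * (Cs * (1 + x)) := by
          rw [← mul_sum]
          exact mul_le_mul_of_nonneg_left ((dset_sum_le _ (hV q hq).1).trans (hslice _ H hg hH hgq))
            (EV2i_mem ..).1
      _ = _ := mul_comm _ _

/-- One class of the band between two levels. -/
theorem band_class (a : ℝ) (ha : 0 < a) :
    ∃ C c t1 : ℝ, 0 ≤ C ∧ 0 < c ∧ ∀ (γ t0 H t s : ℝ) (ψ : ℕ → ℝ) (V W : Finset ℕ) (A A' : ℤ)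
      (B B' : ℕ) (y1 y2 Y : ℝ), Lev γ a t0 H t s ψ V W A B A' B' → t1 ≤ t → 0 < y1 → 0 < y2 →
      Y = 2 * max y1 y2 → Y ≤ 4 * (1 + Real.log H) ^ 4 → Real.exp (-(2 * t)) ≤ Y →
      pairSum (mu ψ) (fun q r => bK γ A B A' B' Y q r * clsI ψ y1 y2 q r) V W
        ≤ C * wg c H s * midDel (eps / 4) y1 y2 * om ψ V W := by
  classical
  have heps : eps = 1 / 100000 := rfl
  obtain ⟨C2, hC2, hcls2⟩ := cls2
  obtain ⟨Ce, te, hCe, hev⟩ := ev2_low
  obtain ⟨Cl, κ, tl, hCl, hκ, hlev⟩ := level_all a ha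
  obtain ⟨Ck, hCk, htK⟩ := tail_K a κ ha hκ
  obtain ⟨Cs, hCs, hslice⟩ := Ph_slice
  obtain ⟨Ct, hCt, hinv⟩ := midInvTotient (eps / 4) (by linarith)
  obtain ⟨Cm, hCm, hsum⟩ := midTailSum (43 / 20 * eps) (by linarith)
  obtain ⟨Cb, hCb, habs⟩ := absorb 3 (5 * a) (by positivity)
  set K2 := C2 + Ce + Cl + 1 with hK2
  have hK1 : 1 ≤ K2 := by linarith
  have hK0 : 0 ≤ K2 := by linarith
  set c := min (κ / 100) (1 / 1000000) with hc
  have hc0 : 0 < c := lt_min (by positivity) (by norm_num)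
  refine ⟨Cs * Cs * K2 * Cb + (Ct * K2 * Cm * 16 + K2 * Ck * 16), c, max 1 (max te tl),
    by positivity, hc0, ?_⟩
  intro γ t0 H t s ψ V W A A' B B' y1 y2 Y hL ht1 hy1 hy2 hY hYhi hYlo
  have ht : 1 ≤ t := (le_max_left _ _).trans ht1
  have hte : te ≤ t := (le_max_left _ _).trans ((le_max_right _ _).trans ht1)
  have htl : tl ≤ t := (le_max_right _ _).trans ((le_max_right _ _).trans ht1)
  have hpos := hL.pos
  have hψ := hL.1
  obtain ⟨hH, htH, hat, -, hts⟩ := hL.2.2.2.1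
  have hμ := mu_nonneg' hψ
  have hΩ := om_nonneg hψ V W
  obtain ⟨hcl, hcl2⟩ := hcls2 ψ V W y1 y2 hψ hpos hy1 hy2
  set x := Real.log H with hx
  have hx1 : 1 ≤ x := P028M.log_one hH
  have hs : 0 ≤ s := by linarith
  have hY0 : 0 < Y := lt_of_lt_of_le (Real.exp_pos _) hYlo
  set Y1 := max 1 (Y / 4) with hY1
  have hY11 : 1 ≤ Y1 := le_max_left _ _
  have hY10 : 0 < Y1 := by linarith
  have hY1L : ∀ b : ℝ, 0 ≤ b → b ≤ eps → Y1 ^ b ≤ 1 + x := fun b hb0 hb => by
    calc Y1 ^ b ≤ ((1 + x) ^ 4) ^ b := by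
          refine Real.rpow_le_rpow hY10.le (max_le (one_le_pow₀ (by linarith)) ?_) hb0
          linarith
      _ = (1 + x) ^ (4 * b) := by
          rw [← Real.rpow_natCast, ← Real.rpow_mul (by linarith)]; norm_num
      _ ≤ (1 + x) ^ (1 : ℝ) :=
          Real.rpow_le_rpow_of_exponent_le (by linarith) (by linarith)
      _ = _ := Real.rpow_one _
  set P := (y1 * y2) ^ (1 / 2 - eps) with hP
  have hP0 : 0 ≤ P := by positivity
  set Ω := om ψ V W with hΩd
  set δ := midDel (eps / 4) y1 y2 with hδ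
  have hδ0 : 0 ≤ δ := by rw [hδ]; unfold midDel; positivity
  have hwg := wg_pos (c := c) (s := s) hH
  have hphi : ∀ q ∈ V, ∀ r ∈ W, Ph (uu q r * vv q r) ≤ Cs * (1 + x) ∧
      Ph (Nat.gcd q r) ≤ Cs * (1 + x) := by
    intro q hq r hr
    obtain ⟨hq0, -, -, hlq⟩ := hL.2.1 q hq
    obtain ⟨hr0, -, -, hlr⟩ := hL.2.2.1 r hr
    have hu : uu q r * vv q r ≤ q * r :=
      Nat.mul_le_mul (Nat.div_le_self _ _) (Nat.div_le_self _ _)
    have huv := uu_mul_vv_pos q r hq0 hr0
    constructor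
    · refine hslice _ H huv hH ((Real.log_le_log (by exact_mod_cast huv) (Nat.cast_le.2 hu)).trans ?_)
      rw [Nat.cast_mul, Real.log_mul (by exact_mod_cast hq0.ne') (by exact_mod_cast hr0.ne')]
      linarith
    · refine hslice _ H (Nat.gcd_pos_of_pos_left _ hq0) hH ((Real.log_le_log
        (by exact_mod_cast Nat.gcd_pos_of_pos_left _ hq0)
        (Nat.cast_le.2 (Nat.gcd_le_left r hq0))).trans ?_)
      linarith
  by_cases hbal : Y * Real.exp (-nuM * s) ≤ y1 ∧ Y * Real.exp (-nuM * s) ≤ y2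
  swap
  · -- imbalanced
    have hnum := imbalNum y1 y2 Y t s hy1 hy2 hY (by linarith) hts hYlo hbal
    have hexp : (1 + x) ^ 3 * Real.exp (-(s / 500000)) ≤ Cb * wg c H s := by
      have h1 : Real.exp (-(s / 1000000)) ≤ wg c H s := by
        refine le_add_of_le_of_nonneg (Real.exp_le_exp.2 ?_) (Real.rpow_nonneg (by linarith) _)
        rw [le_div_iff₀ (by linarith)]
        have h2 := mul_le_mul_of_nonneg_right (min_le_right (κ / 100) (1 / 1000000 : ℝ)) hs
        have h3 := mul_le_mul_of_nonneg_left hx1 (show 0 ≤ s / 1000000 by linarith)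
        linarith
      have h4 : (1 + x) ^ 3 * Real.exp (-(s / 1000000)) ≤ Cb := by
        refine le_trans (mul_le_mul_of_nonneg_left (Real.exp_le_exp.2 ?_) (by positivity))
          (habs x (by linarith))
        rw [neg_le_neg_iff]
        refine (div_le_self (by positivity) ?_).trans ?_
        · linarith [Real.log_nonneg (show 1 ≤ 1 + x by linarith)]
        · linarith
      rw [show -(s / 500000) = -(s / 1000000) + -(s / 1000000) by ring, Real.exp_add, ← mul_assoc]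
      exact mul_le_mul h4 h1 (Real.exp_pos _).le hCb.le
    calc pairSum (mu ψ) (fun q r => bK γ A B A' B' Y q r * clsI ψ y1 y2 q r) V W
        ≤ pairSum (mu ψ) (fun q r => Cs * Cs * (1 + x) ^ 3 / Y * clsI ψ y1 y2 q r) V W := by
          refine pairSum_mono hμ fun q hq r hr => mul_le_mul_of_nonneg_right ?_ (cls_mem ψ y1 y2 q r).1
          obtain ⟨h1, h2⟩ := hphi q hq r hr
          have h3 : ∑ D ∈ (dset (B * B') q r).filter (fun D : ℕ => Y ≤ 4 * (D : ℝ)),
              EV2i γ A B A' B' Y D q r / (D.totient : ℝ) ≤ Cs * (1 + x) := by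
            refine le_trans (le_trans (sum_le_sum fun D _ => div_le_div_of_nonneg_right
              (EV2i_mem ..).2 (Nat.cast_nonneg _)) (sum_le_sum_of_subset_of_nonneg
              (filter_subset _ _) fun D _ _ => by positivity)) ((dset_sum_le _ ?_).trans h2)
            exact (hL.2.1 q hq).1
          calc bK γ A B A' B' Y q r ≤ (1 + x) / Y * (Cs * (1 + x) * (Cs * (1 + x))) := by
                refine mul_le_mul (div_le_div_of_nonneg_right
                  (hY1L _ (by linarith) (by linarith)) hY0.le) (mul_le_mul h1 h3 ?_ (by positivity))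
                  (mul_nonneg (Ph_nonneg _) ?_) (by positivity)
                all_goals exact sum_nonneg fun D _ => div_nonneg (EV2i_mem ..).1 (Nat.cast_nonneg _)
            _ = _ := by ring
      _ = Cs * Cs * (1 + x) ^ 3 / Y * pairSum (mu ψ) (clsI ψ y1 y2) V W := midPairSum_smul _ _ _ _ _
      _ ≤ Cs * Cs * (1 + x) ^ 3 / Y * (K2 * (P * Ω)) := mul_le_mul_of_nonneg_left
          (hcl.trans (mul_le_mul_of_nonneg_right (by linarith) (by positivity))) (by positivity)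
      _ = Cs * Cs * K2 * ((1 + x) ^ 3 * (P / Y)) * Ω := by ring
      _ ≤ Cs * Cs * K2 * (Cb * wg c H s * δ) * Ω := by
          refine mul_le_mul_of_nonneg_right (mul_le_mul_of_nonneg_left ?_ (by positivity)) hΩ
          calc (1 + x) ^ 3 * (P / Y) ≤ (1 + x) ^ 3 * (Real.exp (-(s / 500000)) * δ) :=
                mul_le_mul_of_nonneg_left hnum (by positivity)
            _ ≤ _ := by rw [← mul_assoc]; exact mul_le_mul_of_nonneg_right hexp hδ0
      _ = (Cs * Cs * K2 * Cb) * (wg c H s * δ * Ω) := by ring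
      _ ≤ (Cs * Cs * K2 * Cb + (Ct * K2 * Cm * 16 + K2 * Ck * 16)) * (wg c H s * δ * Ω) :=
          mul_le_mul_of_nonneg_right (le_add_of_nonneg_right (by positivity)) (by positivity)
      _ = _ := by ring
  · -- balanced
    obtain ⟨hb1, hb2⟩ := hbal
    set Q := Y ^ (1 - 3 * eps) * Y1 ^ (3 * eps) with hQ
    set w := wgt κ H s with hw
    have hw0 : 0 ≤ w := (P028M.wgt_pos hH).le
    have hclass : pairSum (mu ψ) (clsI ψ y1 y2) V W ≤ K2 * (Q * w * Ω) :=
      (hlev γ t0 H t s ψ V W A A' B B' y1 y2 Y hL htl hy1 hy2 hY hYhi hYlo hb2).trans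
        (mul_le_mul_of_nonneg_right (by linarith) (by positivity))
    set G := ((P ^ (49 / 50 : ℝ) * Q ^ (1 / 50 : ℝ))) with hG
    have hmoment : ∀ D : ℕ, pairSum (mu ψ) (fun q r => EV2i γ A B A' B' Y D q r *
          clsI ψ y1 y2 q r) V W ≤ K2 * ((Y / D) ^ (5 * eps) * P * Ω) →
        pairSum (mu ψ) (fun q r => Ph (uu q r * vv q r) * EV2i γ A B A' B' Y D q r *
          clsI ψ y1 y2 q r) V W
        ≤ K2 * ((Y / D) ^ (12 / 5 * eps) * G * w ^ (1 / 50 : ℝ) * Ω) := by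
      intro D hD
      refine (cauchy2 _ _ _ _ V W hμ (fun q r => (cls_mem ψ y1 y2 q r).1) (fun q r => Ph_nonneg _)
        fun q r => EV2i_mem ..).trans ?_
      refine le_trans (geo (f := (Y / D) ^ (5 * eps)) (P := P) (Q := Q) (w := w)
        (pairSum_nonneg hμ (fun q r => mul_nonneg (sq_nonneg _) (cls_mem ψ y1 y2 q r).1) V W)
        (pairSum_nonneg hμ (fun q r => mul_nonneg (EV2i_mem ..).1 (cls_mem ψ y1 y2 q r).1) V W)
        (by positivity) hP0 (by positivity) hw0 hΩ hK1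
        (hcl2.trans (mul_le_mul_of_nonneg_right (by linarith) (by positivity))) hD
        ((pairSum_mono hμ fun q _ r _ => mul_le_of_le_one_left (cls_mem ψ y1 y2 q r).1
          (EV2i_mem ..).2).trans hclass)) (le_of_eq ?_)
      rw [← Real.rpow_mul (by positivity), show 5 * eps * (12 / 25) = 12 / 5 * eps by ring]
    have hwc : w ^ (1 / 50 : ℝ) ≤ wg c H s := by
      refine (wgt_root hH).trans (add_le_add (Real.exp_le_exp.2 ?_)
        (Real.rpow_le_rpow_of_exponent_le (by linarith) (by norm_num)))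
      rw [div_le_div_iff_of_pos_right (by linarith)]
      have := mul_le_mul_of_nonneg_right (min_le_left (κ / 100) (1 / 1000000 : ℝ)) hs
      linarith [mul_nonneg hκ.le hs]
    -- the moduli up to `e^{t/2}`
    set Ds := (Icc 1 ⌊Real.exp (t / 2)⌋₊).filter
      (fun D : ℕ => Nat.Coprime D (B * B') ∧ Y ≤ 4 * (D : ℝ)) with hDs
    have hDs' : ∀ D ∈ Ds, 0 < D ∧ (D : ℝ) ≤ Real.exp (t / 2) ∧ Nat.Coprime D (B * B') ∧
        Y ≤ 4 * (D : ℝ) ∧ Y1 ≤ (D : ℝ) := fun D hD => by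
      obtain ⟨h1, h2, h3⟩ := mem_filter.1 hD
      obtain ⟨h4, h5⟩ := mem_Icc.1 h1
      exact ⟨h4, le_trans (Nat.cast_le.2 h5) (Nat.floor_le (Real.exp_pos _).le), h2, h3,
        max_le (Nat.one_le_cast.2 h4) (by linarith)⟩
    obtain ⟨K, hK, hKw, hKsum⟩ := htK γ t0 H t s ψ V W A A' B B' hL ht
    have hpoint : ∀ q ∈ V, ∀ r ∈ W, bK γ A B A' B' Y q r * clsI ψ y1 y2 q r ≤
        Y1 ^ (eps / 4) / Y * (∑ D ∈ Ds, 1 / (D.totient : ℝ) *
            (Ph (uu q r * vv q r) * EV2i γ A B A' B' Y D q r * clsI ψ y1 y2 q r)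
          + K * (Ph (uu q r * vv q r) * EV2i γ A B A' B' Y 1 q r * clsI ψ y1 y2 q r)) := by
      intro q hq r hr
      by_cases hc : clsI ψ y1 y2 q r = 0
      · simp [hc]
      obtain ⟨⟨-, hv⟩, -, hu⟩ := cls_inCls hc
      have hm1 := le_max_left y1 y2
      have hm2 := le_max_right y1 y2
      have hK' := hKsum q hq r hr Y hY0 hYhi (by linarith) (by linarith)
      have hz : ∑ D ∈ (dset (B * B') q r).filter (fun D : ℕ => Y ≤ 4 * (D : ℝ)),
          EV2i γ A B A' B' Y D q r / (D.totient : ℝ) ≤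
          (∑ D ∈ Ds, EV2i γ A B A' B' Y D q r / (D.totient : ℝ))
            + K * EV2i γ A B A' B' Y 1 q r := by
        rw [← sum_filter_add_sum_filter_not ((dset (B * B') q r).filter _)
          (fun D : ℕ => Real.exp (t / 2) < (D : ℝ)), add_comm]
        have h0 : ∀ D : ℕ, 0 ≤ EV2i γ A B A' B' Y D q r / (D.totient : ℝ) := fun D =>
          div_nonneg (EV2i_mem ..).1 (Nat.cast_nonneg _)
        refine add_le_add (sum_le_sum_of_subset_of_nonneg (fun D hD => ?_) fun D _ _ => h0 D)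
          (le_trans (sum_le_sum_of_subset_of_nonneg (fun D hD => ?_) fun D _ _ => h0 D) hK')
        · obtain ⟨hD', hDle⟩ := mem_filter.1 hD
          obtain ⟨hDd, hYD⟩ := mem_filter.1 hD'
          obtain ⟨hdiv, -, hcop⟩ := mem_filter.1 hDd
          exact mem_filter.2 ⟨mem_Icc.2 ⟨Nat.pos_of_mem_divisors hdiv, Nat.le_floor (not_lt.1 hDle)⟩,
            hcop.coprime_dvd_right (Dvd.intro_left _ rfl), hYD⟩
        · exact mem_filter.2 ⟨(mem_filter.1 (mem_filter.1 hD).1).1, (mem_filter.1 hD).2⟩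
      refine le_trans (mul_le_mul_of_nonneg_right (mul_le_mul_of_nonneg_left
        (mul_le_mul_of_nonneg_left hz (Ph_nonneg _)) (by positivity)) (cls_mem ψ y1 y2 q r).1)
        (le_of_eq ?_)
      rw [show ∑ D ∈ Ds, 1 / (D.totient : ℝ) *
            (Ph (uu q r * vv q r) * EV2i γ A B A' B' Y D q r * clsI ψ y1 y2 q r)
          = Ph (uu q r * vv q r) * (∑ D ∈ Ds, EV2i γ A B A' B' Y D q r / (D.totient : ℝ)) *
            clsI ψ y1 y2 q r by
        rw [mul_sum, sum_mul]; exact sum_congr rfl fun D _ => by ring]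
      ring
    refine (pairSum_mono hμ hpoint).trans ?_
    rw [midPairSum_smul, pairSum_add, midPairSum_sum, midPairSum_smul, mul_add]
    simp only [midPairSum_smul]
    have hmain : Y1 ^ (eps / 4) / Y * ∑ D ∈ Ds, 1 / (D.totient : ℝ) * pairSum (mu ψ)
        (fun q r => Ph (uu q r * vv q r) * EV2i γ A B A' B' Y D q r * clsI ψ y1 y2 q r) V W
        ≤ Ct * K2 * Cm * 16 * (wg c H s * δ * Ω) := by
      calc _ ≤ Y1 ^ (eps / 4) / Y * ∑ D ∈ Ds,
            Ct * K2 * (Y ^ (12 / 5 * eps) * G * w ^ (1 / 50 : ℝ) * Ω) *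
              (D : ℝ) ^ (-1 - 43 / 20 * eps) := by
            refine mul_le_mul_of_nonneg_left (sum_le_sum fun D hD => ?_) (by positivity)
            obtain ⟨hD0, hDt, hcop, hYD, -⟩ := hDs' D hD
            have hDR : (0 : ℝ) < D := Nat.cast_pos.2 hD0
            have he : pairSum (mu ψ) (fun q r => EV2i γ A B A' B' Y D q r * clsI ψ y1 y2 q r) V W
                ≤ K2 * ((Y / D) ^ (5 * eps) * P * Ω) :=
              (hev γ a t0 H t s ψ V W A A' B B' D y1 y2 Y hL hte hy1 hY hD0 hcop hDt hYlo hYD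
                hb2).trans (mul_le_mul_of_nonneg_right (by linarith) (by positivity))
            refine (mul_le_mul (hinv D hD0) (hmoment D he) (pairSum_nonneg hμ (fun q r => mul_nonneg
              (mul_nonneg (Ph_nonneg _) (EV2i_mem ..).1) (cls_mem ψ y1 y2 q r).1) V W)
              (by positivity)).trans (le_of_eq ?_)
            rw [Real.div_rpow hY0.le hDR.le,
              show -1 - 43 / 20 * eps = eps / 4 - 1 - 12 / 5 * eps by ring,
              Real.rpow_sub hDR (eps / 4 - 1)]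
            ring
        _ ≤ Y1 ^ (eps / 4) / Y * (Ct * K2 * (Y ^ (12 / 5 * eps) * G * w ^ (1 / 50 : ℝ) * Ω) *
            (Cm * Y1 ^ (-(43 / 20 * eps / 2)))) := by
            rw [← mul_sum]
            exact mul_le_mul_of_nonneg_left (mul_le_mul_of_nonneg_left
              (hsum Ds Y1 hY11 fun D hD => (hDs' D hD).2.2.2.2) (by positivity)) (by positivity)
        _ = Ct * K2 * Cm * (Y1 ^ (eps / 4 + -(43 / 20 * eps / 2)) / Y * (Y ^ (12 / 5 * eps) * G) *
            w ^ (1 / 50 : ℝ)) * Ω := by rw [Real.rpow_add hY10]; ring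
        _ ≤ Ct * K2 * Cm * (16 * δ * wg c H s) * Ω := by
            refine mul_le_mul_of_nonneg_right (mul_le_mul_of_nonneg_left (mul_le_mul
              (balNum y1 y2 Y _ hy1 hy2 hY (by linarith) (by linarith)) hwc
              (Real.rpow_nonneg hw0 _) (by positivity)) (by positivity)) hΩ
        _ = _ := by ring
    have htail : Y1 ^ (eps / 4) / Y * (K * pairSum (mu ψ)
        (fun q r => Ph (uu q r * vv q r) * EV2i γ A B A' B' Y 1 q r * clsI ψ y1 y2 q r) V W)
        ≤ K2 * Ck * 16 * (wg c H s * δ * Ω) := by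
      have he : pairSum (mu ψ) (fun q r => EV2i γ A B A' B' Y 1 q r * clsI ψ y1 y2 q r) V W
          ≤ K2 * ((Y / ((1 : ℕ) : ℝ)) ^ (5 * eps) * P * Ω) := by
        rcases le_or_gt Y 4 with h4 | h4
        · exact (hev γ a t0 H t s ψ V W A A' B B' 1 y1 y2 Y hL hte hy1 hY one_pos
            (Nat.coprime_one_left _) (by simpa using Real.one_le_exp (show 0 ≤ t / 2 by linarith))
            hYlo (by simpa using h4) hb2).trans
            (mul_le_mul_of_nonneg_right (by linarith) (by positivity))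
        · refine ((pairSum_mono hμ fun q _ r _ => mul_le_of_le_one_left (cls_mem ψ y1 y2 q r).1
            (EV2i_mem ..).2).trans hcl).trans (mul_le_mul (by linarith) ?_ (by positivity) hK0)
          refine mul_le_mul_of_nonneg_right (le_mul_of_one_le_left hP0 ?_) hΩ
          simpa using Real.one_le_rpow (show 1 ≤ Y by linarith) (show 0 ≤ 5 * eps by linarith)
      have hm := hmoment 1 he
      rw [Nat.cast_one, div_one] at hm
      calc _ ≤ Y1 ^ (eps / 4) / Y * (K * (K2 * (Y ^ (12 / 5 * eps) * G * w ^ (1 / 50 : ℝ) * Ω))) :=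
            mul_le_mul_of_nonneg_left (mul_le_mul_of_nonneg_left hm hK) (by positivity)
        _ = K2 * (Y1 ^ (eps / 4 + -eps) / Y * (Y ^ (12 / 5 * eps) * G) *
            (K * (Y1 ^ eps * w ^ (1 / 50 : ℝ)))) * Ω := by
            rw [show Y1 ^ (eps / 4) = Y1 ^ (eps / 4 + -eps) * Y1 ^ eps by
              rw [← Real.rpow_add hY10]; ring_nf]
            ring
        _ ≤ K2 * (16 * δ * (Ck * wg c H s)) * Ω := by
            refine mul_le_mul_of_nonneg_right (mul_le_mul_of_nonneg_left (mul_le_mul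
              (balNum y1 y2 Y _ hy1 hy2 hY (by linarith) (by linarith)) ?_ (by positivity)
              (by positivity)) hK0) hΩ
            calc K * (Y1 ^ eps * w ^ (1 / 50 : ℝ)) ≤ K * ((1 + x) * w ^ (1 / 50 : ℝ)) :=
                  mul_le_mul_of_nonneg_left (mul_le_mul_of_nonneg_right
                    (hY1L _ (by linarith) le_rfl) (Real.rpow_nonneg hw0 _)) hK
              _ ≤ Ck * wg (κ / 100) H s := hKw
              _ ≤ _ := mul_le_mul_of_nonneg_left (wg_anti hH hs (min_le_left _ _)) hCk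
        _ = _ := by ring
    refine (add_le_add hmain htail).trans ?_
    rw [← add_mul]
    calc (Ct * K2 * Cm * 16 + K2 * Ck * 16) * (wg c H s * δ * Ω)
        ≤ (Cs * Cs * K2 * Cb + (Ct * K2 * Cm * 16 + K2 * Ck * 16)) * (wg c H s * δ * Ω) :=
          mul_le_mul_of_nonneg_right (le_add_of_nonneg_left (by positivity)) (by positivity)
      _ = _ := by ring

/-- The band between two levels. -/
theorem band_pair (a : ℝ) (ha : 0 < a) :
    ∃ C c t1 : ℝ, 0 ≤ C ∧ 0 < c ∧ ∀ (γ t0 H t s : ℝ) (ψ : ℕ → ℝ) (V W : Finset ℕ) (A A' : ℤ)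
      (B B' : ℕ), Lev γ a t0 H t s ψ V W A B A' B' → t1 ≤ t →
      pairSum (mu ψ) (fun q r => if etaP ψ q r ≤ (1 + Real.log H) ^ 4 then
          bK γ A B A' B' (Yown ψ q r) q r else 0) V W
        ≤ C * wg c H s * om ψ V W := by
  classical
  have heps : eps = 1 / 100000 := rfl
  obtain ⟨Cb, c, t1, hCb, hc, hclass⟩ := band_class a ha
  obtain ⟨Cg, hCg, hgeom⟩ := midDel_sum (eps / 4) (by linarith) (by linarith)
  refine ⟨Cb * Cg, c, max t1 0, by positivity, hc, ?_⟩
  intro γ t0 H t s ψ V W A A' B B' hL ht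
  have hlow := hL.low ((le_max_right _ _).trans ht)
  have hpos := hL.pos
  have hψ := hL.1
  have hH : 3 ≤ H := hL.2.2.2.1.1
  have hwg := wg_pos (c := c) (s := s) hH
  have hΩ := om_nonneg hψ V W
  set L := ((V ×ˢ W).filter (fun z => etaP ψ z.1 z.2 ≤ (1 + Real.log H) ^ 4)).image
    (fun z => (midIdx ((vv z.1 z.2 : ℝ) * ψ z.1), midIdx ((uu z.1 z.2 : ℝ) * ψ z.2))) with hLd
  have hin : ∀ q ∈ V, ∀ r ∈ W, InCls ψ ((2 : ℝ) ^ (midIdx ((vv q r : ℝ) * ψ q) : ℝ))
      ((2 : ℝ) ^ (midIdx ((uu q r : ℝ) * ψ r) : ℝ)) q r := fun q hq r hr => by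
    obtain ⟨hq0, hψq⟩ := hpos q (mem_union_left _ hq)
    obtain ⟨hr0, hψr⟩ := hpos r (mem_union_right _ hr)
    exact ⟨midIdx_spec _ (mul_pos (Nat.cast_pos.2 (vv_pos q r hr0)) hψq),
      midIdx_spec _ (mul_pos (Nat.cast_pos.2 (uu_pos q r hq0)) hψr)⟩
  set T := fun (l : ℤ × ℤ) q r =>
    bK γ A B A' B' (2 * max ((2 : ℝ) ^ (l.1 : ℝ)) ((2 : ℝ) ^ (l.2 : ℝ))) q r *
      clsI ψ ((2 : ℝ) ^ (l.1 : ℝ)) ((2 : ℝ) ^ (l.2 : ℝ)) q r with hT
  have hT0 : ∀ l q r, 0 ≤ T l q r := fun l q r =>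
    mul_nonneg (bK_nonneg γ A B A' B' (by positivity) q r) (cls_mem ψ _ _ q r).1
  refine le_trans (pairSum_mono (mu_nonneg' hψ) (G' := fun q r => ∑ l ∈ L, T l q r)
    fun q hq r hr => ?_) ?_
  · split_ifs with h
    · refine le_trans (le_of_eq ?_) (single_le_sum (fun l _ => hT0 l q r)
        (mem_image.2 ⟨(q, r), mem_filter.2 ⟨mem_product.2 ⟨hq, hr⟩, h⟩, rfl⟩))
      simp only [hT, Yown, clsI, if_pos (hin q hq r hr), mul_one]
    · exact sum_nonneg fun l _ => hT0 l q r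
  rw [midPairSum_sum]
  calc ∑ l ∈ L, pairSum (mu ψ) (T l) V W
      ≤ ∑ l ∈ L, Cb * wg c H s * om ψ V W *
          midDel (eps / 4) ((2 : ℝ) ^ (l.1 : ℝ)) ((2 : ℝ) ^ (l.2 : ℝ)) := by
        refine sum_le_sum fun l hl => ?_
        obtain ⟨⟨q, r⟩, hz, rfl⟩ := mem_image.1 hl
        obtain ⟨hqr, hη⟩ := mem_filter.1 hz
        obtain ⟨hq, hr⟩ := mem_product.1 hqr
        obtain ⟨hηY, hY4⟩ := midCls ψ hψ _ _ q r (hin q hq r hr)
        have hlo : Real.exp (-(2 * t)) ≤ etaP ψ q r := by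
          have h1 : ψ q ≤ (vv q r : ℝ) * ψ q := le_mul_of_one_le_left (hψ q)
            (Nat.one_le_cast.2 (vv_pos q r (hpos r (mem_union_right _ hr)).1))
          have h2 : 0 ≤ (uu q r : ℝ) * ψ r := mul_nonneg (Nat.cast_nonneg _) (hψ r)
          have := hlow q hq
          unfold etaP; linarith
        refine (hclass γ t0 H t s ψ V W A A' B B' _ _ _ hL ((le_max_left _ _).trans ht)
          (by positivity) (by positivity) rfl (by linarith) (hlo.trans hηY)).trans (le_of_eq ?_)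
        ring
    _ ≤ Cb * wg c H s * om ψ V W * Cg := by
        rw [← mul_sum]
        refine mul_le_mul_of_nonneg_left ?_ (by positivity)
        simpa using hgeom L 0
    _ = _ := by ring

/-- The excess of the large primes over all classes. -/
theorem exc_sum :
    ∃ C : ℝ, 0 ≤ C ∧ ∀ (ψ : ℕ → ℝ) (S : Finset ℕ), (∀ q, 0 ≤ ψ q) → (∀ q ∈ S, 0 < q ∧ 0 < ψ q) →
      pairSum (mu ψ) (fun q r => 1 + exK (Yown ψ q r) (uu q r * vv q r)) S S
        ≤ C * (msum (mu ψ) S + msum (mu ψ) S ^ 2) := by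
  classical
  have heps : eps = 1 / 100000 := rfl
  obtain ⟨Cx, hCx, hexc⟩ := midExc
  obtain ⟨Cg, hCg, hgeom⟩ := midDel_sum (eps / 4) (by linarith) (by linarith)
  refine ⟨1 + Cx * Cg, by positivity, fun ψ S hψ hS => ?_⟩
  set M := msum (mu ψ) S with hM
  have hM0 : 0 ≤ M := sum_nonneg fun q _ => mu_nonneg' hψ q
  set Ω := (M * M) ^ aE with hΩ
  set L := (S ×ˢ S).image
    (fun z => (midIdx ((vv z.1 z.2 : ℝ) * ψ z.1), midIdx ((uu z.1 z.2 : ℝ) * ψ z.2))) with hL
  set T := fun (l : ℤ × ℤ) q r =>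
    exK (2 * max ((2 : ℝ) ^ (l.1 : ℝ)) ((2 : ℝ) ^ (l.2 : ℝ))) (uu q r * vv q r) *
      clsI ψ ((2 : ℝ) ^ (l.1 : ℝ)) ((2 : ℝ) ^ (l.2 : ℝ)) q r with hT
  have hT0 : ∀ l q r, 0 ≤ T l q r := fun l q r =>
    mul_nonneg (by unfold exK; positivity) (cls_mem ψ _ _ q r).1
  have hone : pairSum (mu ψ) (fun _ _ => (1 : ℝ)) S S = M * M := by
    simp only [pairSum, mul_one, hM, msum, sum_mul_sum]
  refine le_trans (pairSum_mono (mu_nonneg' hψ) (G' := fun q r => 1 + ∑ l ∈ L, T l q r)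
    fun q hq r hr => ?_) ?_
  · refine add_le_add le_rfl (le_trans (le_of_eq ?_) (single_le_sum (fun l _ => hT0 l q r)
      (mem_image.2 ⟨(q, r), mem_product.2 ⟨hq, hr⟩, rfl⟩)))
    have hin : InCls ψ ((2 : ℝ) ^ (midIdx ((vv q r : ℝ) * ψ q) : ℝ))
        ((2 : ℝ) ^ (midIdx ((uu q r : ℝ) * ψ r) : ℝ)) q r :=
      ⟨midIdx_spec _ (mul_pos (Nat.cast_pos.2 (vv_pos q r (hS r hr).1)) (hS q hq).2),
        midIdx_spec _ (mul_pos (Nat.cast_pos.2 (uu_pos q r (hS q hq).1)) (hS r hr).2)⟩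
    simp only [hT, Yown, clsI, if_pos hin, mul_one]
  rw [pairSum_add, midPairSum_sum, hone]
  have hb : ∑ l ∈ L, pairSum (mu ψ) (T l) S S ≤ Cx * Cg * Ω := by
    calc ∑ l ∈ L, pairSum (mu ψ) (T l) S S
        ≤ ∑ l ∈ L, Cx * Ω * midDel (eps / 4) ((2 : ℝ) ^ (l.1 : ℝ)) ((2 : ℝ) ^ (l.2 : ℝ)) := by
          refine sum_le_sum fun l _ => ?_
          have h := hexc ψ S ((2 : ℝ) ^ (l.1 : ℝ)) ((2 : ℝ) ^ (l.2 : ℝ)) (eps / 4) _ hψ hS
            (by positivity) (by positivity) rfl (by linarith) le_rfl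
          rw [← midPairSum_smul] at h
          refine le_trans (le_of_eq ?_) (h.trans (le_of_eq ?_))
          · refine sum_congr rfl fun q _ => sum_congr rfl fun r _ => ?_
            simp only [hT, exK]; ring
          · ring
      _ ≤ Cx * Ω * Cg := by
          rw [← mul_sum]
          refine mul_le_mul_of_nonneg_left ?_ (by positivity)
          simpa using hgeom L 0
      _ = _ := by ring
  calc M * M + ∑ l ∈ L, pairSum (mu ψ) (T l) S S ≤ (M + M ^ 2) + Cx * Cg * (M + M ^ 2) :=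
        add_le_add (by rw [sq]; linarith)
          (hb.trans (mul_le_mul_of_nonneg_left (midOmega M hM0) (by positivity)))
    _ = _ := by ring

/-- The gains of all pairs of levels. -/
lemma pair_levels {c a : ℝ} (hc : 0 < c) (ha : 0 < a) :
    ∃ C : ℝ, 0 ≤ C ∧ ∀ (L : Finset ℕ) (H : ℝ), 3 ≤ H →
      (∀ l ∈ L, a * Real.log H ≤ scale l ∧ scale l ≤ 2 * H) →
      ∑ l ∈ L, ((L.filter (fun j => j < l)).card : ℝ) * wg c H (scale l) ≤ C := by
  have hb : (1 : ℝ) < 1 + zeta0 := by norm_num [zeta0]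
  have hlb := Real.log_pos hb
  set Sc := ∑' n : ℕ, ((n : ℝ) + 1) * Real.exp (-(c * a) * scale n) with hSc
  have hSc0 : 0 ≤ Sc := tsum_nonneg fun n => by positivity
  refine ⟨Sc + (1600 * 2 / Real.log (1 + zeta0) + 1) ^ 2, by positivity, fun L H hH hL => ?_⟩
  rcases L.eq_empty_or_nonempty with he | hne
  · subst he
    simp only [sum_empty]
    positivity
  set lg := Real.log H with hlgd
  have hlg : 1 ≤ lg := P028M.log_one hH
  unfold wg
  simp only [mul_add, sum_add_distrib]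
  refine add_le_add ?_ ?_
  · set l0 := L.min' hne with hl0
    calc ∑ l ∈ L, ((L.filter (fun j => j < l)).card : ℝ) * Real.exp (-(c * scale l) / lg)
        ≤ ∑ l ∈ L, (((l - l0 : ℕ) : ℝ) + 1) * Real.exp (-(c * a) * scale (l - l0)) := by
          refine sum_le_sum fun l hl => mul_le_mul ?_ (Real.exp_le_exp.2 ?_) (Real.exp_pos _).le
            (by positivity)
          · have hsub : L.filter (fun j => j < l) ⊆ Ico l0 l := fun j hj =>
              mem_Ico.2 ⟨L.min'_le j (mem_filter.1 hj).1, (mem_filter.1 hj).2⟩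
            have h := card_le_card hsub
            rw [Nat.card_Ico] at h
            exact (Nat.cast_le.2 h).trans (le_add_of_nonneg_right zero_le_one)
          have hle : l0 ≤ l := L.min'_le l hl
          have e : scale l = scale l0 * scale (l - l0) := by
            rw [scale, scale, scale, ← pow_add, Nat.add_sub_cancel' hle]
          have h0 := mul_le_mul_of_nonneg_right (hL l0 (L.min'_mem hne)).1
            (le_trans zero_le_one (one_le_scale (l - l0)))
          rw [← e] at h0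
          rw [div_le_iff₀ (by linarith)]
          linarith [mul_le_mul_of_nonneg_left h0 hc.le]
      _ = ∑ n ∈ L.image (fun l => l - l0), ((n : ℝ) + 1) * Real.exp (-(c * a) * scale n) := by
          rw [sum_image]
          intro x hx y hy hxy
          have h1 := L.min'_le x hx
          have h2 := L.min'_le y hy
          simp only [← hl0] at h1 h2 hxy
          omega
      _ ≤ Sc := (P028L.level_series (by positivity)).sum_le_tsum _ fun n _ => by positivity
  · set N := ⌊Real.log (2 * H) / Real.log (1 + zeta0)⌋₊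
    have hsub : L ⊆ range (N + 1) := fun l hl => mem_range.2 (Nat.lt_succ_of_le (Nat.le_floor (by
      rw [le_div_iff₀ hlb, ← Real.log_pow]
      exact Real.log_le_log (by positivity) (hL l hl).2)))
    have hcard : (L.card : ℝ) ≤ (N : ℝ) + 1 := by
      have := card_le_card hsub
      rw [card_range] at this
      exact_mod_cast this
    have hN : (N : ℝ) ≤ Real.log (2 * H) / Real.log (1 + zeta0) :=
      Nat.floor_le (div_nonneg (Real.log_nonneg (by linarith)) hlb.le)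
    set h1 := H ^ (1 / 1600 : ℝ) with hh1
    have hh11 : 1 ≤ h1 := Real.one_le_rpow (by linarith) (by norm_num)
    have hlog : Real.log (2 * H) ≤ 1600 * 2 * h1 := by
      have e1 := Real.log_le_rpow_div (x := 2 * H) (by linarith) (show (0 : ℝ) < 1 / 1600 by norm_num)
      have e2 : (2 * H) ^ (1 / 1600 : ℝ) ≤ 2 * h1 := by
        rw [Real.mul_rpow two_pos.le (by linarith)]
        exact mul_le_mul_of_nonneg_right (Real.rpow_le_self_of_one_le one_le_two (by norm_num))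
          (by positivity)
      linarith
    have hcard2 : (L.card : ℝ) ≤ (1600 * 2 / Real.log (1 + zeta0) + 1) * h1 := by
      refine (hcard.trans (add_le_add (hN.trans ((div_le_div_iff_of_pos_right hlb).2 hlog)) hh11)).trans
        (le_of_eq ?_)
      ring
    have hp : 0 < H ^ (-(1 / 800) : ℝ) := Real.rpow_pos_of_pos (by linarith) _
    have hq : h1 * h1 * H ^ (-(1 / 800) : ℝ) = 1 := by
      rw [hh1, ← Real.rpow_add (by linarith), ← Real.rpow_add (by linarith)]; norm_num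
    calc ∑ l ∈ L, ((L.filter (fun j => j < l)).card : ℝ) * H ^ (-(1 / 800) : ℝ)
        ≤ (L.card : ℝ) * L.card * H ^ (-(1 / 800) : ℝ) := by
          rw [← sum_mul]
          refine mul_le_mul_of_nonneg_right ?_ hp.le
          refine (sum_le_card_nsmul _ _ (L.card : ℝ) fun l _ =>
            Nat.cast_le.2 (card_filter_le _ _)).trans (le_of_eq (nsmul_eq_mul _ _))
      _ ≤ ((1600 * 2 / Real.log (1 + zeta0) + 1) * h1) *
            ((1600 * 2 / Real.log (1 + zeta0) + 1) * h1) * H ^ (-(1 / 800) : ℝ) :=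
          mul_le_mul_of_nonneg_right
            (mul_le_mul hcard2 hcard2 (Nat.cast_nonneg _) (by positivity)) hp.le
      _ = (1600 * 2 / Real.log (1 + zeta0) + 1) ^ 2 * (h1 * h1 * H ^ (-(1 / 800) : ℝ)) := by ring
      _ = _ := by rw [hq, mul_one]

/-- The coincidences off the common resonance between different levels of a slice. -/
theorem cross_off (a : ℝ) (ha : 0 < a) : ∃ C t0 : ℝ, 0 ≤ C ∧
  ∀ (γ : ℝ) (ψ : ℕ → ℝ) (S : Finset ℕ) (H : ℝ) (ab : ℕ → ℤ × ℕ), (∀ q, 0 ≤ ψ q) → 3 ≤ H →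
    (∀ q ∈ S, 0 < q ∧ 0 < ψ q ∧ 1 ≤ -Real.log (ψ q) ∧ Real.log q ≤ H ∧ -Real.log (ψ q) ≤ 2 * H ∧
      a * Real.log H ≤ scale (cls ψ q) ∧ t0 ≤ scale (cls ψ q)) →
    (∀ q ∈ S, ∀ r ∈ S, cls ψ q < cls ψ r → 10 ^ 7 * scale (cls ψ q) ≤ scale (cls ψ r)) →
    (∀ l, IsApprox γ (Real.exp (scale l / 2)) (ab l).1 (ab l).2) →
    pairSum (mu ψ) (fun q r => if cls ψ q < cls ψ r then
        restK γ ψ (ab (cls ψ q)).1 (ab (cls ψ q)).2 (ab (cls ψ r)).1 (ab (cls ψ r)).2 q r else 0) S S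
      ≤ C * (msum (mu ψ) S + msum (mu ψ) S ^ 2) := by
  classical
  obtain ⟨Ck, hCk, hker⟩ := restK_le
  obtain ⟨Ce, hCe, hexc⟩ := exc_sum
  obtain ⟨Cb, c, t1, hCb, hc, hband⟩ := band_pair a ha
  obtain ⟨Cl, hCl, hlevels⟩ := pair_levels hc ha
  refine ⟨Ck * (Ce + Cb * Cl), t1, by positivity, ?_⟩
  intro γ ψ S H ab hψ hH hS hgap hab
  have hμ := mu_nonneg' hψ
  set M := msum (mu ψ) S with hM
  have hM0 : 0 ≤ M := sum_nonneg fun q _ => hμ q
  set Bn := fun (j l q r : ℕ) => if etaP ψ q r ≤ (1 + Real.log H) ^ 4 then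
    bK γ (ab j).1 (ab j).2 (ab l).1 (ab l).2 (Yown ψ q r) q r else 0 with hBn
  set G := fun q r => if cls ψ q < cls ψ r then Bn (cls ψ q) (cls ψ r) q r else 0 with hG
  have hY0 : ∀ q r, 0 ≤ Yown ψ q r := fun q r => by unfold Yown; positivity
  have hpt : ∀ q ∈ S, ∀ r ∈ S, (if cls ψ q < cls ψ r then
      restK γ ψ (ab (cls ψ q)).1 (ab (cls ψ q)).2 (ab (cls ψ r)).1 (ab (cls ψ r)).2 q r else 0)
      ≤ Ck * ((1 + exK (Yown ψ q r) (uu q r * vv q r)) + G q r) := by
    intro q hq r hr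
    have hex : 0 ≤ exK (Yown ψ q r) (uu q r * vv q r) := by unfold exK; positivity
    simp only [hG]
    split_ifs with h
    · obtain ⟨hq0, hψq, -, hlq, -⟩ := hS q hq
      obtain ⟨hr0, hψr, -, hlr, -⟩ := hS r hr
      obtain ⟨h1, h2⟩ := midCls ψ hψ _ _ q r
        ⟨midIdx_spec _ (mul_pos (Nat.cast_pos.2 (vv_pos q r hr0)) hψq),
          midIdx_spec _ (mul_pos (Nat.cast_pos.2 (uu_pos q r hq0)) hψr)⟩
      exact hker γ ψ _ _ _ _ q r H (Yown ψ q r) hq0 hr0 (etaP_pos hq0 hr0 hψq hψr) h1 h2 hH hlq hlr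
    · positivity
  refine (pairSum_mono hμ hpt).trans ?_
  rw [midPairSum_smul, pairSum_add, mul_assoc]
  refine mul_le_mul_of_nonneg_left ?_ hCk
  rw [add_mul]
  refine add_le_add (hexc ψ S hψ fun q hq => ⟨(hS q hq).1, (hS q hq).2.1⟩) ?_
  set Lv := S.image (cls ψ) with hLv
  set cell := fun j => S.filter (fun q => cls ψ q = j) with hcell
  have hmaps : ∀ q ∈ S, cls ψ q ∈ Lv := fun q hq => mem_image_of_mem _ hq
  have e : pairSum (mu ψ) G S S
      = ∑ l ∈ Lv, ∑ j ∈ Lv.filter (fun j => j < l), pairSum (mu ψ) (Bn j l) (cell j) (cell l) := by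
    unfold pairSum
    rw [← sum_fiberwise_of_maps_to hmaps]
    have h1 : ∀ j ∈ Lv, ∑ q ∈ cell j, ∑ r ∈ S, mu ψ q * mu ψ r * G q r
        = ∑ l ∈ Lv, if j < l then ∑ q ∈ cell j, ∑ r ∈ cell l, mu ψ q * mu ψ r * Bn j l q r
            else 0 := by
      intro j _
      rw [sum_congr rfl fun q (_ : q ∈ cell j) => (sum_fiberwise_of_maps_to hmaps _).symm, sum_comm]
      refine sum_congr rfl fun l _ => ?_
      split_ifs with hjl
      · refine sum_congr rfl fun q hq => sum_congr rfl fun r hr => ?_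
        simp only [hG, (mem_filter.1 hq).2, (mem_filter.1 hr).2, if_pos hjl]
      · refine sum_eq_zero fun q hq => sum_eq_zero fun r hr => ?_
        simp only [hG, (mem_filter.1 hq).2, (mem_filter.1 hr).2, if_neg hjl, mul_zero]
    rw [sum_congr rfl h1, sum_comm]
    simp only [sum_filter]
  rw [e]
  have hb : ∀ l ∈ Lv, ∀ j ∈ Lv.filter (fun j => j < l),
      pairSum (mu ψ) (Bn j l) (cell j) (cell l) ≤ Cb * wg c H (scale l) * (M + M ^ 2) := by
    intro l hl j hj
    obtain ⟨hjL, hjl⟩ := mem_filter.1 hj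
    obtain ⟨r0, hr0, rfl⟩ := mem_image.1 hl
    obtain ⟨q0, hq0, rfl⟩ := mem_image.1 hjL
    obtain ⟨-, -, hL0, -, hLH, hat, ht0⟩ := hS q0 hq0
    have hmem : ∀ i, ∀ q ∈ cell i, 0 < q ∧ Real.exp (-(1 + zeta0) * scale i) ≤ ψ q ∧
        ψ q ≤ Real.exp (-scale i) ∧ Real.log q ≤ H := by
      intro i q hq
      obtain ⟨hqS, rfl⟩ := mem_filter.1 hq
      obtain ⟨h0, hp, hL1, hlq, -⟩ := hS q hqS
      obtain ⟨h1, h2⟩ := cls_spec ψ q hL1
      refine ⟨h0, ?_, ?_, hlq⟩
      · rw [← Real.le_log_iff_exp_le hp]; linarith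
      · rw [← Real.log_le_iff_le_exp hp]; linarith
    have hLev : Lev γ a t1 H (scale (cls ψ q0)) (scale (cls ψ r0)) ψ (cell (cls ψ q0))
        (cell (cls ψ r0)) (ab (cls ψ q0)).1 (ab (cls ψ q0)).2 (ab (cls ψ r0)).1
        (ab (cls ψ r0)).2 :=
      ⟨hψ, hmem _, hmem _, ⟨hH, (cls_spec ψ q0 hL0).1.trans hLH, hat, ht0,
        hgap q0 hq0 r0 hr0 hjl⟩, hab _, hab _⟩
    refine (hband γ t1 H _ _ ψ _ _ _ _ _ _ hLev ht0).trans
      (mul_le_mul_of_nonneg_left ?_ (mul_nonneg hCb (wg_pos hH).le))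
    have hU : msum (mu ψ) (cell (cls ψ q0) ∪ cell (cls ψ r0)) ≤ M :=
      sum_le_sum_of_subset_of_nonneg (union_subset (filter_subset _ _) (filter_subset _ _))
        fun q _ _ => hμ q
    have hU0 : 0 ≤ msum (mu ψ) (cell (cls ψ q0) ∪ cell (cls ψ r0)) := sum_nonneg fun q _ => hμ q
    unfold om
    gcongr
  calc _ ≤ ∑ l ∈ Lv, ((Lv.filter (fun j => j < l)).card : ℝ) *
        (Cb * wg c H (scale l) * (M + M ^ 2)) := by
        refine sum_le_sum fun l hl => ?_
        rw [← nsmul_eq_mul]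
        exact sum_le_card_nsmul _ _ _ (hb l hl)
    _ = Cb * (∑ l ∈ Lv, ((Lv.filter (fun j => j < l)).card : ℝ) * wg c H (scale l)) * (M + M ^ 2) := by
        rw [mul_sum, sum_mul]; exact sum_congr rfl fun l _ => by ring
    _ ≤ _ := by
        refine mul_le_mul_of_nonneg_right (mul_le_mul_of_nonneg_left ?_ hCb) (by positivity)
        refine hlevels _ H hH fun l hl => ?_
        obtain ⟨r, hr, rfl⟩ := mem_image.1 hl
        obtain ⟨-, -, hL, -, hLH, hlo, -⟩ := hS r hr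
        exact ⟨hlo, (cls_spec ψ r hL).1.trans hLH⟩

end Vale.Agent.P028G
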