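import Vale.Agent.P028G.NoRes
import Vale.Agent.P028.Density

/-! P028G module DENSITY: bilinear gain for a modulus dividing the joint determinant of two levels `t ≪ s`. -/

namespace Vale.Agent.P028G

open Finset
open Vale.Agent.P028
open Vale.Agent.P028L

/-- Class A, with the shift carried by `β₂`. -/
noncomputable def GA1s (Cb β β2 T : ℝ) (P : Finset ℕ) (k : ℕ → ℕ) (c d q a' b' : ℕ) : ℝ :=
  bb (T ^ (1 / 100 : ℝ) ≤ (a' : ℝ) ∧
    distInt (β * ((d * bPart P k q : ℕ) : ℝ) * a'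
      + -(β2 * ((c * aPart P k q * b' : ℕ) : ℝ))) < 1 / T ∧
    ¬ ∃ B1, ResAt Cb β T (d * bPart P k q) B1 a')

/-- Class B, with the shift carried by `β₂`. -/
noncomputable def GB2s (Cb β β2 T s : ℝ) (P : Finset ℕ) (k : ℕ → ℕ) (c d r a b : ℕ) : ℝ :=
  bb (Real.exp (99 / 100 * s) ≤ ((d * aPart P k r * b : ℕ) : ℝ) ∧
    ((d * aPart P k r * b : ℕ) : ℝ) ≤ Real.exp (101 / 100 * s) ∧
    ¬ RV β T d (d * aPart P k r * b) ∧
    ((T ^ (1 / 100 : ℝ) ≤ (aPart P k r : ℝ) ∧ ∃ B1, ResAt Cb β T (d * b) B1 (aPart P k r)) ∨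
      ((aPart P k r : ℝ) < T ^ (1 / 100 : ℝ) ∧
        distInt (β * (d * aPart P k r : ℕ) * b
          + -(β2 * ((c * a * bPart P k r : ℕ) : ℝ))) < 1 / T)))

/-- The two averages. -/
lemma side2 :
    ∃ Cb K0 T0 s0 : ℝ, 0 ≤ K0 ∧ 1 ≤ T0 ∧ ∀ (β β2 T s y1 y2 : ℝ) (ψ : ℕ → ℝ) (P V W : Finset ℕ)
      (k : ℕ → ℕ) (c d : ℕ),
      s0 ≤ s → T0 ≤ T → T ≤ Real.exp (3 / 100000 * s) → (d : ℝ) ≤ Real.exp (6 / 10000 * s) →
      0 < c → 0 < d →
      (∀ p ∈ P, p.Prime) → (∀ q ∈ V, 0 < ψ q) → (∀ r ∈ W, 0 < ψ r) → 0 < y1 → 0 < y2 →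
      (∀ q ∈ V, ∑ b' ∈ (nMode P k).divisors, rhoN (nMode P k) b' *
        avgA (y1 / (ψ q * (bPart P k q : ℝ) * (d : ℝ)))
          (fun a' => GA1s Cb β β2 T P k c d q a' b' ^ 2) ≤ K0 * T ^ (-(1 / 400) : ℝ)) ∧
      (∀ r ∈ W, ∑ b ∈ (nMode P k).divisors, rhoN (nMode P k) b *
        avgA (y2 / (ψ r * (bPart P k r : ℝ) * (c : ℝ)))
          (fun a => GB2s Cb β β2 T s P k c d r a b ^ 2) ≤ K0 * T ^ (-(1 / 400) : ℝ)) := by
  classical
  obtain ⟨Cρ, hCρ, hρ⟩ := rho_total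
  obtain ⟨Cb, hCb, hbohr⟩ := avg_bohr
  obtain ⟨Cw, Tw, tw, hCw, hTw, hwin⟩ := sum_window Cb hCb
  have hCb0 : (0 : ℝ) ≤ Cb := by linarith
  set K0 := Cρ * Cb + Cw with hK0
  have hK00 : 0 ≤ K0 := by positivity
  refine ⟨Cb, K0, Tw, tw, hK00, hTw, ?_⟩
  intro β β2 T s y1 y2 ψ P V W k c d hs hT hTs hds hc hd hPp hV' hW' hy1 hy2
  have hT1 : 1 ≤ T := hTw.trans hT
  have hTp : 0 < T := by linarith
  have hcR : (0 : ℝ) < c := by exact_mod_cast hc
  have hdR : (0 : ℝ) < d := by exact_mod_cast hd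
  have hN : 0 < nMode P k := prod_pow_pos P hPp k
  have hbpos : ∀ q, (0 : ℝ) < bPart P k q := fun q => by exact_mod_cast prod_pow_pos P hPp _
  have hapos : ∀ q, 0 < aPart P k q := fun q => prod_pow_pos P hPp _
  set g := T ^ (-(1 / 400) : ℝ)
  have hg0 : 0 ≤ g := by positivity
  refine ⟨fun q hq => ?_, fun r hr => ?_⟩
  · have hZ : 0 < y1 / (ψ q * (bPart P k q : ℝ) * (d : ℝ)) := by
      have := hV' q hq
      have := hbpos q
      positivity
    simp only [GA1s, bb_sq]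
    refine (side_avg _ _ _ (Cb * g) Cρ (by positivity) (hρ _ hN)
      (fun b => hbohr β T _ _ _ hT1 hZ)).trans ?_
    rw [← mul_assoc, hK0]
    gcongr
    linarith
  · have hZ : 0 < y2 / (ψ r * (bPart P k r : ℝ) * (c : ℝ)) := by
      have := hW' r hr
      have := hbpos r
      positivity
    simp only [GB2s, bb_sq]
    refine (side_swap _ _ _ (Cw * g) hZ (by positivity) fun a _ =>
      hwin β T s _ _ d (aPart P k r) hs hT hTs hds hN hd (hapos r)).trans ?_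
    rw [hK0]
    gcongr
    linarith [mul_nonneg hCρ.le hCb0]

/-- The event outside `BigP`, restricted to a pair of levels and a class. -/
noncomputable def G2 (γ : ℝ) (A : ℤ) (B : ℕ) (A' : ℤ) (B' : ℕ) (Y : ℝ) (D : ℕ) (ψ : ℕ → ℝ)
    (y1 y2 T : ℝ) (Bs : ℕ) (Vh Wl : Finset ℕ) (q r : ℕ) : ℝ :=
  bb (q ∈ Vh ∧ r ∈ Wl ∧ ¬ BigP T Bs q r ∧ EV2 γ A B A' B' Y D q r) * clsI ψ y1 y2 q r

lemma G2_mem (γ : ℝ) (A : ℤ) (B : ℕ) (A' : ℤ) (B' : ℕ) (Y : ℝ) (D : ℕ) (ψ : ℕ → ℝ)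
    (y1 y2 T : ℝ) (Bs : ℕ) (Vh Wl : Finset ℕ) (q r : ℕ) :
    0 ≤ G2 γ A B A' B' Y D ψ y1 y2 T Bs Vh Wl q r ∧
      G2 γ A B A' B' Y D ψ y1 y2 T Bs Vh Wl q r ≤ clsI ψ y1 y2 q r :=
  ⟨mul_nonneg (bb_nonneg _) (cls_mem ψ y1 y2 q r).1,
    mul_le_of_le_one_left (cls_mem ψ y1 y2 q r).1 (bb_le_one _)⟩

/-- Every pair of the event is in one of the two averaged classes. -/
lemma cover2 (γ β β2 T s Y y1 y2 Cb : ℝ) (ψ : ℕ → ℝ) (A A' tt tt2 : ℤ) (B B' Bs D c d : ℕ)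
    (P V W Vh Wl : Finset ℕ) (k : ℕ → ℕ) (hD : 0 < D) (hDB : Nat.Coprime D (B * B'))
    (hk : (D : ℤ) ∣ A - (B : ℤ) * tt) (hk2 : (D : ℤ) ∣ A' - (B' : ℤ) * tt2)
    (hβ : (D : ℝ) * β = γ - tt) (hβ2 : (D : ℝ) * β2 = γ - tt2) (hTD : (D : ℝ) = T * Y)
    (hPp : ∀ p ∈ P, p.Prime) (hst : IsState P V W c d) (q r : ℕ) (hq : q ∈ V) (hr : r ∈ W)
    (hq0 : 0 < q) (hr0 : 0 < r) (hgp : GoodPair P k q r)
    (hv : q ∈ Vh → r ∈ Wl → InCls ψ y1 y2 q r → ¬ BigP T Bs q r → EV2 γ A B A' B' Y D q r →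
      Real.exp (99 / 100 * s) ≤ (vv q r : ℝ) ∧
        (vv q r : ℝ) ≤ Real.exp (101 / 100 * s) ∧ ¬ RV β T d (vv q r)) :
    G2 γ A B A' B' Y D ψ y1 y2 T Bs Vh Wl q r ≤
      clsI ψ y1 y2 q r * GA1s Cb β β2 T P k c d q (aPart P k r) (bPart P k r)
      + clsI ψ y1 y2 q r * GB2s Cb β β2 T s P k c d r (aPart P k q) (bPart P k q) := by
  obtain ⟨hc0, _⟩ := cls_mem ψ y1 y2 q r
  have hF1 : 0 ≤ clsI ψ y1 y2 q r * GA1s Cb β β2 T P k c d q (aPart P k r) (bPart P k r) :=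
    mul_nonneg hc0 (bb_nonneg _)
  have hF2 : 0 ≤ clsI ψ y1 y2 q r * GB2s Cb β β2 T s P k c d r (aPart P k q) (bPart P k q) :=
    mul_nonneg hc0 (bb_nonneg _)
  by_cases hzero : G2 γ A B A' B' Y D ψ y1 y2 T Bs Vh Wl q r = 0
  · rw [hzero]; linarith
  obtain ⟨hb, hC⟩ := mul_ne_zero_iff.1 hzero
  obtain ⟨hqV, hrW, hnb, hev⟩ := by_contra fun h => hb (bb_false h)
  obtain ⟨hvlo, hvhi, hnR⟩ := hv hqV hrW (cls_inCls hC) hnb hev
  obtain ⟨hu, hvq⟩ := uu_eq P k V W c d q r hPp hst hq hr hq0 hr0 hgp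
  have hdist : distInt (β * (vv q r : ℝ) - β2 * (uu q r : ℝ)) < 1 / T := by
    obtain ⟨n, hn, hdvd, -⟩ := hev
    obtain ⟨m, hm⟩ : (D : ℤ) ∣ n + tt * (vv q r : ℤ) - tt2 * (uu q r : ℤ) := by
      refine (Nat.isCoprime_iff_coprime.2 hDB
        : IsCoprime (D : ℤ) ((B * B' : ℕ) : ℤ)).dvd_of_dvd_mul_left ?_
      have h := dvd_add (dvd_sub hdvd (hk.mul_right ((B' : ℤ) * vv q r)))
        (hk2.mul_right ((B : ℤ) * uu q r))
      convert h using 1
      simp only [D2]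
      push_cast
      ring
    have hDr : (0 : ℝ) < D := by exact_mod_cast hD
    have h1 : (n : ℝ) + tt * (vv q r : ℝ) - tt2 * (uu q r : ℝ) = D * m := by exact_mod_cast hm
    refine lt_of_le_of_lt (distInt_le_abs _ (-m)) ?_
    push_cast
    rw [sub_neg_eq_add]
    have e : (n : ℝ) + γ * hh q r
        = (D : ℝ) * (β * (vv q r : ℝ) - β2 * (uu q r : ℝ) + m) := by
      simp only [hh]
      push_cast
      linear_combination h1 - (vv q r : ℝ) * hβ + (uu q r : ℝ) * hβ2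
    rw [e, abs_mul, abs_of_pos hDr, ← lt_div_iff₀' hDr] at hn
    refine lt_of_lt_of_eq hn ?_
    have hY : Y ≠ 0 := by
      intro h0; rw [hTD, h0, mul_zero] at hDr; exact lt_irrefl _ hDr
    rw [hTD]; field_simp
  have hvR : (vv q r : ℝ) = (d : ℝ) * aPart P k r * bPart P k q := by rw [hvq]; push_cast; rfl
  have huR : (uu q r : ℝ) = (c : ℝ) * aPart P k q * bPart P k r := by rw [hu]; push_cast; rfl
  rw [hvR, huR] at hdist
  have hle := (G2_mem γ A B A' B' Y D ψ y1 y2 T Bs Vh Wl q r).2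
  by_cases hA : T ^ (1 / 100 : ℝ) ≤ (aPart P k r : ℝ) ∧
      ¬ ∃ B1, ResAt Cb β T (d * bPart P k q) B1 (aPart P k r)
  · have : GA1s Cb β β2 T P k c d q (aPart P k r) (bPart P k r) = 1 := bb_true ⟨hA.1, by
      refine lt_of_eq_of_lt ?_ hdist
      congr 1
      push_cast
      ring, hA.2⟩
    rw [this, mul_one]
    linarith
  · have : GB2s Cb β β2 T s P k c d r (aPart P k q) (bPart P k q) = 1 := bb_true
      ⟨by rw [← hvq]; exact hvlo, by rw [← hvq]; exact hvhi, by rwa [← hvq], by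
        by_cases ha : T ^ (1 / 100 : ℝ) ≤ (aPart P k r : ℝ)
        · exact Or.inl ⟨ha, by_contra fun h => hA ⟨ha, h⟩⟩
        · refine Or.inr ⟨not_le.1 ha, lt_of_eq_of_lt ?_ hdist⟩
          congr 1
          push_cast
          ring⟩
    rw [this, mul_one]
    linarith

/-- The hypothesis of the bilinear bound. -/
lemma final2 :
    ∃ C T0 s0 : ℝ, 0 ≤ C ∧ 1 ≤ T0 ∧ ∀ (γ β β2 T t s Y εs y1 y2 : ℝ) (ψ : ℕ → ℝ)
      (S Vh Wl : Finset ℕ) (A A' As tt tt2 : ℤ) (B B' Bs D p0 : ℕ),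
      30 ≤ t → 100000 * t ≤ s → s0 ≤ s → T0 ≤ T → T ≤ Real.exp (3 * t) → 0 < D →
      (D : ℝ) ≤ Real.exp (t / 2) → Nat.Coprime D (B * B') →
      (D : ℤ) ∣ A - (B : ℤ) * tt → (D : ℤ) ∣ A' - (B' : ℤ) * tt2 →
      (D : ℝ) * β = γ - tt → (D : ℝ) * β2 = γ - tt2 → (D : ℝ) = T * Y →
      IsApprox γ (Real.exp (s / 2)) A B → IsApprox γ (Real.exp (t / 2)) A' B' →
      0 < Bs → (Bs : ℝ) ≤ Real.exp (s / 10) → IsCoprime As (Bs : ℤ) → β = (As : ℝ) / Bs + εs →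
      (Bs : ℝ) * |εs| ≤ (Real.exp (s / 10))⁻¹ →
      (∀ q, 0 ≤ ψ q) → (∀ q ∈ S, 0 < q ∧ 0 < ψ q) → 0 < y1 → 0 < y2 →
      (∀ q ∈ Vh, ∀ r ∈ Wl, InCls ψ y1 y2 q r → Real.exp (99 / 100 * s) ≤ (vv q r : ℝ) ∧
        (vv q r : ℝ) ≤ Real.exp (101 / 100 * s) ∧ uu q r ≤ vv q r) →
      FinalHyp p0 (mu ψ) (G2 γ A B A' B' Y D ψ y1 y2 T Bs Vh Wl)
        (C * T ^ (-(5 * eps)) * (y1 * y2) ^ (1 / 2 - eps)) S := by
  classical
  obtain ⟨Cs₀, hs⟩ := schur
  set Cs := max Cs₀ 0 with hCs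
  obtain ⟨Cc, hCc, hcls⟩ := cls_schur
  obtain ⟨Cρ, hCρ, hρ⟩ := rho_total
  obtain ⟨Cb, K0, Tw, sw, hK00, hTw, hsides⟩ := side2
  set C2 := 2 * (Cs * Real.sqrt (K0 * Cρ)) with hC2
  refine ⟨C2 ^ (1 - 2 * eps) + Cc ^ (1 - 2 * eps), max Tw 10, sw, by positivity,
    hTw.trans (le_max_left _ _), ?_⟩
  intro γ β β2 T t s Y εs y1 y2 ψ S Vh Wl A A' As tt tt2 B B' Bs D p0 ht hts hsw hT hTt hD hDt hDB
    hk hk2 hβ hβ2 hTD hA hA' hBs hBsQ hcop hβs hεs hψ hS hy1 hy2 hvrange P V W k c d hV hW hP hst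
  have hTw' : Tw ≤ T := (le_max_left _ _).trans hT
  have hT10 : 10 ≤ T := (le_max_right _ _).trans hT
  have hT1 : 1 ≤ T := by linarith
  have hTp : 0 < T := by linarith
  have hTs : T ≤ Real.exp (3 / 100000 * s) := hTt.trans (Real.exp_le_exp.2 (by linarith))
  have hμ := mu_nonneg' hψ
  set X := (msum (mu ψ) V * msum (mu ψ) W) ^ aE with hX
  have hX0 : 0 ≤ X := Real.rpow_nonneg
    (mul_nonneg (Finset.sum_nonneg fun q _ => hμ q) (Finset.sum_nonneg fun q _ => hμ q)) _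
  set G1 : ℕ → ℕ → ℝ := G2 γ A B A' B' Y D ψ y1 y2 T Bs Vh Wl with hG1
  have hG1le : ∀ q r, 0 ≤ G1 q r ∧ G1 q r ≤ clsI ψ y1 y2 q r := fun q r =>
    G2_mem γ A B A' B' Y D ψ y1 y2 T Bs Vh Wl q r
  have hgood : ∀ q r, 0 ≤ goodG P k G1 q r ∧ goodG P k G1 q r ≤ 1 := fun q r => by
    unfold goodG
    split_ifs
    · exact ⟨(hG1le q r).1, (hG1le q r).2.trans (cls_mem ψ y1 y2 q r).2⟩
    · norm_num
  have hPp : ∀ p ∈ P, p.Prime := fun p hp => (hP p hp).1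
  have hV' : ∀ q ∈ V, 0 < q ∧ 0 < ψ q := fun q hq => hS q (hV hq)
  have hW' : ∀ q ∈ W, 0 < q ∧ 0 < ψ q := fun q hq => hS q (hW hq)
  have heps := eps_pos
  have hexp0 : (0 : ℝ) < 1 - 2 * eps := by unfold eps; norm_num
  have hC20 : 0 ≤ C2 := by
    have : 0 ≤ Cs := le_max_right _ _
    positivity
  by_cases hbig : T ^ (20 : ℝ) < ((c * d : ℕ) : ℝ)
  · have hle : pairSum (mu ψ) (goodG P k G1) V W
        ≤ pairSum (mu ψ) (goodG P k (clsI ψ y1 y2)) V W :=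
      pairSum_mono hμ fun q _ r _ => by
        unfold goodG
        split_ifs
        · exact (hG1le q r).2
        · exact le_rfl
    refine (to_final _ _ V W c d Cc _ hμ hgood hCc (by positivity)
      (hle.trans (hcls ψ P V W k c d y1 y2 hψ hPp hV' hW' hst hy1 hy2))).trans ?_
    refine mul_le_mul_of_nonneg_right (mul_le_mul_of_nonneg_right ?_ (by positivity)) hX0
    rw [mul_assoc, mul_assoc (C2 ^ _ + _), mul_comm (T ^ (-(5 * eps)))]
    refine mul_le_mul (le_add_of_nonneg_left (by positivity)) (mul_le_mul_of_nonneg_left ?_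
      (by positivity)) (by positivity) (by positivity)
    refine (Real.rpow_le_rpow_of_nonpos (by positivity) hbig.le (by linarith)).trans (le_of_eq ?_)
    rw [← Real.rpow_mul hTp.le]
    ring_nf
  push Not at hbig
  by_cases hne : V.Nonempty ∧ W.Nonempty
  swap
  · have h0 : pairSum (mu ψ) (goodG P k G1) V W = 0 := by
      rcases not_and_or.1 hne with h | h <;>
        simp [pairSum, Finset.not_nonempty_iff_eq_empty.1 h]
    rw [h0]; positivity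
  obtain ⟨⟨q0, hq0⟩, ⟨r0, hr0⟩⟩ := hne
  have hc : 0 < c := (hst.2.2 q0 hq0 r0 hr0).1 ▸ outPart_pos P _
  have hd : 0 < d := (hst.2.2 q0 hq0 r0 hr0).2 ▸ outPart_pos P _
  have hdT : (d : ℝ) ≤ T ^ (20 : ℝ) :=
    le_trans (by exact_mod_cast Nat.le_mul_of_pos_left d hc) hbig
  have hds : (d : ℝ) ≤ Real.exp (6 / 10000 * s) :=
    hdT.trans ((T_pow_le hTp hTs (by norm_num)).trans (exp_scale (by linarith) (by norm_num)))
  have hN : 0 < nMode P k := prod_pow_pos P hPp k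
  set g := T ^ (-(1 / 400) : ℝ) with hg
  have hg0 : 0 < g := by positivity
  have hcR : (0 : ℝ) < c := by exact_mod_cast hc
  have hdR : (0 : ℝ) < d := by exact_mod_cast hd
  have hbpos : ∀ q, (0 : ℝ) < bPart P k q := fun q => by exact_mod_cast prod_pow_pos P hPp _
  have hZA : ∀ q ∈ V, 0 < y1 / (ψ q * (bPart P k q : ℝ) * (d : ℝ)) := fun q hq => by
    have := (hV' q hq).2
    have := hbpos q
    positivity
  have hZB : ∀ r ∈ W, 0 < y2 / (ψ r * (bPart P k r : ℝ) * (c : ℝ)) := fun r hr => by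
    have := (hW' r hr).2
    have := hbpos r
    positivity
  obtain ⟨hA1, hB2⟩ := hsides β β2 T s y1 y2 ψ P V W k c d hsw hTw' hTs hds hc hd hPp
    (fun q hq => (hV' q hq).2) (fun q hq => (hW' q hq).2) hy1 hy2
  have hK0' : 0 ≤ K0 * g := by positivity
  set R := Cs * Real.sqrt (K0 * g * Cρ) * Real.sqrt (y1 * y2)
    * ((c * d : ℕ) : ℝ) ^ (-(1 / 2 : ℝ)) * Real.sqrt (msum (mu ψ) V * msum (mu ψ) W) with hR
  set F1 : ℕ → ℕ → ℝ := fun q r =>
    clsI ψ y1 y2 q r * GA1s Cb β β2 T P k c d q (aPart P k r) (bPart P k r) with hF1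
  set F2 : ℕ → ℕ → ℝ := fun q r =>
    clsI ψ y1 y2 q r * GB2s Cb β β2 T s P k c d r (aPart P k q) (bPart P k q) with hF2
  have sideA : pairSum (mu ψ) (goodG P k F1) V W ≤ R := by
    refine (hs ψ P V W k c d y1 y2 F1 (GA1s Cb β β2 T P k c d) (fun _ _ _ => 1) (K0 * g) Cρ hψ hPp
      hV' hW' hst hy1 hy2 hK0' hCρ.le (fun q r => mul_nonneg (cls_mem ψ y1 y2 q r).1 (bb_nonneg _))
      (fun _ _ _ => bb_nonneg _) (fun _ _ _ => zero_le_one)
      (fun q _ r _ h => cls_inCls (left_ne_zero_of_mul h))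
      (fun q _ r _ _ => ?_) hA1 (fun r hr => side_one (hZB r hr) (hρ _ hN))).trans ?_
    · rw [mul_one]
      exact mul_le_of_le_one_left (bb_nonneg _) (cls_mem ψ y1 y2 q r).2
    · rw [hR]
      gcongr
      exact le_max_left _ _
  have sideB : pairSum (mu ψ) (goodG P k F2) V W ≤ R := by
    refine (hs ψ P V W k c d y1 y2 F2 (fun _ _ _ => 1) (GB2s Cb β β2 T s P k c d) Cρ (K0 * g) hψ
      hPp hV' hW' hst hy1 hy2 hCρ.le hK0'
      (fun q r => mul_nonneg (cls_mem ψ y1 y2 q r).1 (bb_nonneg _))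
      (fun _ _ _ => zero_le_one) (fun _ _ _ => bb_nonneg _)
      (fun q _ r _ h => cls_inCls (left_ne_zero_of_mul h))
      (fun q _ r _ _ => ?_) (fun q hq => side_one (hZA q hq) (hρ _ hN)) hB2).trans ?_
    · rw [one_mul]
      exact mul_le_of_le_one_left (bb_nonneg _) (cls_mem ψ y1 y2 q r).2
    · rw [hR, mul_comm Cρ]
      gcongr
      exact le_max_left _ _
  have hcover : ∀ q ∈ V, ∀ r ∈ W,
      goodG P k G1 q r ≤ goodG P k F1 q r + goodG P k F2 q r := by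
    intro q hq r hr
    unfold goodG
    split_ifs with hgp
    swap
    · norm_num
    refine cover2 γ β β2 T s Y y1 y2 Cb ψ A A' tt tt2 B B' Bs D c d P V W Vh Wl k hD hDB hk hk2
      hβ hβ2 hTD hPp hst q r hq hr (hV' q hq).1 (hW' r hr).1 hgp fun hqV hrW hin hnb hev => ?_
    obtain ⟨hlo, hhi, huv⟩ := hvrange q hqV r hrW hin
    obtain ⟨n, hn, hdvd, hne'⟩ := hev
    obtain ⟨-, hvq⟩ := uu_eq P k V W c d q r hPp hst hq hr (hV' q hq).1 (hW' r hr).1 hgp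
    exact ⟨hlo, hhi, no_res γ β T t s Y εs A A' As tt B B' Bs D d q r n ht (by linarith) hT10 hTs
      hTt hD (hDt.trans (Real.exp_le_exp.2 (by linarith)))
      (hDB.coprime_dvd_right (dvd_mul_right B B')) hβ hTD hA hA' hBs hBsQ hcop hβs hεs hdT hd
      (hvq ▸ Dvd.intro _ (Nat.mul_assoc d (aPart P k r) (bPart P k q)).symm) hlo huv hnb hn hdvd
      hne'⟩
  have hsum : pairSum (mu ψ) (goodG P k G1) V W ≤ C2 * T ^ (-(1 / 800) : ℝ)
      * Real.sqrt (y1 * y2) * ((c * d : ℕ) : ℝ) ^ (-(1 / 2 : ℝ))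
      * Real.sqrt (msum (mu ψ) V * msum (mu ψ) W) := by
    refine (pairSum_mono hμ hcover).trans ?_
    rw [pairSum_add]
    have e : Real.sqrt (K0 * g * Cρ) = Real.sqrt (K0 * Cρ) * T ^ (-(1 / 800) : ℝ) := by
      rw [mul_right_comm, Real.sqrt_mul' _ hg0.le, hg, Real.sqrt_eq_rpow (T ^ _),
        ← Real.rpow_mul hTp.le]
      norm_num
    refine le_trans (add_le_add sideA sideB) (le_of_eq ?_)
    rw [hR, e, hC2]; ring
  refine (to_final _ _ V W c d (C2 * T ^ (-(1 / 800) : ℝ)) _ hμ hgood (by positivity)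
    (by positivity) hsum).trans ?_
  refine mul_le_mul_of_nonneg_right (mul_le_mul_of_nonneg_right ?_ (by positivity)) hX0
  refine (mul_le_of_le_one_right (by positivity)
    (rpow_neg_natCast_le_one _ (by linarith))).trans ?_
  refine mul_le_mul_of_nonneg_right ?_ (by positivity)
  rw [Real.mul_rpow hC20 (by positivity), ← Real.rpow_mul hTp.le]
  refine mul_le_mul (le_add_of_nonneg_right (by positivity))
    (Real.rpow_le_rpow_of_exponent_le hT1 (by unfold eps; norm_num)) (by positivity) (by positivity)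

/-- The gain between a level `t` and a cell `s ≫ t`. -/
theorem ev2_gain :
    ∃ C t0 : ℝ, 0 ≤ C ∧ ∀ (γ : ℝ) (ψ : ℕ → ℝ) (Vh Wl : Finset ℕ) (t s Y y1 y2 : ℝ) (A A' : ℤ)
      (B B' D : ℕ),
      t0 ≤ t → 100000 * t ≤ s → (∀ q, 0 ≤ ψ q) →
      (∀ q ∈ Vh, 0 < q ∧ Real.exp (-(1 + zeta0) * s) ≤ ψ q ∧ ψ q ≤ Real.exp (-s)) →
      (∀ r ∈ Wl, 0 < r ∧ Real.exp (-(2 * t)) ≤ ψ r) →
      IsApprox γ (Real.exp (s / 2)) A B → IsApprox γ (Real.exp (t / 2)) A' B' →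
      0 < D → Nat.Coprime D (B * B') → (D : ℝ) ≤ Real.exp (t / 2) →
      Real.exp (-(2 * t)) ≤ Y → Y ≤ 4 * (D : ℝ) →
      Y * Real.exp (-nuM * s) ≤ y1 → y1 ≤ Y → 0 < y2 → y2 ≤ Y →
      pairSum (mu ψ) (fun q r => EV2i γ A B A' B' Y D q r * clsI ψ y1 y2 q r) Vh Wl
        ≤ C * (Y / D) ^ (5 * eps) * (y1 * y2) ^ (1 / 2 - eps)
          * (msum (mu ψ) (Vh ∪ Wl) * msum (mu ψ) (Vh ∪ Wl)) ^ aE := by
  classical
  obtain ⟨Cg, T0, s0, hCg, hT0, hfin⟩ := final2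
  obtain ⟨Cbig, hCbig, hbigb⟩ := big_bound
  obtain ⟨p0, K, hbil⟩ := bilinear
  obtain ⟨Cc, hCc, hcls⟩ := cls_bound
  refine ⟨max K 0 * Cg + Cbig + Cc * T0 ^ (5 * eps), max 1000 s0, by positivity, ?_⟩
  intro γ ψ Vh Wl t s Y y1 y2 A A' B B' D ht hts hψ hVh hWl hA hA' hD hDB hDt hYlo hYD h1lo h1hi
    hy2 h2hi
  have ht1000 : 1000 ≤ t := (le_max_left _ _).trans ht
  have hs0 : s0 ≤ s := by linarith [(le_max_right 1000 s0).trans ht]
  have hY : 0 < Y := lt_of_lt_of_le (Real.exp_pos _) hYlo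
  have hy1 : 0 < y1 := lt_of_lt_of_le (mul_pos hY (Real.exp_pos _)) h1lo
  have hDr : (0 : ℝ) < D := by exact_mod_cast hD
  set S := Vh ∪ Wl with hSdef
  have hS : ∀ q ∈ S, 0 < q ∧ 0 < ψ q := by
    intro q hq
    rcases mem_union.1 hq with h | h
    · exact ⟨(hVh q h).1, lt_of_lt_of_le (Real.exp_pos _) (hVh q h).2.1⟩
    · exact ⟨(hWl q h).1, lt_of_lt_of_le (Real.exp_pos _) (hWl q h).2⟩
  set M := (msum (mu ψ) S * msum (mu ψ) S) ^ aE with hM
  have hM0 : 0 ≤ M := Real.rpow_nonneg (mul_self_nonneg _) _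
  have hμ := mu_nonneg' hψ
  set T := (D : ℝ) / Y with hT
  have hTp : 0 < T := by positivity
  have hyT : Y / D = T⁻¹ := by rw [hT, inv_div]
  rw [hyT, Real.inv_rpow hTp.le, ← Real.rpow_neg hTp.le]
  have hmono : ∀ G : ℕ → ℕ → ℝ, (∀ q r, 0 ≤ G q r) → pairSum (mu ψ) G Vh Wl ≤ pairSum (mu ψ) G S S :=
    fun G hG => by
      refine le_trans (sum_le_sum fun q _ => sum_le_sum_of_subset_of_nonneg
        (show Wl ⊆ S from subset_union_right)
        fun r _ _ => mul_nonneg (mul_nonneg (hμ q) (hμ r)) (hG q r)) ?_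
      exact sum_le_sum_of_subset_of_nonneg subset_union_left fun q _ _ => sum_nonneg fun r _ =>
        mul_nonneg (mul_nonneg (hμ q) (hμ r)) (hG q r)
  have hC0 : 0 ≤ Cc * T0 ^ (5 * eps) := by positivity
  by_cases hsmall : T < T0
  · refine ((pairSum_mono hμ fun q _ r _ => mul_le_of_le_one_left (cls_mem ψ y1 y2 q r).1
      (EV2i_mem ..).2).trans ((hmono _ fun q r => (cls_mem ψ y1 y2 q r).1).trans
      (hcls ψ S y1 y2 hψ hS hy1 hy2))).trans ?_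
    refine mul_le_mul_of_nonneg_right (mul_le_mul_of_nonneg_right ?_ (by positivity)) hM0
    have h1 : T0 ^ (-(5 * eps)) ≤ T ^ (-(5 * eps)) :=
      Real.rpow_le_rpow_of_nonpos hTp hsmall.le (by linarith [eps_pos])
    calc Cc = Cc * T0 ^ (5 * eps) * T0 ^ (-(5 * eps)) := by
          rw [mul_assoc, ← Real.rpow_add (by linarith), add_neg_cancel, Real.rpow_zero, mul_one]
      _ ≤ _ := by
          refine mul_le_mul ?_ h1 (Real.rpow_nonneg (by linarith) _) (by positivity)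
          linarith [mul_nonneg (le_max_right K 0) hCg]
  push Not at hsmall
  have hTt : T ≤ Real.exp (3 * t) := by
    rw [hT, div_le_iff₀ hY]
    refine le_trans ?_ (mul_le_mul_of_nonneg_left hYlo (Real.exp_nonneg _))
    rw [← Real.exp_add]
    exact hDt.trans (Real.exp_le_exp.2 (by linarith))
  have hTD : (D : ℝ) = T * Y := by rw [hT]; field_simp
  obtain ⟨e, f, hef⟩ : IsCoprime (B : ℤ) (D : ℤ) := (Int.isCoprime_iff_nat_coprime.2
    (by simpa using hDB.coprime_dvd_right (dvd_mul_right B B'))).symm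
  obtain ⟨e2, f2, hef2⟩ : IsCoprime (B' : ℤ) (D : ℤ) := (Int.isCoprime_iff_nat_coprime.2
    (by simpa using hDB.coprime_dvd_right (dvd_mul_left B' B))).symm
  set tt : ℤ := A * e with htt
  set tt2 : ℤ := A' * e2 with htt2
  set β := (γ - tt) / D with hβdef
  set β2 := (γ - tt2) / D with hβ2def
  obtain ⟨As, Bs, εs, hBs, hBsQ, hcop, hβs, hεs⟩ :=
    exists_approx' β (Real.exp (s / 10)) (Real.one_le_exp (by linarith))
  have hrange : ∀ q ∈ Vh, ∀ r ∈ Wl, InCls ψ y1 y2 q r → Real.exp (99 / 100 * s) ≤ (vv q r : ℝ) ∧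
      (vv q r : ℝ) ≤ Real.exp (101 / 100 * s) ∧ uu q r ≤ vv q r := by
    intro q hq r hr hin
    obtain ⟨-, hlo, hhi⟩ := hVh q hq
    obtain ⟨-, hr2⟩ := hWl r hr
    obtain ⟨⟨hw1, hw2⟩, -, hu2⟩ := hin
    have hY4 : Y ≤ 4 * Real.exp (t / 2) := hYD.trans (by linarith)
    set w := (vv q r : ℝ) with hwdef
    have hw0 : 0 ≤ w := Nat.cast_nonneg _
    have h2 : (4 : ℝ) ≤ Real.exp (s / 1000) := by
      have := Real.add_one_le_exp (s / 1000); linarith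
    have hwlo : Real.exp (99 / 100 * s) ≤ w := by
      have h3 : Real.exp (-(2 * t) + -nuM * s) ≤ y1 := by
        rw [Real.exp_add]
        exact le_trans (mul_le_mul_of_nonneg_right hYlo (Real.exp_nonneg _)) h1lo
      have h4 : Real.exp (-(2 * t) + -nuM * s) ≤ w * Real.exp (-s) * Real.exp (s / 1000) := by
        have h5 := mul_le_mul_of_nonneg_left hhi hw0
        have h6 := mul_le_mul_of_nonneg_left h2 (mul_nonneg hw0 (Real.exp_nonneg (-s)))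
        linarith
      rw [mul_assoc, ← Real.exp_add] at h4
      refine le_of_mul_le_mul_right ?_ (Real.exp_pos (-s + s / 1000))
      refine le_trans ?_ h4
      rw [← Real.exp_add]
      exact Real.exp_le_exp.2 (by unfold nuM; linarith)
    refine ⟨hwlo, ?_, ?_⟩
    · have h7 : w * Real.exp (-(1 + zeta0) * s) ≤ Real.exp (s / 1000 + t / 2) := by
        rw [Real.exp_add]
        exact ((mul_le_mul_of_nonneg_left hlo hw0).trans hw2).trans ((h1hi.trans hY4).trans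
          (mul_le_mul_of_nonneg_right h2 (Real.exp_nonneg _)))
      refine le_of_mul_le_mul_right ?_ (Real.exp_pos (-(1 + zeta0) * s))
      refine h7.trans ?_
      rw [← Real.exp_add]
      exact Real.exp_le_exp.2 (by unfold zeta0; linarith)
    · have h7 : (uu q r : ℝ) * Real.exp (-(2 * t)) ≤ Real.exp (s / 1000 + t / 2) := by
        rw [Real.exp_add]
        exact ((mul_le_mul_of_nonneg_left hr2 (Nat.cast_nonneg _)).trans hu2).trans
          ((h2hi.trans hY4).trans (mul_le_mul_of_nonneg_right h2 (Real.exp_nonneg _)))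
      have h8 : (uu q r : ℝ) ≤ w := by
        refine le_trans (le_of_mul_le_mul_right ?_ (Real.exp_pos (-(2 * t)))) hwlo
        refine h7.trans ?_
        rw [← Real.exp_add]
        exact Real.exp_le_exp.2 (by linarith)
      rw [hwdef] at h8
      exact_mod_cast h8
  have hf := hfin γ β β2 T t s Y εs y1 y2 ψ S Vh Wl A A' As tt tt2 B B' Bs D p0 (by linarith) hts
    hs0 hsmall hTt hD hDt hDB ⟨A * f, by rw [htt]; linear_combination (-A) * hef⟩
    ⟨A' * f2, by rw [htt2]; linear_combination (-A') * hef2⟩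
    (by rw [hβdef]; field_simp) (by rw [hβ2def]; field_simp) hTD hA hA' hBs hBsQ hcop hβs hεs
    hψ hS hy1 hy2 hrange
  have h1 := hbil (mu ψ) _ _ S hμ (fun q r => (G2_mem γ A B A' B' Y D ψ y1 y2 T Bs Vh Wl q r).1)
    (by positivity) (fun q hq => (hS q hq).1) hf
  have h2 := hbigb ψ S y1 y2 T Bs hψ hS hy1 hy2 (by linarith) hBs
  have hsplit : pairSum (mu ψ) (fun q r => EV2i γ A B A' B' Y D q r * clsI ψ y1 y2 q r) Vh Wl
      ≤ pairSum (mu ψ) (G2 γ A B A' B' Y D ψ y1 y2 T Bs Vh Wl) S S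
        + pairSum (mu ψ) (fun q r => clsI ψ y1 y2 q r * bb (BigP T Bs q r)) S S := by
    rw [← pairSum_add]
    refine le_trans (pairSum_mono hμ fun q hq r hr => ?_) (hmono _ fun q r =>
      add_nonneg (G2_mem γ A B A' B' Y D ψ y1 y2 T Bs Vh Wl q r).1
        (mul_nonneg (cls_mem ψ y1 y2 q r).1 (bb_nonneg _)))
    have hc0 := (cls_mem ψ y1 y2 q r).1
    by_cases hbp : BigP T Bs q r
    · rw [bb_true hbp, mul_one]
      exact (mul_le_of_le_one_left hc0 (EV2i_mem ..).2).trans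
        (le_add_of_nonneg_left (G2_mem γ A B A' B' Y D ψ y1 y2 T Bs Vh Wl q r).1)
    · refine le_add_of_le_of_nonneg ?_ (mul_nonneg hc0 (bb_nonneg _))
      unfold EV2i G2
      split_ifs with hev
      · rw [bb_true ⟨hq, hr, hbp, hev⟩]
      · rw [zero_mul]; exact mul_nonneg (bb_nonneg _) hc0
  refine hsplit.trans ((add_le_add h1 h2).trans ?_)
  rw [← hM]
  have hPY : 0 ≤ T ^ (-(5 * eps)) * (y1 * y2) ^ (1 / 2 - eps) * M := by positivity
  have := mul_le_mul_of_nonneg_right (le_max_left K 0) (mul_nonneg hCg hPY)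
  have := mul_nonneg hC0 hPY
  linarith

end Vale.Agent.P028G
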