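import Vale.Agent.P028G.Main
import Vale.Agent.P028A.Main

/-! P028G module ITERATED: for every shift any power above one of `log log log q` is enough extra divergence, for
every `ψ`: below `1 / log q` nothing is lost, and above it the anchor `log log q` is near. -/

namespace Vale.Agent.P028G

open Finset Vale.Agent.P028
open Vale.Agent.P028X (mu_nonneg_X slice slice_spec)
open Vale.Agent.P028A (wA aLoss one_le_aLoss wA_nonneg not_summable_of_le one_le_log)

/-- Q1 for every shift with an extra divergence of any power above one of `log log log q`. -/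
theorem weak_inhom_DS_iter (γ δ : ℝ) (hδ : 0 < δ) (ψ : ℕ → ℝ)
    (hψ : ∀ q, 0 ≤ ψ q)
    (hdiv : ¬ Summable (fun q : ℕ => mu ψ q / max 1 (Real.log (Real.log (Real.log q))) ^ (1 + δ))) :
    ∀ᵐ x : ℝ, {q : ℕ | 0 < q ∧ distInt ((q : ℝ) * x - γ) < ψ q}.Infinite := by
  classical
  set S0 : Set ℕ := {q : ℕ | ψ q ≤ Real.log q ^ (-(1 : ℝ))} with hS0
  by_cases h0 : Summable (S0.indicator (mu ψ))
  swap
  · exact weak_inhom_DS_below γ 1 one_pos ψ hψ h0
  refine P028A.weak_inhom_DS_anchor γ δ hδ (fun k => (k : ℝ) + 1) ψ hψ ?_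
  set w : ℕ → ℝ := fun q => mu ψ q / max 1 (Real.log (Real.log (Real.log q))) ^ (1 + δ) with hw
  have hμ := mu_nonneg_X hψ
  have hm1 : ∀ q : ℕ, 1 ≤ max 1 (Real.log (Real.log (Real.log q))) ^ (1 + δ) := fun q =>
    Real.one_le_rpow (le_max_left _ _) (by linarith)
  have hw0 : ∀ q, 0 ≤ w q := fun q => div_nonneg (hμ q) (le_trans zero_le_one (hm1 q))
  have hwμ : ∀ q, w q ≤ mu ψ q := fun q => div_le_self (hμ q) (hm1 q)
  have hd : ¬ Summable (S0ᶜ.indicator w) := by
    intro hs
    refine hdiv ((h0.add hs).of_nonneg_of_le hw0 fun q => ?_)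
    by_cases hq : q ∈ S0
    · rw [Set.indicator_of_mem hq, Set.indicator_of_notMem (Set.notMem_compl_iff.2 hq), add_zero]
      exact hwμ q
    · rw [Set.indicator_of_notMem hq, Set.indicator_of_mem (Set.mem_compl hq), zero_add]
  refine not_summable_of_le ψ hψ (Set.indicator_nonneg fun q _ => hw0 q)
    (wA_nonneg (by linarith) _ hψ) (fun q => (Set.indicator_le_self' (fun q _ => hw0 q) q).trans (hwμ q))
    16 ((5 : ℝ) ^ (1 + δ)) (fun q hq hq2 => ?_) hd
  by_cases hm : q ∈ S0ᶜ
  swap
  · rw [Set.indicator_of_notMem hm]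
    exact mul_nonneg (by positivity) (wA_nonneg (by linarith) _ hψ q)
  rw [Set.indicator_of_mem hm]
  have hm' : Real.log q ^ (-(1 : ℝ)) < ψ q := not_le.1 hm
  have hq16 : Real.exp 1 ≤ Real.log q := by
    have h1 : Real.log 16 ≤ Real.log q := Real.log_le_log (by norm_num) (by exact_mod_cast hq)
    rw [show (16 : ℝ) = 2 ^ 4 by norm_num, Real.log_pow] at h1
    push_cast at h1
    linarith [Real.log_two_gt_d9, Real.exp_one_lt_d9]
  have hlq : 0 < Real.log q := lt_of_lt_of_le (Real.exp_pos _) hq16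
  set ll := Real.log (Real.log q) with hll
  have hll1 : 1 ≤ ll := by rwa [hll, Real.le_log_iff_exp_le hlq]
  have l1 := Real.log_le_log (Real.rpow_pos_of_pos hlq _) hm'.le
  rw [Real.log_rpow hlq, ← hll] at l1
  have hk1 : (slice q : ℝ) ≤ ll / Real.log 8 := Nat.floor_le (by
    have : 0 ≤ ll := by linarith
    positivity)
  have h8 : 1 ≤ Real.log 8 := P028X.one_le_log_three.trans (Real.log_le_log (by norm_num) (by norm_num))
  have hk : (slice q : ℝ) + 1 ≤ 2 * ll := by
    have := hk1.trans (div_le_self (by linarith) h8)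
    linarith
  set L := max 1 (-Real.log (ψ q)) with hL
  have hL1 : 1 ≤ L := le_max_left _ _
  have hLll : L ≤ ll := max_le hll1 (by linarith)
  set R := max 1 (Real.log ll) with hR
  have hR1 : 1 ≤ R := le_max_left _ _
  have hloss : aLoss ψ (fun k => (k : ℝ) + 1) q ≤ 5 * R := by
    have hk0 : (0 : ℝ) ≤ slice q := Nat.cast_nonneg _
    have d1 : Real.log L ≤ Real.log ll := Real.log_le_log (by linarith) hLll
    have d2 : Real.log ((slice q : ℝ) + 1) ≤ Real.log 2 + Real.log ll := by
      rw [← Real.log_mul two_ne_zero (by linarith)]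
      exact Real.log_le_log (by linarith) hk
    have d3 := Real.log_nonneg hL1
    have d4 : 0 ≤ Real.log ((slice q : ℝ) + 1) := Real.log_nonneg (by linarith)
    have d5 : Real.log ll ≤ R := le_max_right _ _
    have := Real.log_two_lt_d9
    unfold aLoss
    simp only [← hL]
    rw [max_eq_right (show (1 : ℝ) ≤ (slice q : ℝ) + 1 by linarith)]
    have : |Real.log L - Real.log ((slice q : ℝ) + 1)| ≤ 2 * R + 1 :=
      abs_le.2 ⟨by linarith, by linarith⟩
    linarith
  have ha := one_le_aLoss ψ (fun k => (k : ℝ) + 1) q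
  simp only [hw, wA]
  rw [← hll, ← hR, ← mul_div_assoc, div_le_div_iff₀ (Real.rpow_pos_of_pos (by linarith) _)
    (Real.rpow_pos_of_pos (by linarith) _)]
  calc mu ψ q * aLoss ψ (fun k => (k : ℝ) + 1) q ^ (1 + δ) ≤ mu ψ q * (5 * R) ^ (1 + δ) :=
        mul_le_mul_of_nonneg_left (Real.rpow_le_rpow (by linarith) hloss (by linarith)) (hμ q)
    _ = _ := by rw [Real.mul_rpow (by norm_num) (by linarith)]; ring

end Vale.Agent.P028G
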