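import Vale.Agent.P028L.Kernel
import Vale.Agent.P028.Density

/-! P028G module LIN: the coincidences of two exclusion rationals as events `D ∣ D₂` in a window. -/

namespace Vale.Agent.P028G

open Finset
open Vale.Agent.P028
open Vale.Agent.P028.Overlap
open Vale.Agent.P028L

/-- Some coincidence `n` in the window has `D ∣ D₂ ≠ 0`. -/
def EV2 (γ : ℝ) (A : ℤ) (B : ℕ) (A' : ℤ) (B' : ℕ) (y : ℝ) (D q r : ℕ) : Prop :=
  ∃ n : ℤ, |(n : ℝ) + γ * (hh q r : ℝ)| < y ∧ (D : ℤ) ∣ D2 A B A' B' q r n ∧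
    D2 A B A' B' q r n ≠ 0

open Classical in
/-- The indicator of `EV2`. -/
noncomputable def EV2i (γ : ℝ) (A : ℤ) (B : ℕ) (A' : ℤ) (B' : ℕ) (y : ℝ) (D q r : ℕ) : ℝ :=
  if EV2 γ A B A' B' y D q r then 1 else 0

lemma EV2i_mem (γ : ℝ) (A : ℤ) (B : ℕ) (A' : ℤ) (B' : ℕ) (y : ℝ) (D q r : ℕ) :
    0 ≤ EV2i γ A B A' B' y D q r ∧ EV2i γ A B A' B' y D q r ≤ 1 := by
  unfold EV2i
  split_ifs <;> norm_num

lemma EV2i_mono (γ : ℝ) (A : ℤ) (B : ℕ) (A' : ℤ) (B' : ℕ) {y y' : ℝ} (D q r : ℕ) (h : y ≤ y') :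
    EV2i γ A B A' B' y D q r ≤ EV2i γ A B A' B' y' D q r := by
  unfold EV2i
  split_ifs with h1 h2 <;> norm_num
  obtain ⟨n, hn, h3⟩ := h1
  exact h2 ⟨n, hn.trans_le h, h3⟩

lemma D2_swap (A : ℤ) (B : ℕ) (A' : ℤ) (B' : ℕ) (q r : ℕ) (n : ℤ) :
    D2 A' B' A B r q (-n) = -D2 A B A' B' q r n := by
  simp only [D2, uu, vv, Nat.gcd_comm r q]
  ring

lemma EV2i_swap (γ : ℝ) (A : ℤ) (B : ℕ) (A' : ℤ) (B' : ℕ) (y : ℝ) (D q r : ℕ) :
    EV2i γ A' B' A B y D r q = EV2i γ A B A' B' y D q r := by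
  have key : ∀ (A : ℤ) (B : ℕ) (A' : ℤ) (B' q r : ℕ),
      EV2 γ A B A' B' y D q r → EV2 γ A' B' A B y D r q := by
    rintro A B A' B' q r ⟨n, h1, h2, h3⟩
    refine ⟨-n, ?_, ?_, ?_⟩
    · rw [evD_hh_swap]; push_cast
      rwa [mul_neg, ← neg_add, abs_neg]
    · rw [D2_swap]; exact dvd_neg.2 h2
    · rw [D2_swap]; exact neg_ne_zero.2 h3
  classical
  unfold EV2i
  exact if_congr ⟨key A' B' A B r q, key A B A' B' q r⟩ rfl rfl

/-- The part of the common divisor is a sum over the moduli dividing `D₂`. -/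
lemma gPart_eq (A : ℤ) (B : ℕ) (A' : ℤ) (B' : ℕ) {q r : ℕ} (hq : 0 < q) {n : ℤ}
    (h : D2 A B A' B' q r n ≠ 0) :
    gPart A B A' B' q r n = ∑ D ∈ (dset (B * B') q r).filter
      (fun D : ℕ => (D : ℤ) ∣ D2 A B A' B' q r n), (1 : ℝ) / D.totient := by
  rw [sum_dset (Nat.gcd_pos_of_pos_left _ hq) h, gPart]
  refine prod_congr rfl fun p hp => ?_
  have h2 : (2 : ℝ) ≤ p := by
    exact_mod_cast (Nat.prime_of_mem_primeFactors (mem_filter.1 hp).1).two_le
  have : (p : ℝ) - 1 ≠ 0 := by linarith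
  field_simp
  ring

/-- A short window. -/
theorem sum_W2_small (γ η : ℝ) (A A' : ℤ) (B B' q r : ℕ) (hq : 0 < q) (hr : 0 < r) (hη0 : 0 < η)
    (hη : η < 1) :
    ∑ n ∈ (nWin γ η q r).filter (fun n => D2 A B A' B' q r n ≠ 0), W2 A B A' B' q r n
      ≤ 2 * Ph (uu q r * vv q r) *
          ∑ D ∈ dset (B * B') q r, EV2i γ A B A' B' η D q r / D.totient := by
  set S := ∑ D ∈ dset (B * B') q r, EV2i γ A B A' B' η D q r / (D.totient : ℝ)
  have hS : 0 ≤ S := sum_nonneg fun D _ => div_nonneg (EV2i_mem ..).1 (Nat.cast_nonneg _)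
  have hle : ∀ n ∈ (nWin γ η q r).filter (fun n => D2 A B A' B' q r n ≠ 0),
      W2 A B A' B' q r n ≤ Ph (uu q r * vv q r) * S := by
    intro n hn
    obtain ⟨hn1, hn2⟩ := mem_filter.1 hn
    refine (W2_le A B A' B' hq hr n).trans (mul_le_mul_of_nonneg_left ?_ (Ph_nonneg _))
    rw [gPart_eq A B A' B' hq hn2, sum_filter]
    refine sum_le_sum fun D _ => ?_
    split_ifs with h
    · refine div_le_div_of_nonneg_right (le_of_eq ?_) (Nat.cast_nonneg _)
      exact (if_pos ⟨n, (mem_nWin γ η q r n).1 hn1, h, hn2⟩).symm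
    · exact div_nonneg (EV2i_mem ..).1 (Nat.cast_nonneg _)
  have hcard : (((nWin γ η q r).filter (fun n => D2 A B A' B' q r n ≠ 0)).card : ℝ) ≤ 2 := by
    have h := card_class γ η q r 1 0 1 hη0 one_pos isCoprime_one_left
    simp at h
    have h2 : (nWin γ η q r).card < 3 := by
      have : ((nWin γ η q r).card : ℝ) < (3 : ℕ) := by push_cast; linarith [(abs_le.1 h).2]
      exact_mod_cast this
    have h3 : (((nWin γ η q r).filter (fun n => D2 A B A' B' q r n ≠ 0)).card : ℝ)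
        ≤ (nWin γ η q r).card := Nat.cast_le.2 (card_filter_le _ _)
    refine h3.trans ?_
    exact_mod_cast (show (nWin γ η q r).card ≤ 2 by omega)
  refine (sum_le_card_nsmul _ _ _ hle).trans ?_
  rw [nsmul_eq_mul, mul_assoc 2]
  exact mul_le_mul_of_nonneg_right hcard (mul_nonneg (Ph_nonneg _) hS)

/-- A long window. -/
theorem sum_W2_mid :
    ∃ C : ℝ, 0 ≤ C ∧ ∀ (γ η : ℝ) (A A' : ℤ) (B B' q r : ℕ), 0 < q → 0 < r → 1 ≤ η →
      ∑ n ∈ (nWin γ η q r).filter (fun n => D2 A B A' B' q r n ≠ 0), W2 A B A' B' q r n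
        ≤ C * (phiBig (Yof η) (uu q r * vv q r) *
            (η + Real.log (Real.log η + 3) *
              ∑ D ∈ (dset (B * B') q r).filter (fun D : ℕ => 2 * η < (D : ℝ)),
                EV2i γ A B A' B' η D q r / D.totient)) := by
  have hY0 : (10 : ℝ) ≤ Y0 := by
    have h := Real.add_one_le_exp ((10 : ℝ) ^ 8)
    have : (10 : ℝ) ≤ 10 ^ 8 + 1 := by norm_num
    unfold Y0
    linarith
  obtain ⟨Cb, hCb⟩ := mertens_band (2 + 2 * Real.log Y0 / Real.log 2) (by
    have h1 : 0 < Real.log 2 := Real.log_pos one_lt_two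
    have h2 : 0 ≤ Real.log Y0 := Real.log_nonneg (by linarith)
    have : 0 ≤ 2 * Real.log Y0 / Real.log 2 := by positivity
    linarith)
  obtain ⟨Cu, hCu⟩ := mertens_upto
  have hCb1 : 1 ≤ Cb := by
    have := hCb 2 le_rfl ∅ (by simp)
    simpa using this
  have hCu0 : 0 < Cu := by
    have h := hCu 2 le_rfl ∅ (by simp)
    rw [Finset.prod_empty] at h
    by_contra hc
    have := mul_nonpos_of_nonpos_of_nonneg (not_lt.1 hc) (Real.log_nonneg (one_le_two (α := ℝ)))
    linarith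
  obtain ⟨Ct, hCt0, hCt⟩ := inv_mul_totient_le
  have hs74 := Real.summable_one_div_nat_rpow.2 (show (1 : ℝ) < 7 / 4 by norm_num)
  have hs54 := Real.summable_one_div_nat_rpow.2 (show (1 : ℝ) < 5 / 4 by norm_num)
  set T74 : ℝ := ∑' n : ℕ, 1 / (n : ℝ) ^ (7 / 4 : ℝ)
  set T54 : ℝ := ∑' n : ℕ, 1 / (n : ℝ) ^ (5 / 4 : ℝ)
  have hT74 : 0 ≤ T74 := tsum_nonneg fun n => by positivity
  have hT54 : 0 ≤ T54 := tsum_nonneg fun n => by positivity
  refine ⟨Cb * (2 * Ct * T74 + 48 * Cu + 12 * Cu * Ct * T54 + 2 * Cu + 1), by positivity,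
    fun γ η A A' B B' q r hq hr hη => ?_⟩
  set u := uu q r with hu
  set v := vv q r with hv
  set U := (u * v).primeFactors with hU
  set Ps := U.filter (fun p => ¬ ((p ∣ u ∧ p ∣ B) ∨ (p ∣ v ∧ p ∣ B'))) with hPs
  set G0 := (Nat.gcd q r).primeFactors.filter (fun p => ¬ p ∣ u * v * (B * B')) with hG0
  have hco : Nat.Coprime u v := Nat.coprime_div_gcd_div_gcd (Nat.gcd_pos_of_pos_left _ hq)
  have hsp : ∀ p ∈ Ps, p.Prime := fun p hp => Nat.prime_of_mem_primeFactors (mem_filter.1 hp).1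
  have hGp : ∀ p ∈ G0, p.Prime := fun p hp => Nat.prime_of_mem_primeFactors (mem_filter.1 hp).1
  have hsG : ∀ p ∈ Ps, p ∉ G0 := fun p hp h =>
    (mem_filter.1 h).2 (dvd_mul_of_dvd_left (Nat.dvd_of_mem_primeFactors (mem_filter.1 hp).1) _)
  have hall : ∀ p ∈ Ps ∪ G0, p.Prime := fun p hp => (mem_union.1 hp).elim (hsp p) (hGp p)
  set fc : ℕ → ℤ := fun p =>
    if p ∈ G0 then (B : ℤ) * B' else if p ∣ u then (B : ℤ) else -(B' : ℤ) with hfc
  set fd : ℕ → ℤ := fun p =>
    if p ∈ G0 then A * B' * v - A' * B * u else if p ∣ u then A * v else A' * u with hfd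
  obtain ⟨c, hc⟩ := exists_crt _ hall fc
  obtain ⟨d, hd⟩ := exists_crt _ hall fd
  have hlin : ∀ p ∈ Ps ∪ G0, ∀ n : ℤ,
      ((p : ℤ) ∣ c * n + d ↔ (p : ℤ) ∣ fc p * n + fd p) := fun p hp n => by
    have : (p : ℤ) ∣ (c * n + d) - (fc p * n + fd p) := by
      rw [show (c * n + d) - (fc p * n + fd p) = (c - fc p) * n + (d - fd p) by ring]
      exact dvd_add ((hc p hp).mul_right n) (hd p hp)
    exact dvd_iff_dvd_of_dvd_sub this
  have hcne : ∀ p ∈ Ps ∪ G0, ¬ (p : ℤ) ∣ c := fun p hp h => by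
    have hf : (p : ℤ) ∣ fc p := (dvd_iff_dvd_of_dvd_sub (hc p hp)).1 h
    have hp' := hall p hp
    simp only [hfc] at hf
    split_ifs at hf with h1 h2
    · refine (mem_filter.1 h1).2 (dvd_mul_of_dvd_right ?_ _)
      exact Int.natCast_dvd_natCast.1 (by push_cast; exact hf)
    · have h3 := (mem_union.1 hp).resolve_right h1
      exact (mem_filter.1 h3).2 (Or.inl ⟨h2, Int.natCast_dvd_natCast.1 hf⟩)
    · have h3 := (mem_union.1 hp).resolve_right h1
      have hpv := (hp'.dvd_mul.1 (Nat.dvd_of_mem_primeFactors (mem_filter.1 h3).1)).resolve_left h2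
      exact (mem_filter.1 h3).2 (Or.inr ⟨hpv, Int.natCast_dvd_natCast.1 (dvd_neg.1 hf)⟩)
  have hkill : ∀ n : ℤ, ∏ p ∈ U, killF A B A' B' q r n p = primeFactor Ps (c * n + d) := by
    intro n
    rw [primeFactor, hPs, prod_filter]
    refine prod_congr rfl fun p hp => ?_
    have pp := Nat.prime_of_mem_primeFactors hp
    have hpuv := Nat.dvd_of_mem_primeFactors hp
    unfold killF
    rw [← hu, ← hv]
    by_cases hB : (p ∣ u ∧ p ∣ B) ∨ (p ∣ v ∧ p ∣ B')
    · rw [if_neg, if_pos hB, if_neg (not_not_intro hB)]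
      rintro (⟨h1, h2, -⟩ | ⟨h1, h2, -⟩)
      · rcases hB with ⟨-, h⟩ | ⟨h, -⟩
        · exact h2 h
        · exact pp.not_dvd_one (hco ▸ Nat.dvd_gcd h1 h)
      · rcases hB with ⟨h, -⟩ | ⟨-, h⟩
        · exact pp.not_dvd_one (hco ▸ Nat.dvd_gcd h h1)
        · exact h2 h
    rw [if_pos hB]
    have hps : p ∈ Ps := mem_filter.2 ⟨hp, hB⟩
    refine if_congr ?_ rfl (if_neg hB)
    rw [hlin p (mem_union_left _ hps) n]
    simp only [hfc, hfd, if_neg (hsG p hps)]
    by_cases hpu : p ∣ u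
    · simp only [if_pos hpu]
      refine ⟨fun h => ?_, fun h => Or.inl ⟨hpu, fun hb => hB (Or.inl ⟨hpu, hb⟩), h⟩⟩
      rcases h with ⟨-, -, h⟩ | ⟨h, -⟩
      · exact h
      · exact absurd (hco ▸ Nat.dvd_gcd hpu h) pp.not_dvd_one
    · have hpv := (pp.dvd_mul.1 hpuv).resolve_left hpu
      simp only [if_neg hpu]
      rw [show -(B' : ℤ) * n + A' * u = A' * u - B' * n by ring]
      exact ⟨fun h => (h.resolve_left fun h' => hpu h'.1).2.2,
        fun h => Or.inr ⟨hpv, fun hb => hB (Or.inr ⟨hpv, hb⟩), h⟩⟩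
  have hDG : ∀ D ∈ dset (B * B') q r, Squarefree D ∧ 0 < D ∧ D.primeFactors ⊆ G0 := by
    intro D hD
    obtain ⟨h1, h2, h3⟩ := mem_filter.1 hD
    refine ⟨h2, Nat.pos_of_mem_divisors h1, fun p hp => mem_filter.2 ⟨Nat.primeFactors_mono
      (Nat.dvd_of_mem_divisors h1) (Nat.gcd_pos_of_pos_left _ hq).ne' hp, fun h => ?_⟩⟩
    exact (Nat.prime_of_mem_primeFactors hp).not_dvd_one
      (h3 ▸ Nat.dvd_gcd (Nat.dvd_of_mem_primeFactors hp) h)
  have hmod : ∀ D ∈ dset (B * B') q r, ∀ n : ℤ,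
      ((D : ℤ) ∣ D2 A B A' B' q r n ↔ (D : ℤ) ∣ c * n + d) := by
    intro D hD n
    obtain ⟨hsq, hD0, hsub⟩ := hDG D hD
    have e : ∀ x : ℤ, (D : ℤ) ∣ x ↔ ∀ p ∈ D.primeFactors, (p : ℤ) ∣ x := fun x => by
      refine ⟨fun h p hp => (Int.natCast_dvd_natCast.2 (Nat.dvd_of_mem_primeFactors hp)).trans h,
        fun h => ?_⟩
      rw [Int.natCast_dvd, ← Nat.prod_primeFactors_of_squarefree hsq]
      exact Finset.prod_primes_dvd _ (fun p hp => (Nat.prime_of_mem_primeFactors hp).prime)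
        fun p hp => Int.natCast_dvd.1 (h p hp)
    rw [e, e]
    refine forall_congr' fun p => forall_congr' fun hp => ?_
    rw [hlin p (mem_union_right _ (hsub hp)) n]
    simp only [hfc, hfd, if_pos (hsub hp), D2, ← hu, ← hv]
    ring_nf
  have hWeq : ∀ n : ℤ, D2 A B A' B' q r n ≠ 0 → W2 A B A' B' q r n
      = ∑ D ∈ dset (B * B') q r,
          (if (D : ℤ) ∣ D2 A B A' B' q r n then primeFactor Ps (c * n + d) else 0) /
            (D.totient : ℝ) := by
    intro n hn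
    rw [W2, ← hu, ← hv, ← hU, hkill, gPart_eq A B A' B' hq hn, sum_filter, mul_sum]
    exact sum_congr rfl fun D _ => by split_ifs <;> simp [div_eq_mul_inv]
  have hη0 : 0 < η := by linarith
  set L := Real.log η with hL
  have hL0 : 0 ≤ L := Real.log_nonneg hη
  set z : ℝ := L / 10 + 2 with hz
  have hz2 : 2 ≤ z := by linarith
  set Y := Yof η
  set sz := Ps.filter (fun p : ℕ => (p : ℝ) ≤ z)
  set sm := Ps.filter (fun p : ℕ => z < (p : ℝ) ∧ (p : ℝ) ≤ Y)
  set sY := Ps.filter (fun p : ℕ => z < (p : ℝ) ∧ Y < (p : ℝ))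
  set FB := phiBig Y (uu q r * vv q r)
  have hFB : 0 ≤ FB := Finset.prod_nonneg fun p hp => by
    linarith [ratio_nonneg (Nat.prime_of_mem_primeFactors (Finset.mem_filter.1 hp).1).two_le]
  set Rz := ∏ p ∈ sz, (p : ℝ) / ((p : ℝ) - 1)
  have hPs2 : ∀ p ∈ Ps, 2 ≤ p := fun p hp => (hsp p hp).two_le
  have hsz2 : ∀ p ∈ sz, 2 ≤ p := fun p hp => hPs2 p (Finset.mem_filter.1 hp).1
  have hPsprime : ∀ p ∈ Ps, p.Prime := hsp
  have hlogz0 : 0 ≤ Real.log z := Real.log_nonneg (by linarith)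
  have hRz : Rz ≤ Cu * Real.log z :=
    hCu z hz2 sz fun p hp => ⟨hPsprime p (Finset.mem_filter.1 hp).1, (Finset.mem_filter.1 hp).2⟩
  have hRz0 : 0 ≤ Rz := Finset.prod_nonneg fun p hp => by linarith [ratio_nonneg (hsz2 p hp)]
  have hz10 : z ≤ 3 * η ^ (1 / 10 : ℝ) := by
    have h1 := Real.log_le_rpow_div hη0.le (show (0 : ℝ) < 1 / 10 by norm_num)
    rw [← hL] at h1
    have h2 : (1 : ℝ) ≤ η ^ (1 / 10 : ℝ) := Real.one_le_rpow hη (by norm_num)
    linarith
  have hlogz : Real.log z ≤ z := by linarith [Real.log_le_sub_one_of_pos (show 0 < z by linarith)]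
  -- pointwise splitting
  have hsplit : ∀ x : ℤ, primeFactor Ps x ≤ FB * Cb * primeFactor sz x := by
    intro x
    have hu : Ps = sz ∪ (sm ∪ sY) := by
      ext p
      simp only [sz, sm, sY, Finset.mem_union, Finset.mem_filter]
      constructor
      · intro hp
        by_cases h1 : (p : ℝ) ≤ z
        · exact Or.inl ⟨hp, h1⟩
        · by_cases h2 : (p : ℝ) ≤ Y
          · exact Or.inr (Or.inl ⟨hp, not_le.1 h1, h2⟩)
          · exact Or.inr (Or.inr ⟨hp, not_le.1 h1, not_le.1 h2⟩)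
      · rintro (h | h | h) <;> exact h.1
    have hd1 : Disjoint sz (sm ∪ sY) := by
      rw [Finset.disjoint_left]
      intro p hp hp2
      simp only [sz, sm, sY, Finset.mem_union, Finset.mem_filter] at hp hp2
      rcases hp2 with h | h <;> linarith [hp.2, h.2.1]
    have hd2 : Disjoint sm sY := by
      rw [Finset.disjoint_left]
      intro p hp hp2
      simp only [sm, sY, Finset.mem_filter] at hp hp2
      linarith [hp.2.2, hp2.2.2]
    have hm2 : ∀ p ∈ sm, 2 ≤ p := fun p hp => hPs2 p (Finset.mem_filter.1 hp).1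
    have hY2 : ∀ p ∈ sY, 2 ≤ p := fun p hp => hPs2 p (Finset.mem_filter.1 hp).1
    have hm : primeFactor sm x ≤ Cb := by
      refine (primeFactor_le _ _ hm2).trans (hCb z hz2 sm fun p hp => ?_)
      obtain ⟨h1, h2, h3⟩ := Finset.mem_filter.1 hp
      refine ⟨hPsprime p h1, h2, h3.trans ?_⟩
      have hl2 : 0 < Real.log 2 := Real.log_pos one_lt_two
      have hzk : Y0 ^ 2 * z ^ 2 ≤ z ^ (2 + 2 * Real.log Y0 / Real.log 2) := by
        rw [Real.rpow_add (by linarith), Real.rpow_two, mul_comm]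
        refine mul_le_mul_of_nonneg_left ?_ (by positivity)
        calc Y0 ^ 2 = Real.exp (2 * Real.log Y0) := by
              rw [show (2 : ℝ) * Real.log Y0 = ((2 : ℕ) : ℝ) * Real.log Y0 by norm_num,
                Real.exp_nat_mul, Real.exp_log (by linarith)]
          _ = (2 : ℝ) ^ (2 * Real.log Y0 / Real.log 2) := by
              rw [Real.rpow_def_of_pos two_pos]
              congr 1
              field_simp
          _ ≤ _ := Real.rpow_le_rpow two_pos.le hz2 (by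
              have : 0 ≤ Real.log Y0 := Real.log_nonneg (by linarith)
              positivity)
      refine le_trans ?_ hzk
      show (Real.log η + Y0) ^ 2 ≤ _
      rw [← mul_pow, ← hL]
      exact pow_le_pow_left₀ (by linarith) (by rw [hz]; nlinarith) 2
    have hY : primeFactor sY x ≤ FB := by
      refine (primeFactor_le _ _ hY2).trans ?_
      refine Finset.prod_le_prod_of_subset_of_one_le (fun p hp => ?_)
        (fun p hp => by linarith [ratio_nonneg (hY2 p hp)])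
        (fun p hp _ => ratio_nonneg (Nat.prime_of_mem_primeFactors (Finset.mem_filter.1 hp).1).two_le)
      obtain ⟨h1, _, h3⟩ := Finset.mem_filter.1 hp
      exact Finset.mem_filter.2 ⟨(Finset.mem_filter.1 h1).1, h3⟩
    have hprod : primeFactor Ps x = primeFactor sz x * (primeFactor sm x * primeFactor sY x) := by
      rw [hu]
      unfold primeFactor
      rw [Finset.prod_union hd1, Finset.prod_union hd2]
    rw [hprod]
    calc primeFactor sz x * (primeFactor sm x * primeFactor sY x)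
        ≤ primeFactor sz x * (Cb * FB) :=
          mul_le_mul_of_nonneg_left (mul_le_mul hm hY (primeFactor_nonneg _ _ hY2) (by linarith))
            (primeFactor_nonneg _ _ hsz2)
      _ = _ := by ring
  set J : ℕ → ℝ := fun D => ∑ n ∈ (nWin γ η q r).filter
    (fun n : ℤ => (D : ℤ) ∣ D2 A B A' B' q r n ∧ D2 A B A' B' q r n ≠ 0), primeFactor sz (c * n + d)
  have hmain : ∑ n ∈ (nWin γ η q r).filter (fun n => D2 A B A' B' q r n ≠ 0), W2 A B A' B' q r n
      ≤ FB * Cb * ∑ D ∈ dset (B * B') q r, J D / (D.totient : ℝ) := by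
    rw [Finset.mul_sum, Finset.sum_congr rfl (fun n hn => hWeq n (Finset.mem_filter.1 hn).2),
      Finset.sum_comm]
    refine Finset.sum_le_sum fun D _ => ?_
    rw [← Finset.sum_div, ← mul_div_assoc]
    refine div_le_div_of_nonneg_right ?_ (Nat.cast_nonneg _)
    rw [← Finset.sum_filter, Finset.filter_filter, Finset.mul_sum]
    refine le_trans (le_of_eq (Finset.sum_congr ?_ fun _ _ => rfl))
      (Finset.sum_le_sum fun n _ => hsplit _)
    exact Finset.filter_congr fun n _ => and_comm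
  have hdset : ∀ D ∈ dset (B * B') q r,
      0 < D ∧ IsCoprime c (D : ℤ) ∧ ∀ p ∈ sz, p.Prime ∧ ¬ (p : ℤ) ∣ c ∧ ¬ p ∣ D := by
    intro D hD
    obtain ⟨hsq, hD0, hsub⟩ := hDG D hD
    refine ⟨hD0, ?_, fun p hp => ?_⟩
    · rw [← Nat.prod_primeFactors_of_squarefree hsq]
      push_cast
      exact IsCoprime.prod_right fun p hp => ((Int.prime_iff_natAbs_prime.2 (by
        simpa using hGp p (hsub hp))).coprime_iff_not_dvd.2
          (hcne p (mem_union_right _ (hsub hp)))).symm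
    · have hpP := (Finset.mem_filter.1 hp).1
      refine ⟨hsp p hpP, hcne p (mem_union_left _ hpP), fun h => hsG p hpP (hsub ?_)⟩
      exact Nat.mem_primeFactors.2 ⟨hsp p hpP, h, hD0.ne'⟩
  have hcount : ∀ D ∈ dset (B * B') q r, J D ≤ Rz *
      (((nWin γ η q r).filter
        (fun n : ℤ => (D : ℤ) ∣ D2 A B A' B' q r n ∧ D2 A B A' B' q r n ≠ 0)).card : ℝ) := by
    intro D _
    rw [mul_comm, ← nsmul_eq_mul, ← Finset.sum_const]
    exact Finset.sum_le_sum fun n _ => primeFactor_le _ _ hsz2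
  have hclass : ∀ D ∈ dset (B * B') q r, (((nWin γ η q r).filter
      (fun n : ℤ => (D : ℤ) ∣ D2 A B A' B' q r n ∧ D2 A B A' B' q r n ≠ 0)).card : ℝ) ≤ 2 * η / D + 1 := by
    intro D hD
    obtain ⟨hD0, hDc, _⟩ := hdset D hD
    have h1 := card_class γ η q r c d D hη0 hD0 hDc
    have h2 : (((nWin γ η q r).filter
      (fun n : ℤ => (D : ℤ) ∣ D2 A B A' B' q r n ∧ D2 A B A' B' q r n ≠ 0)).card : ℝ) ≤
      (((nWin γ η q r).filter (fun n : ℤ => (D : ℤ) ∣ c * n + d)).card : ℝ) := by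
      refine Nat.cast_le.2 (Finset.card_le_card fun n hn => ?_)
      obtain ⟨h3, h4, _⟩ := Finset.mem_filter.1 hn
      exact Finset.mem_filter.2 ⟨h3, (hmod D hD n).1 h4⟩
    linarith [(abs_le.1 h1).2]
  set big := (dset (B * B') q r).filter (fun D : ℕ => 2 * η < (D : ℝ))
  set S := ∑ D ∈ big, EV2i γ A B A' B' η D q r / (D.totient : ℝ)
  have hS0 : 0 ≤ S := Finset.sum_nonneg fun D _ => div_nonneg ((EV2i_mem ..).1) (Nat.cast_nonneg _)
  have hlast : ∑ D ∈ big, J D / (D.totient : ℝ) ≤ 2 * Cu * Real.log (L + 3) * S := by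
    rw [Finset.mul_sum]
    refine Finset.sum_le_sum fun D hD => ?_
    obtain ⟨hD1, hD2⟩ := Finset.mem_filter.1 hD
    rw [← mul_div_assoc]
    refine div_le_div_of_nonneg_right ?_ (Nat.cast_nonneg _)
    have hl3 : Real.log z ≤ Real.log (L + 3) := Real.log_le_log (by linarith) (by linarith)
    have hCl : 0 ≤ Cu * Real.log (L + 3) := mul_nonneg hCu0.le (by linarith)
    refine (hcount D hD1).trans ?_
    rcases Finset.eq_empty_or_nonempty ((nWin γ η q r).filter
        (fun n : ℤ => (D : ℤ) ∣ D2 A B A' B' q r n ∧ D2 A B A' B' q r n ≠ 0)) with h | ⟨n, hn⟩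
    · rw [h]
      simp only [Finset.card_empty, Nat.cast_zero, mul_zero]
      exact mul_nonneg (by linarith) ((EV2i_mem ..).1)
    · obtain ⟨h1, h2, h3⟩ := Finset.mem_filter.1 hn
      have hev : EV2 γ A B A' B' η D q r := ⟨n, (mem_nWin γ η q r n).1 h1, h2, h3⟩
      have hc2 := hclass D hD1
      have h21 : 2 * η / (D : ℝ) ≤ 1 := by rw [div_le_one (by linarith)]; linarith
      simp only [EV2i, if_pos hev, mul_one]
      calc Rz * _ ≤ (Cu * Real.log (L + 3)) * 2 :=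
            mul_le_mul (hRz.trans (mul_le_mul_of_nonneg_left hl3 hCu0.le)) (by linarith)
              (Nat.cast_nonneg _) hCl
        _ = _ := by ring
  have hmid : ∀ D ∈ dset (B * B') q r, Real.sqrt η < (D : ℝ) → (D : ℝ) ≤ 2 * η →
      J D / (D.totient : ℝ) ≤ (12 * Cu * Ct * η) * (1 / (D : ℝ) ^ (5 / 4 : ℝ)) := by
    intro D hD h1 h2
    obtain ⟨hD0, _, _⟩ := hdset D hD
    have hD0' : (0 : ℝ) < D := by exact_mod_cast hD0
    have hφ : (0 : ℝ) < D.totient := by exact_mod_cast Nat.totient_pos.2 hD0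
    have h41 : (((nWin γ η q r).filter
        (fun n : ℤ => (D : ℤ) ∣ D2 A B A' B' q r n ∧ D2 A B A' B' q r n ≠ 0)).card : ℝ) ≤ 4 * η / D := by
      have h5 : 1 ≤ 2 * η / (D : ℝ) := by rw [le_div_iff₀ hD0']; linarith
      have h6 : 4 * η / (D : ℝ) = 2 * η / D + 2 * η / D := by ring
      linarith [hclass D hD]
    have hR3 : Rz ≤ Cu * (3 * η ^ (1 / 10 : ℝ)) :=
      hRz.trans (mul_le_mul_of_nonneg_left (hlogz.trans hz10) hCu0.le)
    have hJ : J D ≤ Cu * (3 * η ^ (1 / 10 : ℝ)) * (4 * η / D) :=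
      (hcount D hD).trans (mul_le_mul hR3 h41 (Nat.cast_nonneg _) (by positivity))
    calc J D / (D.totient : ℝ)
        ≤ Cu * (3 * η ^ (1 / 10 : ℝ)) * (4 * η / D) / (D.totient : ℝ) :=
          div_le_div_of_nonneg_right hJ hφ.le
      _ = 12 * Cu * η * η ^ (1 / 10 : ℝ) * (1 / ((D : ℝ) * D.totient)) := by
          field_simp
          ring
      _ ≤ 12 * Cu * η * η ^ (1 / 10 : ℝ) * (Ct * (1 / (D : ℝ) ^ (7 / 4 : ℝ))) :=
          mul_le_mul_of_nonneg_left (hCt D hD0) (by positivity)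
      _ = 12 * Cu * Ct * η * (1 / (D : ℝ) ^ (5 / 4 : ℝ)) *
            (η ^ (1 / 10 : ℝ) / (D : ℝ) ^ (1 / 2 : ℝ)) := by
          rw [show (7 / 4 : ℝ) = 5 / 4 + 1 / 2 by norm_num, Real.rpow_add hD0']
          field_simp
      _ ≤ _ := by
          refine mul_le_of_le_one_right (by positivity) ?_
          rw [div_le_one (by positivity)]
          calc η ^ (1 / 10 : ℝ) ≤ η ^ (1 / 4 : ℝ) :=
                Real.rpow_le_rpow_of_exponent_le hη (by norm_num)
            _ = (Real.sqrt η) ^ (1 / 2 : ℝ) := by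
                rw [Real.sqrt_eq_rpow, ← Real.rpow_mul hη0.le]
                norm_num
            _ ≤ _ := Real.rpow_le_rpow (Real.sqrt_nonneg η) h1.le (by norm_num)
  have hsmall : ∀ D ∈ dset (B * B') q r, (D : ℝ) ≤ Real.sqrt η →
      J D / (D.totient : ℝ)
        ≤ 2 * η * Ct * (1 / (D : ℝ) ^ (7 / 4 : ℝ)) + 24 * Cu * η ^ (1 / 5 : ℝ) := by
    intro D hD h1
    obtain ⟨hD0, hDc, hDs⟩ := hdset D hD
    have hφ : (1 : ℝ) ≤ D.totient := by exact_mod_cast Nat.totient_pos.2 hD0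
    have hJ : J D ≤ 2 * η / D + 2 ^ sz.card * Rz := by
      refine le_trans ?_ (sieve_lin γ η q r D c d sz hη0 hD0 hDc hDs)
      refine Finset.sum_le_sum_of_subset_of_nonneg (fun n hn => ?_)
        (fun n _ _ => primeFactor_nonneg _ _ hsz2)
      obtain ⟨h3, h4, _⟩ := Finset.mem_filter.1 hn
      exact Finset.mem_filter.2 ⟨h3, (hmod D hD n).1 h4⟩
    have hcard : (sz.card : ℝ) ≤ z + 1 := by
      have h2 : sz ⊆ Finset.range (⌊z⌋₊ + 1) := fun p hp =>
        Finset.mem_range.2 (Nat.lt_succ_of_le (Nat.le_floor (Finset.mem_filter.1 hp).2))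
      have h3 := Finset.card_le_card h2
      rw [Finset.card_range] at h3
      calc (sz.card : ℝ) ≤ (⌊z⌋₊ : ℝ) + 1 := by exact_mod_cast h3
        _ ≤ z + 1 := by linarith [Nat.floor_le (show 0 ≤ z by linarith)]
    have hpow : (2 : ℝ) ^ sz.card ≤ 8 * η ^ (1 / 10 : ℝ) := by
      rw [← Real.rpow_natCast]
      refine (Real.rpow_le_rpow_of_exponent_le one_le_two hcard).trans ?_
      rw [show z + 1 = L / 10 + 3 by rw [hz]; ring, Real.rpow_add two_pos,
        Real.rpow_def_of_pos hη0, Real.rpow_def_of_pos two_pos, ← hL, mul_comm]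
      have : (2 : ℝ) ^ (3 : ℝ) = 8 := by norm_num
      rw [this]
      refine mul_le_mul_of_nonneg_left (Real.exp_le_exp.2 ?_) (by norm_num)
      have := Real.log_two_lt_d9
      nlinarith
    have hE : 2 ^ sz.card * Rz ≤ 24 * Cu * η ^ (1 / 5 : ℝ) := by
      calc 2 ^ sz.card * Rz ≤ 8 * η ^ (1 / 10 : ℝ) * (Cu * (3 * η ^ (1 / 10 : ℝ))) :=
            mul_le_mul hpow (hRz.trans (mul_le_mul_of_nonneg_left (hlogz.trans hz10) hCu0.le))
              hRz0 (by positivity)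
        _ = 24 * Cu * (η ^ (1 / 10 : ℝ) * η ^ (1 / 10 : ℝ)) := by ring
        _ = _ := by
            rw [← Real.rpow_add hη0]
            norm_num
    calc J D / (D.totient : ℝ) ≤ (2 * η / D + 2 ^ sz.card * Rz) / (D.totient : ℝ) :=
          div_le_div_of_nonneg_right hJ (by linarith)
      _ = 2 * η * (1 / ((D : ℝ) * D.totient)) + 2 ^ sz.card * Rz / (D.totient : ℝ) := by ring
      _ ≤ _ := by
          have h5 := mul_le_mul_of_nonneg_left (hCt D hD0) (show 0 ≤ 2 * η by linarith)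
          have h6 := (div_le_self (by positivity : 0 ≤ 2 ^ sz.card * Rz) hφ).trans hE
          linarith
  have htot : ∑ D ∈ dset (B * B') q r, J D / (D.totient : ℝ)
      ≤ (2 * Ct * T74 + 48 * Cu + 12 * Cu * Ct * T54) * η + 2 * Cu * Real.log (L + 3) * S := by
    rw [← Finset.sum_filter_add_sum_filter_not (dset (B * B') q r) (fun D : ℕ => 2 * η < (D : ℝ)),
      ← Finset.sum_filter_add_sum_filter_not
        ((dset (B * B') q r).filter (fun D : ℕ => ¬ 2 * η < (D : ℝ)))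
        (fun D : ℕ => (D : ℝ) ≤ Real.sqrt η)]
    have hA : ∑ D ∈ ((dset (B * B') q r).filter (fun D : ℕ => ¬ 2 * η < (D : ℝ))).filter
        (fun D : ℕ => (D : ℝ) ≤ Real.sqrt η), J D / (D.totient : ℝ)
        ≤ 2 * η * Ct * T74 + 48 * Cu * η := by
      set s := ((dset (B * B') q r).filter (fun D : ℕ => ¬ 2 * η < (D : ℝ))).filter
        (fun D : ℕ => (D : ℝ) ≤ Real.sqrt η) with hs
      have hmem : ∀ D ∈ s, D ∈ dset (B * B') q r ∧ (D : ℝ) ≤ Real.sqrt η := fun D hD =>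
        ⟨(Finset.mem_filter.1 (Finset.mem_filter.1 hD).1).1, (Finset.mem_filter.1 hD).2⟩
      refine (Finset.sum_le_sum fun D hD => hsmall D (hmem D hD).1 (hmem D hD).2).trans ?_
      rw [Finset.sum_add_distrib, ← Finset.mul_sum, Finset.sum_const, nsmul_eq_mul]
      refine add_le_add (mul_le_mul_of_nonneg_left
        (hs74.sum_le_tsum _ fun n _ => by positivity) (by positivity)) ?_
      have hc : (s.card : ℝ) ≤ Real.sqrt η + 1 := by
        have h2 : s ⊆ Finset.range (⌊Real.sqrt η⌋₊ + 1) := fun p hp =>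
          Finset.mem_range.2 (Nat.lt_succ_of_le (Nat.le_floor (hmem p hp).2))
        have h3 := Finset.card_le_card h2
        rw [Finset.card_range] at h3
        calc (s.card : ℝ) ≤ (⌊Real.sqrt η⌋₊ : ℝ) + 1 := by exact_mod_cast h3
          _ ≤ _ := by linarith [Nat.floor_le (Real.sqrt_nonneg η)]
      calc (s.card : ℝ) * (24 * Cu * η ^ (1 / 5 : ℝ))
          ≤ (Real.sqrt η + 1) * (24 * Cu * η ^ (1 / 5 : ℝ)) :=
            mul_le_mul_of_nonneg_right hc (by positivity)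
        _ ≤ (2 * η ^ (4 / 5 : ℝ)) * (24 * Cu * η ^ (1 / 5 : ℝ)) := by
            refine mul_le_mul_of_nonneg_right ?_ (by positivity)
            have h4 : Real.sqrt η ≤ η ^ (4 / 5 : ℝ) := by
              rw [Real.sqrt_eq_rpow]
              exact Real.rpow_le_rpow_of_exponent_le hη (by norm_num)
            have h5 : (1 : ℝ) ≤ η ^ (4 / 5 : ℝ) := Real.one_le_rpow hη (by norm_num)
            linarith
        _ = 48 * Cu * (η ^ (4 / 5 : ℝ) * η ^ (1 / 5 : ℝ)) := by ring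
        _ = _ := by
            rw [← Real.rpow_add hη0]
            norm_num
    have hB' : ∑ D ∈ ((dset (B * B') q r).filter (fun D : ℕ => ¬ 2 * η < (D : ℝ))).filter
        (fun D : ℕ => ¬ (D : ℝ) ≤ Real.sqrt η), J D / (D.totient : ℝ)
        ≤ 12 * Cu * Ct * η * T54 := by
      refine (Finset.sum_le_sum fun D hD => ?_).trans ?_
        (b := ∑ D ∈ ((dset (B * B') q r).filter (fun D : ℕ => ¬ 2 * η < (D : ℝ))).filter
        (fun D : ℕ => ¬ (D : ℝ) ≤ Real.sqrt η), 12 * Cu * Ct * η * (1 / (D : ℝ) ^ (5 / 4 : ℝ)))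
      · obtain ⟨h1, h2⟩ := Finset.mem_filter.1 hD
        obtain ⟨h3, h4⟩ := Finset.mem_filter.1 h1
        exact hmid D h3 (not_le.1 h2) (not_lt.1 h4)
      · rw [← Finset.mul_sum]
        exact mul_le_mul_of_nonneg_left (hs54.sum_le_tsum _ fun n _ => by positivity) (by positivity)
    linarith
  have hlS : 0 ≤ Real.log (L + 3) * S := mul_nonneg (Real.log_nonneg (by linarith)) hS0
  refine hmain.trans ((mul_le_mul_of_nonneg_left htot (by positivity)).trans ?_)
  have ha : 0 ≤ 2 * Ct * T74 + 48 * Cu + 12 * Cu * Ct * T54 := by positivity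
  calc FB * Cb * ((2 * Ct * T74 + 48 * Cu + 12 * Cu * Ct * T54) * η
        + 2 * Cu * Real.log (L + 3) * S)
      ≤ FB * Cb * ((2 * Ct * T74 + 48 * Cu + 12 * Cu * Ct * T54 + 2 * Cu + 1)
          * (η + Real.log (L + 3) * S)) := by
        refine mul_le_mul_of_nonneg_left ?_ (by positivity)
        nlinarith [mul_nonneg ha hlS, mul_nonneg hCu0.le hη0.le, mul_nonneg hCu0.le hlS]
    _ = _ := by ring

end Vale.Agent.P028G
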