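import Vale.Agent.P028G.Cross

/-! P028G module LOW: the pairs of levels of a slice below `2 (1 + log H)`. The gain of each pair of levels and
the bound for the union of all levels combine, so the number of levels enters with an arbitrarily small power. -/

namespace Vale.Agent.P028G

open Finset
open Vale.Agent.P028
open Vale.Agent.P028L
open Vale.Agent.P028.MainAux (cls scale cls_spec one_le_scale)
open Vale.Agent.P028X (midDel_sum aX cls_boundX)

/-- `1 + log (1 + log H)`, which bounds the number of levels of a slice below `2 (1 + log H)`. -/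
noncomputable def lev (H : ℝ) : ℝ := 1 + Real.log (1 + Real.log H)

/-- The sum over moduli of a pair in the band, with the power `η` of the length. -/
noncomputable def bG (η γ : ℝ) (A : ℤ) (B : ℕ) (A' : ℤ) (B' : ℕ) (Y : ℝ) (q r : ℕ) : ℝ :=
  max 1 (Y / 4) ^ η / Y * (Ph (uu q r * vv q r) *
    ∑ D ∈ (dset (B * B') q r).filter (fun D : ℕ => Y ≤ 4 * (D : ℝ)),
      EV2i γ A B A' B' Y D q r / D.totient)

/-- The event of a modulus on the pairs of levels where it has a gain. -/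
noncomputable def EVb (γ : ℝ) (A : ℤ) (B : ℕ) (A' : ℤ) (B' : ℕ) (t s y1 y2 : ℝ) (D q r : ℕ) : ℝ :=
  bb (2 * max y1 y2 * Real.exp (-nuM * s) ≤ y2 ∧ Real.exp (-(2 * t)) ≤ 2 * max y1 y2 ∧
      (D : ℝ) ≤ Real.exp (t / 2) ∧ Nat.Coprime D (B * B') ∧ 2 * max y1 y2 ≤ 4 * (D : ℝ)) *
    EV2i γ A B A' B' (2 * max y1 y2) D q r

lemma EVb_mem (γ : ℝ) (A : ℤ) (B : ℕ) (A' : ℤ) (B' : ℕ) (t s y1 y2 : ℝ) (D q r : ℕ) :
    0 ≤ EVb γ A B A' B' t s y1 y2 D q r ∧ EVb γ A B A' B' t s y1 y2 D q r ≤ 1 :=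
  ⟨mul_nonneg (bb_nonneg _) (EV2i_mem ..).1,
    mul_le_one₀ (bb_le_one _) (EV2i_mem ..).1 (EV2i_mem ..).2⟩

/-- A power `2a` of a mass between `1` and `5/4`. -/
lemma mass_pow (a M : ℝ) (ha : 1 / 2 ≤ a) (ha' : a ≤ 5 / 8) (hM : 0 ≤ M) :
    (M * M) ^ a ≤ M + M ^ (5 / 4 : ℝ) := by
  rw [← sq, ← Real.rpow_two, ← Real.rpow_mul hM]
  rcases le_total M 1 with h | h
  · exact (Real.rpow_le_self_of_le_one hM h (by linarith)).trans
      (le_add_of_nonneg_right (Real.rpow_nonneg hM _))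
  · exact (Real.rpow_le_rpow_of_exponent_le h (by linarith)).trans (le_add_of_nonneg_left hM)

/-- The mass of the union bound is subquadratic. -/
lemma mass_mix (t M : ℝ) (ht0 : 0 ≤ t) (ht1 : t ≤ 1 / 2) (hM : 0 < M) :
    (M + M ^ (5 / 4 : ℝ)) ^ (1 - t) * (M + M ^ 2) ^ t ≤ 2 * (M + M ^ (7 / 4 : ℝ)) := by
  have h7 : 0 ≤ M ^ (7 / 4 : ℝ) := Real.rpow_nonneg hM.le _
  rcases le_total M 1 with h | h
  · have a1 : M + M ^ (5 / 4 : ℝ) ≤ 2 * M := by
      linarith [Real.rpow_le_self_of_le_one hM.le h (show (1 : ℝ) ≤ 5 / 4 by norm_num)]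
    have a2 : M + M ^ 2 ≤ 2 * M := by linarith [sq_le hM.le h]
    calc (M + M ^ (5 / 4 : ℝ)) ^ (1 - t) * (M + M ^ 2) ^ t ≤ (2 * M) ^ (1 - t) * (2 * M) ^ t :=
          mul_le_mul (Real.rpow_le_rpow (by positivity) a1 (by linarith))
            (Real.rpow_le_rpow (by positivity) a2 ht0) (by positivity) (by positivity)
      _ = 2 * M := by rw [← Real.rpow_add (by positivity), sub_add_cancel, Real.rpow_one]
      _ ≤ _ := by linarith
  · have a1 : M + M ^ (5 / 4 : ℝ) ≤ 2 * M ^ (5 / 4 : ℝ) := by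
      linarith [Real.self_le_rpow_of_one_le h (show (1 : ℝ) ≤ 5 / 4 by norm_num)]
    have a2 : M + M ^ 2 ≤ 2 * M ^ 2 := by linarith [le_self_pow₀ h two_ne_zero]
    calc (M + M ^ (5 / 4 : ℝ)) ^ (1 - t) * (M + M ^ 2) ^ t
        ≤ (2 * M ^ (5 / 4 : ℝ)) ^ (1 - t) * (2 * M ^ 2) ^ t :=
          mul_le_mul (Real.rpow_le_rpow (by positivity) a1 (by linarith))
            (Real.rpow_le_rpow (by positivity) a2 ht0) (by positivity) (by positivity)
      _ = 2 * M ^ (5 / 4 * (1 - t) + 2 * t) := by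
          rw [Real.mul_rpow two_pos.le (by positivity), Real.mul_rpow two_pos.le (by positivity),
            mul_mul_mul_comm, ← Real.rpow_add two_pos, sub_add_cancel, Real.rpow_one,
            ← Real.rpow_two, ← Real.rpow_mul hM.le, ← Real.rpow_mul hM.le, ← Real.rpow_add hM]
      _ ≤ 2 * M ^ (7 / 4 : ℝ) :=
          mul_le_mul_of_nonneg_left (Real.rpow_le_rpow_of_exponent_le h (by linarith)) two_pos.le
      _ ≤ _ := by linarith

/-- Any high moment of `n/φ(n)` on a class. -/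
lemma phi_pow_class (p : ℕ) :
    ∃ C : ℝ, 0 ≤ C ∧ ∀ (ψ : ℕ → ℝ) (S : Finset ℕ) (y1 y2 : ℝ),
      (∀ q, 0 ≤ ψ q) → (∀ q ∈ S, 0 < q ∧ 0 < ψ q) → 0 < y1 → 0 < y2 →
      pairSum (mu ψ) (fun q r => Ph (uu q r * vv q r) ^ p * clsI ψ y1 y2 q r) S S
        ≤ C * ((y1 * y2) ^ (1 / 2 - eps) * (msum (mu ψ) S + msum (mu ψ) S ^ (5 / 4 : ℝ))) := by
  obtain ⟨Ce, hexp⟩ := exp_moment_bound
  obtain ⟨Cu, hCu⟩ := mertens_upto
  set Yo := max (Y0 ^ 2) (2 * (p : ℝ)) with hYo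
  have hY2 : 2 ≤ Yo := le_trans (by nlinarith [midY0_ge]) (le_max_left _ _)
  set K := (|Cu| * Real.log Yo) ^ p with hK
  have hK0 : 0 ≤ K := pow_nonneg (mul_nonneg (abs_nonneg _) (Real.log_nonneg (by linarith))) _
  refine ⟨K * max Ce 0, mul_nonneg hK0 (le_max_right _ _), fun ψ S y1 y2 hψ hS hy1 hy2 => ?_⟩
  have hμ := mu_nonneg' hψ
  have hpt : ∀ n : ℕ, 0 < n → Ph n ^ p ≤ K * Real.exp (Yo * sBig Yo n) := by
    intro n hn
    have hpp : ∀ a ∈ n.primeFactors, (2 : ℝ) ≤ a := fun a ha => by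
      exact_mod_cast (Nat.prime_of_mem_primeFactors ha).two_le
    have h1 : ∏ a ∈ n.primeFactors.filter (fun a : ℕ => (a : ℝ) ≤ Yo), (a : ℝ) / ((a : ℝ) - 1)
        ≤ |Cu| * Real.log Yo :=
      (hCu Yo hY2 _ fun a ha => ⟨Nat.prime_of_mem_primeFactors (mem_filter.1 ha).1,
        (mem_filter.1 ha).2⟩).trans (mul_le_mul_of_nonneg_right (le_abs_self _)
          (Real.log_nonneg (by linarith)))
    have h2 : ∏ a ∈ n.primeFactors.filter (fun a : ℕ => ¬ (a : ℝ) ≤ Yo), (a : ℝ) / ((a : ℝ) - 1)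
        ≤ Real.exp (2 * sBig Yo n) := by
      rw [sBig, mul_sum, Real.exp_sum]
      simp only [not_le]
      refine prod_le_prod (fun a ha => div_nonneg (Nat.cast_nonneg _)
        (by linarith [hpp a (mem_filter.1 ha).1])) fun a ha => ?_
      have h := hpp a (mem_filter.1 ha).1
      refine le_trans ?_ (Real.add_one_le_exp _)
      rw [div_le_iff₀ (by linarith)]
      field_simp
      nlinarith
    have h0 : ∀ s : Finset ℕ, s ⊆ n.primeFactors → 0 ≤ ∏ a ∈ s, (a : ℝ) / ((a : ℝ) - 1) :=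
      fun s hs => prod_nonneg fun a ha => div_nonneg (Nat.cast_nonneg _) (by linarith [hpp a (hs ha)])
    calc Ph n ^ p ≤ (|Cu| * Real.log Yo * Real.exp (2 * sBig Yo n)) ^ p := by
          refine pow_le_pow_left₀ (Ph_nonneg n) ?_ p
          rw [Ph_eq_prod n hn,
            ← prod_filter_mul_prod_filter_not n.primeFactors (fun a : ℕ => (a : ℝ) ≤ Yo)]
          exact mul_le_mul h1 h2 (h0 _ (filter_subset _ _)) ((h0 _ (filter_subset _ _)).trans h1)
      _ ≤ K * Real.exp (Yo * sBig Yo n) := by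
          rw [mul_pow, ← Real.exp_nat_mul]
          refine mul_le_mul_of_nonneg_left (Real.exp_le_exp.2 ?_) hK0
          rw [← mul_assoc, mul_comm (p : ℝ)]
          exact mul_le_mul_of_nonneg_right (le_max_right (Y0 ^ 2) (2 * (p : ℝ))) (sBig_nonneg Yo n)
  calc pairSum (mu ψ) (fun q r => Ph (uu q r * vv q r) ^ p * clsI ψ y1 y2 q r) S S
      ≤ pairSum (mu ψ) (fun q r => K *
          (Real.exp (Yo * sBig Yo (uu q r * vv q r)) * clsI ψ y1 y2 q r)) S S :=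
        pairSum_mono hμ fun q hq r hr => by
          rw [← mul_assoc]
          exact mul_le_mul_of_nonneg_right (hpt _ (uu_mul_vv_pos q r (hS q hq).1 (hS r hr).1))
            (cls_mem ψ y1 y2 q r).1
    _ ≤ K * (max Ce 0 * (y1 * y2) ^ (1 / 2 - eps) * (msum (mu ψ) S * msum (mu ψ) S) ^ aE) := by
        rw [midPairSum_smul]
        refine mul_le_mul_of_nonneg_left ((hexp ψ S y1 y2 Yo hψ hS hy1 hy2 (le_max_left (Y0 ^ 2) (2 * (p : ℝ)))).trans ?_)
          hK0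
        exact mul_le_mul_of_nonneg_right (mul_le_mul_of_nonneg_right (le_max_left Ce 0)
          (by positivity)) (Real.rpow_nonneg (mul_self_nonneg _) _)
    _ ≤ K * (max Ce 0 * (y1 * y2) ^ (1 / 2 - eps) *
          (msum (mu ψ) S + msum (mu ψ) S ^ (5 / 4 : ℝ))) :=
        mul_le_mul_of_nonneg_left (mul_le_mul_of_nonneg_left
          (mass_pow _ _ (by unfold aE eps; norm_num) (by unfold aE eps; norm_num)
            (sum_nonneg fun q _ => hμ q)) (by positivity)) hK0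
    _ = _ := by ring

/-- Hölder between a high moment of the weight and an event. -/
lemma holder (μ : ℕ → ℝ) (Φ E c : ℕ → ℕ → ℝ) (V W : Finset ℕ) (p : ℕ) (hp : 0 < p) {X1 X2 : ℝ}
    (hμ : ∀ q, 0 ≤ μ q) (hc : ∀ q r, 0 ≤ c q r) (hΦ : ∀ q r, 0 ≤ Φ q r)
    (hE : ∀ q r, 0 ≤ E q r ∧ E q r ≤ 1) (hX1 : 0 < X1) (hX2 : 0 < X2)
    (h1 : pairSum μ (fun q r => Φ q r ^ p * c q r) V W ≤ X1)
    (h2 : pairSum μ (fun q r => E q r * c q r) V W ≤ X2) :
    pairSum μ (fun q r => Φ q r * E q r * c q r) V W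
      ≤ 2 * (X1 ^ (1 / (p : ℝ)) * X2 ^ (1 - 1 / (p : ℝ))) := by
  set w := 1 / (p : ℝ) with hw
  have hpR : (1 : ℝ) ≤ p := by exact_mod_cast hp
  have hw0 : 0 < w := by positivity
  have hw1 : w ≤ 1 := by rw [hw, div_le_one (by linarith)]; exact hpR
  set z := X2 / X1 with hz
  have hz0 : 0 < z := by positivity
  have hpt : ∀ q r, Φ q r * E q r ≤ z ^ (1 - w) * Φ q r ^ p + z ^ (-w) * E q r := by
    intro q r
    have ha : 0 ≤ z ^ (1 - w) * Φ q r ^ p :=
      mul_nonneg (Real.rpow_nonneg hz0.le _) (pow_nonneg (hΦ q r) _)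
    have hb : 0 ≤ z ^ (-w) * E q r := mul_nonneg (Real.rpow_nonneg hz0.le _) (hE q r).1
    have hg := Real.geom_mean_le_arith_mean2_weighted hw0.le (sub_nonneg.2 hw1) ha hb (by ring)
    have e : (z ^ (1 - w) * Φ q r ^ p) ^ w * (z ^ (-w) * E q r) ^ (1 - w)
        = Φ q r * E q r ^ (1 - w) := by
      rw [Real.mul_rpow (by positivity) (pow_nonneg (hΦ q r) _),
        Real.mul_rpow (by positivity) (hE q r).1, ← Real.rpow_natCast (Φ q r) p,
        ← Real.rpow_mul hz0.le, ← Real.rpow_mul hz0.le, ← Real.rpow_mul (hΦ q r),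
        show (p : ℝ) * w = 1 by rw [hw]; field_simp, Real.rpow_one,
        mul_mul_mul_comm, ← Real.rpow_add hz0,
        show (1 - w) * w + -w * (1 - w) = 0 by ring, Real.rpow_zero, one_mul]
    rw [e] at hg
    have hE' : E q r ≤ E q r ^ (1 - w) := by
      rcases (hE q r).1.eq_or_lt with h | h
      · rw [← h]; exact Real.rpow_nonneg le_rfl _
      · exact (le_of_eq (Real.rpow_one _).symm).trans
          (Real.rpow_le_rpow_of_exponent_ge h (hE q r).2 (by linarith))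
    refine (mul_le_mul_of_nonneg_left hE' (hΦ q r)).trans (hg.trans (add_le_add ?_ ?_))
    · exact mul_le_of_le_one_left ha hw1
    · exact mul_le_of_le_one_left hb (by linarith)
  calc pairSum μ (fun q r => Φ q r * E q r * c q r) V W
      ≤ pairSum μ (fun q r => z ^ (1 - w) * (Φ q r ^ p * c q r) + z ^ (-w) * (E q r * c q r)) V W :=
        pairSum_mono hμ fun q _ r _ => by
          refine le_of_le_of_eq (mul_le_mul_of_nonneg_right (hpt q r) (hc q r)) ?_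
          ring
    _ ≤ z ^ (1 - w) * X1 + z ^ (-w) * X2 := by
        rw [pairSum_add, midPairSum_smul, midPairSum_smul]
        exact add_le_add (mul_le_mul_of_nonneg_left h1 (by positivity))
          (mul_le_mul_of_nonneg_left h2 (by positivity))
    _ = _ := by
        rw [hz, Real.div_rpow hX2.le hX1.le, Real.div_rpow hX2.le hX1.le, Real.rpow_sub hX1,
          Real.rpow_sub hX2, Real.rpow_one, Real.rpow_one, Real.rpow_neg hX1.le, Real.rpow_neg hX2.le]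
        field_simp
        ring

/-- A pair sum over levels `j < l` split by the levels. -/
lemma levels_eq (μ : ℕ → ℝ) (f : ℕ → ℕ) (F : ℕ → ℕ → ℕ → ℕ → ℝ) (S : Finset ℕ) :
    pairSum μ (fun q r => if f q < f r then F (f q) (f r) q r else 0) S S
      = ∑ l ∈ S.image f, ∑ j ∈ (S.image f).filter (fun j => j < l),
          pairSum μ (F j l) (S.filter (fun q => f q = j)) (S.filter (fun q => f q = l)) := by
  classical
  have hmaps : ∀ q ∈ S, f q ∈ S.image f := fun q hq => mem_image_of_mem _ hq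
  unfold pairSum
  rw [← sum_fiberwise_of_maps_to hmaps]
  have h1 : ∀ j ∈ S.image f, ∑ q ∈ S.filter (fun q => f q = j), ∑ r ∈ S,
      μ q * μ r * (if f q < f r then F (f q) (f r) q r else 0)
      = ∑ l ∈ S.image f, if j < l then ∑ q ∈ S.filter (fun q => f q = j),
          ∑ r ∈ S.filter (fun q => f q = l), μ q * μ r * F j l q r else 0 := by
    intro j _
    rw [sum_congr rfl fun q (_ : q ∈ S.filter (fun q => f q = j)) =>
      (sum_fiberwise_of_maps_to hmaps _).symm, sum_comm]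
    refine sum_congr rfl fun l _ => ?_
    split_ifs with hjl
    · refine sum_congr rfl fun q hq => sum_congr rfl fun r hr => ?_
      simp only [(mem_filter.1 hq).2, (mem_filter.1 hr).2, if_pos hjl]
    · refine sum_eq_zero fun q hq => sum_eq_zero fun r hr => ?_
      simp only [(mem_filter.1 hq).2, (mem_filter.1 hr).2, if_neg hjl, mul_zero]
  rw [sum_congr rfl h1, sum_comm]
  simp only [sum_filter]

/-- The number of levels. -/
lemma level_card :
    ∃ C : ℝ, 1 ≤ C ∧ ∀ (L : Finset ℕ) (H : ℝ), 3 ≤ H → (∀ l ∈ L, scale l ≤ 2 * (1 + Real.log H)) →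
      (L.card : ℝ) ≤ C * lev H := by
  have hlb := Real.log_pos (show (1 : ℝ) < 1 + zeta0 by norm_num [zeta0])
  refine ⟨1 / Real.log (1 + zeta0) + 2, by
    have : 0 ≤ 1 / Real.log (1 + zeta0) := by positivity
    linarith, fun L H hH hL => ?_⟩
  have hx : 1 ≤ Real.log H := P028M.log_one hH
  have hx1 : 1 ≤ lev H := by
    unfold lev
    linarith [Real.log_nonneg (show 1 ≤ 1 + Real.log H by linarith)]
  set N := ⌊Real.log (2 * (1 + Real.log H)) / Real.log (1 + zeta0)⌋₊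
  have hsub : L ⊆ range (N + 1) := fun l hl => mem_range.2 (Nat.lt_succ_of_le (Nat.le_floor (by
    rw [le_div_iff₀ hlb, ← Real.log_pow]
    exact Real.log_le_log (pow_pos (by norm_num [zeta0]) _) (hL l hl))))
  have hcard : (L.card : ℝ) ≤ (N : ℝ) + 1 := by
    have h := card_le_card hsub
    rw [card_range] at h
    exact_mod_cast h
  have hN : (N : ℝ) ≤ Real.log (2 * (1 + Real.log H)) / Real.log (1 + zeta0) :=
    Nat.floor_le (div_nonneg (Real.log_nonneg (by linarith)) hlb.le)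
  have hlog : Real.log (2 * (1 + Real.log H)) ≤ lev H := by
    rw [Real.log_mul two_ne_zero (by linarith)]
    unfold lev
    linarith [Real.log_two_lt_d9]
  calc (L.card : ℝ) ≤ lev H / Real.log (1 + zeta0) + 1 :=
        hcard.trans (add_le_add (hN.trans ((div_le_div_iff_of_pos_right hlb).2 hlog)) le_rfl)
    _ ≤ _ := by
        rw [add_mul, div_mul_eq_mul_div, one_mul]
        linarith

/-- A polynomial in `1 + log H` against `exp (-c x^2)`. -/
lemma kill (K c : ℝ) (hc : 0 < c) : ∃ C : ℝ, 0 < C ∧ ∀ x : ℝ, 1 ≤ x →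
    Real.exp (K * x - c * x ^ 2) ≤ C / x ^ 2 := by
  refine ⟨Real.exp ((2 + K) ^ 2 / (4 * c)), Real.exp_pos _, fun x hx => ?_⟩
  have h1 : x ^ 2 ≤ Real.exp (2 * x) := by
    rw [mul_comm, Real.exp_mul, Real.rpow_two]
    exact pow_le_pow_left₀ (by linarith) (by linarith [Real.add_one_le_exp x]) 2
  rw [le_div_iff₀ (by positivity)]
  refine (mul_le_mul_of_nonneg_left h1 (Real.exp_pos _).le).trans ?_
  rw [← Real.exp_add]
  refine Real.exp_le_exp.2 ?_
  rw [le_div_iff₀ (by positivity)]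
  nlinarith [sq_nonneg (2 * c * x - (2 + K))]

/-- The moduli above `e^{t/2}` on low levels. -/
lemma tail_low :
    ∃ C : ℝ, 0 ≤ C ∧ ∀ (γ a t0 H t s : ℝ) (ψ : ℕ → ℝ) (V W : Finset ℕ) (A A' : ℤ) (B B' : ℕ),
      Lev γ a t0 H t s ψ V W A B A' B' → lev H ^ 4 ≤ t → s ≤ 2 * (1 + Real.log H) →
      ∀ q ∈ V, ∀ r ∈ W, ∀ Y : ℝ, 0 < Y → Y ≤ 4 * (1 + Real.log H) ^ 4 →
        (vv q r : ℝ) * ψ q ≤ Y → (uu q r : ℝ) * ψ r ≤ Y →
        ∑ D ∈ (dset (B * B') q r).filter (fun D : ℕ => Real.exp (t / 2) < (D : ℝ)),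
          EV2i γ A B A' B' Y D q r / D.totient
          ≤ C * (Real.exp (25 * lev H - lev H ^ 2 / 8)) * EV2i γ A B A' B' Y 1 q r := by
  classical
  obtain ⟨Cl, hCl, hlog⟩ := Ph_le_log
  obtain ⟨Ct, hCt, htail⟩ := tail_le
  refine ⟨9 * (Ct * (7 * Cl) ^ 21), by positivity, ?_⟩
  intro γ a t0 H t s ψ V W A A' B B' hL ht4 hs2 q hq r hr Y hY hYhi hv hu
  set x := lev H with hx
  have hl1 : 1 ≤ Real.log H := P028M.log_one hL.2.2.2.1.1
  have hx1 : 1 ≤ x := by
    rw [hx]; unfold lev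
    linarith [Real.log_nonneg (show 1 ≤ 1 + Real.log H by linarith)]
  have ht : 1 ≤ t := (one_le_pow₀ hx1).trans ht4
  have hlow := hL.low (by linarith)
  obtain ⟨hψ, hV, hW, ⟨hH, htH, -, -, hts⟩, ⟨hB, hBQ, -, hBA⟩, ⟨hB', hBQ', -, hBA'⟩⟩ := hL
  set L1 := 1 + Real.log H with hL1
  have hL11 : 1 ≤ L1 := by linarith
  have hLx : L1 = Real.exp (x - 1) := by
    rw [hx]; unfold lev
    rw [add_sub_cancel_left, Real.exp_log (by linarith)]
  have hs : 0 ≤ s := by linarith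
  have hts' : t ≤ s := by linarith
  set F := (dset (B * B') q r).filter (fun D : ℕ => Real.exp (t / 2) < (D : ℝ)) with hF
  have hone : ∀ D : ℕ, EV2i γ A B A' B' Y D q r ≤ EV2i γ A B A' B' Y 1 q r := by
    intro D
    unfold EV2i
    split_ifs with h1 h2 <;> norm_num
    obtain ⟨n, hn, -, hne⟩ := h1
    exact h2 ⟨n, hn, one_dvd _, hne⟩
  rcases (EV2i_mem γ A B A' B' Y 1 q r).1.eq_or_lt with he | he
  · rw [← he, mul_zero]
    refine sum_nonpos fun D _ => ?_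
    have h1 := hone D
    rw [← he] at h1
    exact div_nonpos_of_nonpos_of_nonneg h1 (Nat.cast_nonneg _)
  have he1 : EV2i γ A B A' B' Y 1 q r = 1 := by
    unfold EV2i at he ⊢
    split_ifs at he ⊢ with h
    · rfl
    · exact absurd he (lt_irrefl _)
  rw [he1, mul_one]
  set N := (nWin γ Y q r).filter (fun n : ℤ => D2 A B A' B' q r n ≠ 0) with hN
  set L := 3 * s + 4 * L1 + 8 with hL
  have hL3 : 3 ≤ L := by linarith
  have hlL : Real.log L ≤ 4 * x := by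
    calc Real.log L ≤ Real.log (18 * L1) := Real.log_le_log (by linarith) (by linarith)
      _ ≤ 3 + (x - 1) := by
          rw [Real.log_mul (by norm_num) (by linarith), hLx, Real.log_exp]
          have h18 : Real.log 18 ≤ 3 := by
            rw [Real.log_le_iff_le_exp (by norm_num), show (3 : ℝ) = ((3 : ℕ) : ℝ) * 1 by norm_num,
              Real.exp_nat_mul]
            exact le_trans (by norm_num) (pow_le_pow_left₀ (by norm_num : (0 : ℝ) ≤ 2.7182818283)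
              Real.exp_one_gt_d9.le 3)
          linarith
      _ ≤ _ := by linarith
  have hlogN : ∀ n ∈ N, 0 < (D2 A B A' B' q r n).natAbs ∧
      Real.log ((D2 A B A' B' q r n).natAbs : ℝ) ≤ L := by
    intro n hn
    obtain ⟨hn1, hn2⟩ := mem_filter.1 hn
    refine ⟨Int.natAbs_pos.2 hn2, ?_⟩
    have habsN : |(n : ℝ) + γ * (hh q r : ℝ)| ≤ Y := ((mem_nWin γ Y q r n).1 hn1).le
    have hvY : (vv q r : ℝ) ≤ Y * Real.exp (2 * t) := by
      rw [← div_le_iff₀ (Real.exp_pos _), div_eq_mul_inv, ← Real.exp_neg]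
      exact (mul_le_mul_of_nonneg_left (hlow q hq) (Nat.cast_nonneg _)).trans hv
    have huY : (uu q r : ℝ) ≤ Y * Real.exp (2 * s) := by
      rw [← div_le_iff₀ (Real.exp_pos _), div_eq_mul_inv, ← Real.exp_neg]
      refine (mul_le_mul_of_nonneg_left (le_trans (Real.exp_le_exp.2 ?_) (hW r hr).2.1)
        (Nat.cast_nonneg _)).trans hu
      unfold zeta0; linarith
    have hone' : ∀ z : ℝ, 0 ≤ z → 1 / Real.exp (z / 2) ≤ 1 := fun z hz => by
      rw [div_le_one (Real.exp_pos _)]; exact Real.one_le_exp (by linarith)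
    have hE : ∀ z : ℝ, z ≤ 3 * s → Y * Real.exp z ≤ Y * Real.exp (3 * s) := fun z hz =>
      mul_le_mul_of_nonneg_left (Real.exp_le_exp.2 hz) hY.le
    have hbig : |(D2 A B A' B' q r n : ℝ)| ≤ 3 * (Y * Real.exp (3 * s)) := by
      refine (abs_D2_le γ A A' B B' q r n).trans ?_
      have b1 : (B : ℝ) * B' * |(n : ℝ) + γ * (hh q r : ℝ)| ≤ Y * Real.exp (3 * s) := by
        refine le_trans ?_ (hE (t / 2 + s / 2) (by linarith))
        rw [Real.exp_add, mul_comm Y]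
        exact mul_le_mul (mul_le_mul hBQ hBQ' (Nat.cast_nonneg _) (Real.exp_pos _).le) habsN
          (abs_nonneg _) (by positivity)
      have b2 : |(B : ℝ) * γ - A| * B' * (vv q r : ℝ) ≤ Y * Real.exp (3 * s) := by
        refine le_trans ?_ (hE (s / 2 + 2 * t) (by linarith))
        calc |(B : ℝ) * γ - A| * B' * (vv q r : ℝ)
            ≤ 1 * Real.exp (s / 2) * (Y * Real.exp (2 * t)) :=
              mul_le_mul (mul_le_mul (hBA.trans (hone' t (by linarith))) hBQ' (Nat.cast_nonneg _)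
                zero_le_one) hvY (Nat.cast_nonneg _) (by positivity)
          _ = _ := by rw [Real.exp_add]; ring
      have b3 : |(B' : ℝ) * γ - A'| * B * (uu q r : ℝ) ≤ Y * Real.exp (3 * s) := by
        refine le_trans ?_ (hE (t / 2 + 2 * s) (by linarith))
        calc |(B' : ℝ) * γ - A'| * B * (uu q r : ℝ)
            ≤ 1 * Real.exp (t / 2) * (Y * Real.exp (2 * s)) :=
              mul_le_mul (mul_le_mul (hBA'.trans (hone' s hs)) hBQ (Nat.cast_nonneg _)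
                zero_le_one) huY (Nat.cast_nonneg _) (by positivity)
          _ = _ := by rw [Real.exp_add]; ring
      linarith
    rw [Nat.cast_natAbs, Int.cast_abs]
    have hle : |(D2 A B A' B' q r n : ℝ)| ≤ 12 * L1 ^ 4 * Real.exp (3 * s) := by
      linarith [mul_le_mul_of_nonneg_right hYhi (Real.exp_pos (3 * s)).le]
    refine (Real.log_le_log (abs_pos.2 (Int.cast_ne_zero.2 hn2)) hle).trans ?_
    rw [Real.log_mul (by positivity) (Real.exp_pos _).ne', Real.log_exp,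
      Real.log_mul (by norm_num) (by positivity), Real.log_pow]
    push_cast
    have h12 : Real.log 12 ≤ 8 := by
      rw [Real.log_le_iff_le_exp (by norm_num)]
      linarith [Real.add_one_le_exp (8 : ℝ), Real.quadratic_le_exp_of_nonneg (show (0 : ℝ) ≤ 8 by norm_num)]
    linarith [Real.log_le_sub_one_of_pos (show 0 < L1 by linarith)]
  have hterm : ∀ n ∈ N, ∑ D ∈ F.filter (fun D : ℕ => (D : ℤ) ∣ D2 A B A' B' q r n),
      (1 : ℝ) / D.totient ≤ Ct * (7 * Cl * L1) ^ 21 * Real.exp (-(x ^ 2 / 8)) := by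
    intro n hn
    obtain ⟨hpos, hlN⟩ := hlogN n hn
    refine (htail (D2 A B A' B' q r n).natAbs L (Real.exp (t / 2)) _ hpos hlN hL3 (Real.exp_pos _)
      fun D hD => ?_).trans ?_
    · obtain ⟨h1, h2⟩ := mem_filter.1 hD
      obtain ⟨h3, h4⟩ := mem_filter.1 h1
      exact ⟨Int.natCast_dvd.1 h2, (mem_filter.1 h3).2.1, h4⟩
    refine mul_le_mul (mul_le_mul_of_nonneg_left (pow_le_pow_left₀ (Ph_nonneg _) ?_ 21)
      (by linarith)) ?_ (Real.rpow_nonneg (Real.exp_pos _).le _) (by positivity)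
    · refine (hlog _ hpos).trans ?_
      rw [mul_comm 7 Cl, mul_assoc]
      refine mul_le_mul_of_nonneg_left ?_ (by linarith)
      refine (Real.log_le_log (by linarith [Real.log_natCast_nonneg (D2 A B A' B' q r n).natAbs])
        (show _ ≤ 18 * L1 + 3 by linarith)).trans ?_
      have h1 : Real.log (18 * L1 + 3) ≤ Real.log (21 * L1) :=
        Real.log_le_log (by linarith) (by linarith)
      rw [Real.log_mul (by norm_num) (by linarith)] at h1
      have h21 : Real.log 21 ≤ 6 := by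
        rw [Real.log_le_iff_le_exp (by norm_num)]
        linarith [Real.quadratic_le_exp_of_nonneg (show (0 : ℝ) ≤ 6 by norm_num)]
      linarith [Real.log_le_sub_one_of_pos (show 0 < L1 by linarith)]
    · rw [← Real.exp_mul]
      refine Real.exp_le_exp.2 ?_
      have hlLp : 0 < Real.log L := Real.log_pos (by linarith)
      rw [mul_neg, neg_le_neg_iff, mul_one_div, div_le_div_iff₀ (by norm_num) hlLp]
      have h1 := mul_le_mul_of_nonneg_left hlL (sq_nonneg x)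
      have h2 : x ^ 3 ≤ x ^ 4 := pow_le_pow_right₀ hx1 (by norm_num)
      linarith [show x ^ 2 * (4 * x) = 4 * x ^ 3 by ring]
  have hcardN : (N.card : ℝ) ≤ 9 * L1 ^ 4 := by
    have h := card_class γ Y q r 1 0 1 hY one_pos isCoprime_one_left
    simp at h
    have h2 : (N.card : ℝ) ≤ (nWin γ Y q r).card := by exact_mod_cast card_filter_le _ _
    linarith [(abs_le.1 h).2, one_le_pow₀ hL11 (n := 4)]
  calc ∑ D ∈ F, EV2i γ A B A' B' Y D q r / (D.totient : ℝ)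
      ≤ ∑ D ∈ F, ∑ n ∈ N, if (D : ℤ) ∣ D2 A B A' B' q r n then (1 : ℝ) / D.totient else 0 := by
        refine sum_le_sum fun D _ => ?_
        have h0 : ∀ n ∈ N, 0 ≤ if (D : ℤ) ∣ D2 A B A' B' q r n then (1 : ℝ) / D.totient else 0 :=
          fun n _ => by split_ifs <;> positivity
        unfold EV2i
        split_ifs with h
        · obtain ⟨n, hn, hd, hne⟩ := h
          refine le_trans (le_of_eq ?_) (single_le_sum h0
            (mem_filter.2 ⟨(mem_nWin γ Y q r n).2 hn, hne⟩))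
          rw [if_pos hd]
        · rw [zero_div]; exact sum_nonneg h0
    _ = ∑ n ∈ N, ∑ D ∈ F.filter (fun D : ℕ => (D : ℤ) ∣ D2 A B A' B' q r n),
          (1 : ℝ) / D.totient := by
        rw [sum_comm]; simp only [sum_filter]
    _ ≤ N.card * (Ct * (7 * Cl * L1) ^ 21 * Real.exp (-(x ^ 2 / 8))) := by
        rw [← nsmul_eq_mul]; exact sum_le_card_nsmul _ _ _ hterm
    _ ≤ 9 * L1 ^ 4 * (Ct * (7 * Cl * L1) ^ 21 * Real.exp (-(x ^ 2 / 8))) :=
        mul_le_mul_of_nonneg_right hcardN (by positivity)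
    _ = 9 * (Ct * (7 * Cl) ^ 21) * (L1 ^ 25 * Real.exp (-(x ^ 2 / 8))) := by
        rw [mul_pow (7 * Cl)]; ring
    _ ≤ _ := by
        refine mul_le_mul_of_nonneg_left ?_ (by positivity)
        rw [hLx, ← Real.exp_nat_mul, ← Real.exp_add]
        refine Real.exp_le_exp.2 ?_
        push_cast
        linarith

/-- The members of a slice on the low levels. -/
def LowSet (t1 H : ℝ) (ψ : ℕ → ℝ) (S : Finset ℕ) : Prop :=
  ∀ q ∈ S, 0 < q ∧ 0 < ψ q ∧ 1 ≤ -Real.log (ψ q) ∧ Real.log q ≤ H ∧ -Real.log (ψ q) ≤ 2 * H ∧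
    lev H ^ 4 ≤ scale (cls ψ q) ∧ scale (cls ψ q) ≤ 2 * (1 + Real.log H) ∧ t1 ≤ scale (cls ψ q)

/-- Two levels of such a slice. -/
lemma LowSet.lev_pair {t1 H : ℝ} {γ : ℝ} {ψ : ℕ → ℝ} {S : Finset ℕ} {ab : ℕ → ℤ × ℕ}
    (hψ : ∀ q, 0 ≤ ψ q) (hH : 3 ≤ H) (hS : LowSet t1 H ψ S)
    (hgap : ∀ q ∈ S, ∀ r ∈ S, cls ψ q < cls ψ r → 10 ^ 7 * scale (cls ψ q) ≤ scale (cls ψ r))
    (hab : ∀ l, IsApprox γ (Real.exp (scale l / 2)) (ab l).1 (ab l).2) {j l : ℕ}
    (hj : j ∈ S.image (cls ψ)) (hl : l ∈ S.image (cls ψ)) (hjl : j < l) :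
    Lev γ 0 t1 H (scale j) (scale l) ψ (S.filter (fun q => cls ψ q = j))
        (S.filter (fun q => cls ψ q = l)) (ab j).1 (ab j).2 (ab l).1 (ab l).2 ∧
      lev H ^ 4 ≤ scale j ∧ scale l ≤ 2 * (1 + Real.log H) ∧ t1 ≤ scale j := by
  obtain ⟨q0, hq0, rfl⟩ := mem_image.1 hj
  obtain ⟨r0, hr0, rfl⟩ := mem_image.1 hl
  obtain ⟨-, -, hL0, -, hLH, hx, -, ht0⟩ := hS q0 hq0
  have hmem : ∀ i, ∀ q ∈ S.filter (fun q => cls ψ q = i), 0 < q ∧
      Real.exp (-(1 + zeta0) * scale i) ≤ ψ q ∧ ψ q ≤ Real.exp (-scale i) ∧ Real.log q ≤ H := by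
    intro i q hq
    obtain ⟨hqS, rfl⟩ := mem_filter.1 hq
    obtain ⟨h0, hp, hL1, hlq, -⟩ := hS q hqS
    obtain ⟨h1, h2⟩ := cls_spec ψ q hL1
    refine ⟨h0, ?_, ?_, hlq⟩
    · rw [← Real.le_log_iff_exp_le hp]; linarith
    · rw [← Real.log_le_iff_le_exp hp]; linarith
  refine ⟨⟨hψ, hmem _, hmem _, ⟨hH, (cls_spec ψ q0 hL0).1.trans hLH, ?_, ht0,
    hgap q0 hq0 r0 hr0 hjl⟩, hab _, hab _⟩, hx, (hS r0 hr0).2.2.2.2.2.2.1, ht0⟩
  rw [zero_mul]
  exact le_trans zero_le_one (one_le_scale _)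

lemma midDel_anti {κ κ' : ℝ} (h : κ ≤ κ') {y1 y2 : ℝ} (hy1 : 0 < y1) (hy2 : 0 < y2) :
    midDel κ' y1 y2 ≤ midDel κ y1 y2 := by
  unfold midDel
  refine mul_le_mul_of_nonneg_left (Real.exp_le_exp.2 ?_) (by positivity)
  exact mul_le_mul_of_nonneg_right (neg_le_neg h) (abs_nonneg _)

/-- One class between two low levels: the moduli up to `e^{t/2}` and a negligible rest. -/
lemma side_low (η κ : ℝ) (hη : 0 < η) (hηe : η ≤ eps) (hκ : 0 ≤ κ) (hκe : κ ≤ eps / 4) :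
    ∃ C t1 : ℝ, 0 ≤ C ∧ ∀ (γ t0 H t s : ℝ) (ψ : ℕ → ℝ) (V W : Finset ℕ) (A A' : ℤ) (B B' : ℕ)
      (y1 y2 Y : ℝ), Lev γ 0 t0 H t s ψ V W A B A' B' → lev H ^ 4 ≤ t → s ≤ 2 * (1 + Real.log H) →
      t1 ≤ t → 0 < y1 → 0 < y2 → Y = 2 * max y1 y2 → Y ≤ 4 * (1 + Real.log H) ^ 4 →
      pairSum (mu ψ) (fun q r => bG η γ A B A' B' Y q r * clsI ψ y1 y2 q r) V W
        ≤ max 1 (Y / 4) ^ η / Y *
            ∑ D ∈ (Icc 1 ⌊Real.exp (1 + Real.log H)⌋₊).filter (fun D : ℕ => Y ≤ 4 * (D : ℝ)),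
              1 / (D.totient : ℝ) * pairSum (mu ψ) (fun q r =>
                Ph (uu q r * vv q r) * EVb γ A B A' B' t s y1 y2 D q r * clsI ψ y1 y2 q r) V W
          + C / lev H ^ 2 * midDel κ y1 y2 * om ψ V W := by
  classical
  have heps : eps = 1 / 100000 := rfl
  obtain ⟨C2, hC2, hcls2⟩ := cls2
  obtain ⟨Ce, te, hCe, hev⟩ := ev2_low
  obtain ⟨Ck, hCk, htK⟩ := tail_low
  obtain ⟨Cs, hCs, hslice⟩ := Ph_slice
  obtain ⟨C3, hC3, hk3⟩ := kill 3 20 (by norm_num)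
  obtain ⟨C27, hC27, hk27⟩ := kill 27 (1 / 8) (by norm_num)
  set K2 := C2 + Ce with hK2
  refine ⟨Cs * Cs * K2 * C3 + Cs * Ck * K2 * C27 * 16, max 1 te, by positivity, ?_⟩
  intro γ t0 H t s ψ V W A A' B B' y1 y2 Y hL ht4 hs2 ht1 hy1 hy2 hY hYhi
  have ht : 1 ≤ t := (le_max_left _ _).trans ht1
  have hpos := hL.pos
  have hψ := hL.1
  have hlow := hL.low (by linarith)
  obtain ⟨hH, htH, -, -, hts⟩ := hL.2.2.2.1
  have hμ := mu_nonneg' hψ
  have hΩ := om_nonneg hψ V W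
  set x := lev H with hx
  have hl1 : 1 ≤ Real.log H := P028M.log_one hH
  have hx1 : 1 ≤ x := by
    rw [hx]; unfold lev
    linarith [Real.log_nonneg (show 1 ≤ 1 + Real.log H by linarith)]
  set L1 := 1 + Real.log H with hL1
  have hL11 : 1 ≤ L1 := by linarith
  have hLx : L1 = Real.exp (x - 1) := by
    rw [hx]; unfold lev
    rw [add_sub_cancel_left, Real.exp_log (by linarith)]
  have hLe : L1 ≤ Real.exp x := hLx.le.trans (Real.exp_le_exp.2 (by linarith))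
  set δ := midDel κ y1 y2 with hδ
  have hδ0 : 0 ≤ δ := by rw [hδ]; unfold midDel; positivity
  have hm1 := le_max_left y1 y2
  have hm2 := le_max_right y1 y2
  have hY0 : 0 < Y := by linarith
  set Y1 := max 1 (Y / 4) with hY1
  have hY10 : 0 < Y1 := lt_of_lt_of_le one_pos (le_max_left _ _)
  have hY1L : ∀ b : ℝ, 0 ≤ b → b ≤ 5 * eps → Y1 ^ b ≤ L1 := fun b hb0 hb => by
    calc Y1 ^ b ≤ (L1 ^ 4) ^ b := by
          refine Real.rpow_le_rpow hY10.le (max_le (one_le_pow₀ hL11) ?_) hb0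
          linarith
      _ = L1 ^ (4 * b) := by
          rw [← Real.rpow_natCast, ← Real.rpow_mul (by linarith)]; norm_num
      _ ≤ L1 ^ (1 : ℝ) := Real.rpow_le_rpow_of_exponent_le hL11 (by linarith)
      _ = _ := Real.rpow_one _
  set Ds := (Icc 1 ⌊Real.exp L1⌋₊).filter (fun D : ℕ => Y ≤ 4 * (D : ℝ)) with hDs
  set Mn := Y1 ^ η / Y * ∑ D ∈ Ds, 1 / (D.totient : ℝ) * pairSum (mu ψ) (fun q r =>
      Ph (uu q r * vv q r) * EVb γ A B A' B' t s y1 y2 D q r * clsI ψ y1 y2 q r) V W with hMn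
  have hMn0 : 0 ≤ Mn := mul_nonneg (by positivity) (sum_nonneg fun D _ => mul_nonneg (by positivity)
    (pairSum_nonneg hμ (fun q r => mul_nonneg (mul_nonneg (Ph_nonneg _) (EVb_mem ..).1)
      (cls_mem ψ y1 y2 q r).1) V W))
  set CC := Cs * Cs * K2 * C3 + Cs * Ck * K2 * C27 * 16 with hCC
  have hR0 : 0 ≤ CC / x ^ 2 * δ * om ψ V W := by positivity
  by_cases hmem : ∃ q ∈ V, ∃ r ∈ W, clsI ψ y1 y2 q r ≠ 0
  swap
  · push Not at hmem
    refine le_trans (le_of_eq ?_) (add_nonneg hMn0 hR0)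
    exact sum_eq_zero fun q hq => sum_eq_zero fun r hr => by simp only [hmem q hq r hr, mul_zero]
  obtain ⟨q0, hq0, r0, hr0, hin0⟩ := hmem
  have hYlo : Real.exp (-(2 * t)) ≤ Y := by
    obtain ⟨⟨-, hv⟩, -⟩ := cls_inCls hin0
    have h1 : ψ q0 ≤ (vv q0 r0 : ℝ) * ψ q0 := le_mul_of_one_le_left (hψ q0)
      (Nat.one_le_cast.2 (vv_pos q0 r0 (hpos r0 (mem_union_right _ hr0)).1))
    linarith [hlow q0 hq0]
  obtain ⟨hcl, -⟩ := hcls2 ψ V W y1 y2 hψ hpos hy1 hy2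
  have hcl' : pairSum (mu ψ) (clsI ψ y1 y2) V W ≤ K2 * ((y1 * y2) ^ (1 / 2 - eps) * om ψ V W) :=
    hcl.trans (mul_le_mul_of_nonneg_right (by linarith) (by positivity))
  have hphi : ∀ q ∈ V, ∀ r ∈ W, Ph (uu q r * vv q r) ≤ Cs * L1 ∧ Ph (Nat.gcd q r) ≤ Cs * L1 := by
    intro q hq r hr
    obtain ⟨hq0, -, -, hlq⟩ := hL.2.1 q hq
    obtain ⟨hr0, -, -, hlr⟩ := hL.2.2.1 r hr
    have hu : uu q r * vv q r ≤ q * r :=
      Nat.mul_le_mul (Nat.div_le_self _ _) (Nat.div_le_self _ _)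
    have huv := uu_mul_vv_pos q r hq0 hr0
    constructor
    · refine hslice _ H huv hH ((Real.log_le_log (by exact_mod_cast huv) (Nat.cast_le.2 hu)).trans ?_)
      rw [Nat.cast_mul, Real.log_mul (by exact_mod_cast hq0.ne') (by exact_mod_cast hr0.ne')]
      linarith
    · refine hslice _ H (Nat.gcd_pos_of_pos_left _ hq0) hH ((Real.log_le_log
        (by exact_mod_cast Nat.gcd_pos_of_pos_left _ hq0)
        (Nat.cast_le.2 (Nat.gcd_le_left r hq0))).trans ?_)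
      linarith
  by_cases hbal : Y * Real.exp (-nuM * s) ≤ y1 ∧ Y * Real.exp (-nuM * s) ≤ y2
  swap
  · -- imbalanced
    have hnum := imbalNum y1 y2 Y t s hy1 hy2 hY (by linarith) hts hYlo hbal
    have hexp : L1 ^ 3 * Real.exp (-(s / 500000)) ≤ C3 / x ^ 2 := by
      refine le_trans ?_ (hk3 x hx1)
      calc L1 ^ 3 * Real.exp (-(s / 500000)) ≤ Real.exp x ^ 3 * Real.exp (-(s / 500000)) := by
            gcongr
        _ ≤ _ := by
            rw [← Real.exp_nat_mul, ← Real.exp_add]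
            refine Real.exp_le_exp.2 ?_
            have h2 : x ^ 2 ≤ x ^ 4 := pow_le_pow_right₀ hx1 (by norm_num)
            push_cast
            linarith
    refine le_trans ?_ (le_add_of_nonneg_left hMn0)
    calc pairSum (mu ψ) (fun q r => bG η γ A B A' B' Y q r * clsI ψ y1 y2 q r) V W
        ≤ pairSum (mu ψ) (fun q r => Cs * Cs * L1 ^ 3 / Y * clsI ψ y1 y2 q r) V W := by
          refine pairSum_mono hμ fun q hq r hr => mul_le_mul_of_nonneg_right ?_ (cls_mem ψ y1 y2 q r).1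
          obtain ⟨h1, h2⟩ := hphi q hq r hr
          have h3 : ∑ D ∈ (dset (B * B') q r).filter (fun D : ℕ => Y ≤ 4 * (D : ℝ)),
              EV2i γ A B A' B' Y D q r / (D.totient : ℝ) ≤ Cs * L1 :=
            le_trans (le_trans (sum_le_sum fun D _ => div_le_div_of_nonneg_right
              (EV2i_mem ..).2 (Nat.cast_nonneg _)) (sum_le_sum_of_subset_of_nonneg
              (filter_subset _ _) fun D _ _ => by positivity))
              ((dset_sum_le _ (hL.2.1 q hq).1).trans h2)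
          calc bG η γ A B A' B' Y q r ≤ L1 / Y * (Cs * L1 * (Cs * L1)) := by
                refine mul_le_mul (div_le_div_of_nonneg_right
                  (hY1L _ hη.le (by linarith)) hY0.le) (mul_le_mul h1 h3 ?_ (by positivity))
                  (mul_nonneg (Ph_nonneg _) ?_) (by positivity)
                all_goals exact sum_nonneg fun D _ => div_nonneg (EV2i_mem ..).1 (Nat.cast_nonneg _)
            _ = _ := by ring
      _ = Cs * Cs * L1 ^ 3 / Y * pairSum (mu ψ) (clsI ψ y1 y2) V W := midPairSum_smul _ _ _ _ _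
      _ ≤ Cs * Cs * L1 ^ 3 / Y * (K2 * ((y1 * y2) ^ (1 / 2 - eps) * om ψ V W)) :=
          mul_le_mul_of_nonneg_left hcl' (by positivity)
      _ = Cs * Cs * K2 * (L1 ^ 3 * ((y1 * y2) ^ (1 / 2 - eps) / Y)) * om ψ V W := by ring
      _ ≤ Cs * Cs * K2 * (C3 / x ^ 2 * δ) * om ψ V W := by
          refine mul_le_mul_of_nonneg_right (mul_le_mul_of_nonneg_left ?_ (by positivity)) hΩ
          calc L1 ^ 3 * ((y1 * y2) ^ (1 / 2 - eps) / Y)
              ≤ L1 ^ 3 * (Real.exp (-(s / 500000)) * midDel (eps / 4) y1 y2) :=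
                mul_le_mul_of_nonneg_left hnum (by positivity)
            _ ≤ C3 / x ^ 2 * δ := by
                rw [← mul_assoc]
                exact mul_le_mul hexp (midDel_anti hκe hy1 hy2) (by unfold midDel; positivity)
                  (by positivity)
      _ = Cs * Cs * K2 * C3 * (1 / x ^ 2 * δ * om ψ V W) := by ring
      _ ≤ CC * (1 / x ^ 2 * δ * om ψ V W) :=
          mul_le_mul_of_nonneg_right (le_add_of_nonneg_right (by positivity)) (by positivity)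
      _ = _ := by ring
  obtain ⟨hb1, hb2⟩ := hbal
  -- balanced
  set Kt := Ck * Real.exp (25 * x - x ^ 2 / 8) with hKt
  have hpoint : ∀ q ∈ V, ∀ r ∈ W, bG η γ A B A' B' Y q r * clsI ψ y1 y2 q r ≤
      Y1 ^ η / Y * (∑ D ∈ Ds, 1 / (D.totient : ℝ) *
          (Ph (uu q r * vv q r) * EVb γ A B A' B' t s y1 y2 D q r * clsI ψ y1 y2 q r)
        + Cs * L1 * Kt * (EV2i γ A B A' B' Y 1 q r * clsI ψ y1 y2 q r)) := by
    intro q hq r hr
    by_cases hc : clsI ψ y1 y2 q r = 0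
    · simp [hc]
    obtain ⟨⟨-, hv⟩, -, hu⟩ := cls_inCls hc
    have hK' := htK γ 0 t0 H t s ψ V W A A' B B' hL ht4 hs2 q hq r hr Y hY0 hYhi
      (by linarith) (by linarith)
    have hz : ∑ D ∈ (dset (B * B') q r).filter (fun D : ℕ => Y ≤ 4 * (D : ℝ)),
        EV2i γ A B A' B' Y D q r / (D.totient : ℝ) ≤
        (∑ D ∈ Ds, EVb γ A B A' B' t s y1 y2 D q r / (D.totient : ℝ))
          + Kt * EV2i γ A B A' B' Y 1 q r := by
      rw [← sum_filter_add_sum_filter_not ((dset (B * B') q r).filter _)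
        (fun D : ℕ => Real.exp (t / 2) < (D : ℝ)), add_comm]
      refine add_le_add ?_
        (le_trans (sum_le_sum_of_subset_of_nonneg (fun D hD => ?_) fun D _ _ =>
          div_nonneg (EV2i_mem ..).1 (Nat.cast_nonneg _)) hK')
      · have hterm : ∀ D ∈ ((dset (B * B') q r).filter (fun D : ℕ => Y ≤ 4 * (D : ℝ))).filter
            (fun D : ℕ => ¬ Real.exp (t / 2) < (D : ℝ)), D ∈ Ds ∧
            EV2i γ A B A' B' Y D q r = EVb γ A B A' B' t s y1 y2 D q r := by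
          intro D hD
          obtain ⟨hD', hDle⟩ := mem_filter.1 hD
          obtain ⟨hDd, hYD⟩ := mem_filter.1 hD'
          obtain ⟨hdiv, -, hcop⟩ := mem_filter.1 hDd
          refine ⟨mem_filter.2 ⟨mem_Icc.2 ⟨Nat.pos_of_mem_divisors hdiv,
            Nat.le_floor ((not_lt.1 hDle).trans (Real.exp_le_exp.2 (by linarith)))⟩, hYD⟩, ?_⟩
          unfold EVb
          rw [← hY, bb_true ⟨hb2, hYlo, not_lt.1 hDle,
            hcop.coprime_dvd_right (Dvd.intro_left _ rfl), hYD⟩, one_mul]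
        refine le_trans (le_of_eq (sum_congr rfl fun D hD => by rw [(hterm D hD).2]))
          (sum_le_sum_of_subset_of_nonneg (fun D hD => (hterm D hD).1) fun D _ _ =>
            div_nonneg (EVb_mem ..).1 (Nat.cast_nonneg _))
      · exact mem_filter.2 ⟨(mem_filter.1 (mem_filter.1 hD).1).1, (mem_filter.1 hD).2⟩
    obtain ⟨hph, -⟩ := hphi q hq r hr
    have hE0 := (EV2i_mem γ A B A' B' Y 1 q r).1
    have hn0 := Ph_nonneg (uu q r * vv q r)
    have hKt0 : 0 ≤ Kt := by positivity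
    calc bG η γ A B A' B' Y q r * clsI ψ y1 y2 q r
        ≤ Y1 ^ η / Y * (Ph (uu q r * vv q r) * (∑ D ∈ Ds, EVb γ A B A' B' t s y1 y2 D q r /
            (D.totient : ℝ)) + Cs * L1 * (Kt * EV2i γ A B A' B' Y 1 q r)) * clsI ψ y1 y2 q r := by
          refine mul_le_mul_of_nonneg_right (mul_le_mul_of_nonneg_left ?_ (by positivity))
            (cls_mem ψ y1 y2 q r).1
          refine (mul_le_mul_of_nonneg_left hz hn0).trans ?_
          rw [mul_add]
          exact add_le_add le_rfl (mul_le_mul_of_nonneg_right hph (mul_nonneg hKt0 hE0))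
      _ = _ := by
          rw [show ∑ D ∈ Ds, 1 / (D.totient : ℝ) *
              (Ph (uu q r * vv q r) * EVb γ A B A' B' t s y1 y2 D q r * clsI ψ y1 y2 q r)
            = Ph (uu q r * vv q r) * (∑ D ∈ Ds, EVb γ A B A' B' t s y1 y2 D q r / (D.totient : ℝ)) *
              clsI ψ y1 y2 q r by
            rw [mul_sum, sum_mul]; exact sum_congr rfl fun D _ => by ring]
          ring
  refine (pairSum_mono hμ hpoint).trans ?_
  rw [midPairSum_smul, pairSum_add, midPairSum_sum, midPairSum_smul, mul_add]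
  simp only [midPairSum_smul]
  refine add_le_add le_rfl ?_
  set P := (y1 * y2) ^ (1 / 2 - eps) with hP
  have he : pairSum (mu ψ) (fun q r => EV2i γ A B A' B' Y 1 q r * clsI ψ y1 y2 q r) V W
      ≤ K2 * (Y ^ (5 * eps) * P * om ψ V W) := by
    rcases le_or_gt Y 4 with h4 | h4
    · refine (hev γ 0 t0 H t s ψ V W A A' B B' 1 y1 y2 Y hL ((le_max_right _ _).trans ht1) hy1 hY
        one_pos (Nat.coprime_one_left _) (by simpa using Real.one_le_exp (show 0 ≤ t / 2 by linarith))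
        hYlo (by simpa using h4) hb2).trans ?_
      rw [Nat.cast_one, div_one]
      exact mul_le_mul_of_nonneg_right (by linarith) (by positivity)
    · refine ((pairSum_mono hμ fun q _ r _ => mul_le_of_le_one_left (cls_mem ψ y1 y2 q r).1
        (EV2i_mem ..).2).trans hcl').trans (mul_le_mul_of_nonneg_left ?_ (by positivity))
      refine mul_le_mul_of_nonneg_right (le_mul_of_one_le_left (by positivity) ?_) hΩ
      exact Real.one_le_rpow (show 1 ≤ Y by linarith) (by linarith)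
  obtain ⟨hY0', hr0, hPe, hrb, -⟩ := midRatio y1 y2 Y hy1 hy2 hY
  have hd := midDelta κ (3 * eps) (-(4 * eps)) Y hY0 hκ (by linarith) (by linarith) (by linarith)
    (by linarith)
  have hnum : Y1 ^ (-(4 * eps)) / Y * (Y ^ (5 * eps) * P) ≤ 16 * δ := by
    rw [hδ]; unfold midDel
    rw [hP, hPe, ← hY]
    set r := y1 * y2 / Y ^ 2
    calc Y1 ^ (-(4 * eps)) / Y * (Y ^ (5 * eps) * (r ^ (1 / 2 - eps) * Y ^ (2 * (1 / 2 - eps))))
        = r ^ (1 / 2 - eps) * (Y ^ (5 * eps) * Y ^ (2 * (1 / 2 - eps)) / Y * Y1 ^ (-(4 * eps))) := by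
          ring
      _ = r ^ (1 / 2 - eps) * (Y ^ (3 * eps) * Y1 ^ (-(4 * eps))) := by
          rw [← Real.rpow_add hY0, ← Real.rpow_sub_one hY0.ne']; ring_nf
      _ ≤ r ^ (1 / 10 : ℝ) * (16 * Real.exp (-κ * |Real.log Y|)) :=
          mul_le_mul hrb hd (by positivity) (by positivity)
      _ = _ := by ring
  have hexp : L1 * Real.exp (25 * x - x ^ 2 / 8) * Y1 ^ (η + 4 * eps) ≤ C27 / x ^ 2 := by
    refine le_trans ?_ (hk27 x hx1)
    calc L1 * Real.exp (25 * x - x ^ 2 / 8) * Y1 ^ (η + 4 * eps)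
        ≤ Real.exp x * Real.exp (25 * x - x ^ 2 / 8) * Real.exp x :=
          mul_le_mul (mul_le_mul_of_nonneg_right hLe (Real.exp_pos _).le)
            ((hY1L _ (by linarith) (by linarith)).trans hLe) (by positivity) (by positivity)
      _ = _ := by rw [← Real.exp_add, ← Real.exp_add]; ring_nf
  calc Y1 ^ η / Y * (Cs * L1 * Kt *
        pairSum (mu ψ) (fun q r => EV2i γ A B A' B' Y 1 q r * clsI ψ y1 y2 q r) V W)
      ≤ Y1 ^ η / Y * (Cs * L1 * Kt * (K2 * (Y ^ (5 * eps) * P * om ψ V W))) :=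
        mul_le_mul_of_nonneg_left (mul_le_mul_of_nonneg_left he (by positivity)) (by positivity)
    _ = Cs * Ck * K2 * ((L1 * Real.exp (25 * x - x ^ 2 / 8) * Y1 ^ (η + 4 * eps)) *
          (Y1 ^ (-(4 * eps)) / Y * (Y ^ (5 * eps) * P))) * om ψ V W := by
        rw [hKt, show Y1 ^ η = Y1 ^ (η + 4 * eps) * Y1 ^ (-(4 * eps)) by
          rw [← Real.rpow_add hY10]; ring_nf]
        ring
    _ ≤ Cs * Ck * K2 * (C27 / x ^ 2 * (16 * δ)) * om ψ V W :=
        mul_le_mul_of_nonneg_right (mul_le_mul_of_nonneg_left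
          (mul_le_mul hexp hnum (by positivity) (by positivity)) (by positivity)) hΩ
    _ = Cs * Ck * K2 * C27 * 16 * (1 / x ^ 2 * δ * om ψ V W) := by ring
    _ ≤ CC * (1 / x ^ 2 * δ * om ψ V W) :=
        mul_le_mul_of_nonneg_right (le_add_of_nonneg_left (by positivity)) (by positivity)
    _ = _ := by ring

/-- The exponents of the union of the low levels. -/
lemma lowNum (θ w : ℝ) (hθ0 : 0 < θ) (hθ1 : θ ≤ 1 / 2) (hw0 : 0 ≤ w) (hw : w ≤ θ / 8)
    (y1 y2 Y : ℝ) (hy1 : 0 < y1) (hy2 : 0 < y2) (hY : Y = 2 * max y1 y2) :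
    max 1 (Y / 4) ^ (3 / 4 * (θ * eps) - 5 * (θ * eps) * (1 - w)) / Y *
        (Y ^ (5 * (θ * eps) * (1 - w)) * (((y1 * y2) ^ (1 / 2 - eps)) ^ (w + θ * (1 - w)) *
          ((y1 * y2) ^ (1 / 2 - θ * eps / 4)) ^ ((1 - θ) * (1 - w))))
      ≤ 16 * midDel (θ * eps / 4) y1 y2 := by
  have heps : eps = 1 / 100000 := rfl
  obtain ⟨hY0, hr0, -, -, hr1⟩ := midRatio y1 y2 Y hy1 hy2 hY
  set u := θ * eps with hu
  have hu0 : 0 < u := mul_pos hθ0 eps_pos
  have hue : u ≤ eps / 2 := by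
    rw [hu]; linarith [mul_le_mul_of_nonneg_right hθ1 eps_pos.le]
  set Y1 := max 1 (Y / 4) with hY1
  unfold midDel
  rw [← hY]
  set r := y1 * y2 / Y ^ 2 with hr
  have hyr : y1 * y2 = r * Y ^ (2 : ℝ) := by rw [hr, Real.rpow_two]; field_simp
  set e1 := w + θ * (1 - w) with he1
  set e2 := (1 - θ) * (1 - w) with he2
  have e12 : e1 + e2 = 1 := by rw [he1, he2]; ring
  set b := (1 / 2 - eps) * e1 + (1 / 2 - u / 4) * e2 with hb
  set α := 5 * u * (1 - w) + 2 * b - 1 with hαd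
  have hw2 : 0 ≤ 1 - w := by linarith
  have hwe : w * eps ≤ u / 8 := by
    rw [hu]; linarith [mul_le_mul_of_nonneg_right hw eps_pos.le]
  have hwu : w * u ≤ u / 16 := by
    linarith [mul_le_mul_of_nonneg_right (show w ≤ 1 / 16 by linarith) hu0.le]
  have hwu0 : 0 ≤ w * u := by positivity
  have hwe0 : 0 ≤ w * eps := mul_nonneg hw0 eps_pos.le
  have he20 : 0 ≤ e2 := mul_nonneg (by linarith) hw2
  have he21 : e2 ≤ 1 := by
    rw [he2]; exact mul_le_one₀ (by linarith) hw2 (by linarith)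
  have hu2 : u * e2 ≤ u := mul_le_of_le_one_right hu0.le he21
  have hu20 : 0 ≤ u * e2 := mul_nonneg hu0.le he20
  have hαeq : α = 5 * u * (1 - w) - 2 * (w * eps) - 2 * u * (1 - w) - u * e2 / 2 := by
    have : e1 = 1 - e2 := by linarith
    rw [hαd, hb, this, hu, he2]; ring
  have hb10 : 1 / 10 ≤ b := by
    have h1 : (1 / 2 - eps) * e2 ≤ (1 / 2 - u / 4) * e2 :=
      mul_le_mul_of_nonneg_right (by linarith) he20
    have h3 : (1 / 2 - eps) * e1 + (1 / 2 - eps) * e2 = 1 / 2 - eps := by rw [← mul_add, e12, mul_one]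
    linarith
  have hd := midDelta (u / 4) α (3 / 4 * u - 5 * u * (1 - w)) Y hY0 (by linarith) (by linarith)
    (by linarith) (by linarith) (by linarith)
  rw [hyr, ← Real.rpow_mul (by positivity), ← Real.rpow_mul (by positivity),
    ← Real.rpow_add (by positivity), ← hb, Real.mul_rpow hr0.le (by positivity),
    ← Real.rpow_mul hY0.le]
  calc Y1 ^ (3 / 4 * u - 5 * u * (1 - w)) / Y *
        (Y ^ (5 * u * (1 - w)) * (r ^ b * Y ^ (2 * b)))
      = r ^ b * (Y ^ (5 * u * (1 - w)) * Y ^ (2 * b) / Y *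
          Y1 ^ (3 / 4 * u - 5 * u * (1 - w))) := by ring
    _ = r ^ b * (Y ^ α * Y1 ^ (3 / 4 * u - 5 * u * (1 - w))) := by
        rw [← Real.rpow_add hY0, ← Real.rpow_sub_one hY0.ne', hαd]
    _ ≤ r ^ (1 / 10 : ℝ) * (16 * Real.exp (-(u / 4) * |Real.log Y|)) :=
        mul_le_mul (Real.rpow_le_rpow_of_exponent_ge hr0 hr1 hb10) hd (by positivity) (by positivity)
    _ = _ := by ring

/-- A sum over the ordered pairs of levels. -/
lemma pairs_le (Lv : Finset ℕ) (F : ℕ → ℕ → ℝ) (n b : ℝ) (hn : (Lv.card : ℝ) ≤ n) (hb : 0 ≤ b)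
    (h : ∀ l ∈ Lv, ∀ j ∈ Lv.filter (fun j => j < l), F j l ≤ b) :
    ∑ l ∈ Lv, ∑ j ∈ Lv.filter (fun j => j < l), F j l ≤ n ^ 2 * b := by
  calc ∑ l ∈ Lv, ∑ j ∈ Lv.filter (fun j => j < l), F j l
      ≤ ∑ _l ∈ Lv, n * b := sum_le_sum fun l hl => by
        refine (sum_le_card_nsmul _ _ _ (h l hl)).trans ?_
        rw [nsmul_eq_mul]
        exact mul_le_mul_of_nonneg_right ((Nat.cast_le.2 (card_filter_le _ _)).trans hn) hb
    _ = (Lv.card : ℝ) * (n * b) := by rw [sum_const, nsmul_eq_mul]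
    _ ≤ n * (n * b) :=
        mul_le_mul_of_nonneg_right hn (mul_nonneg (le_trans (Nat.cast_nonneg _) hn) hb)
    _ = _ := by ring

/-- The products of powers in the union bound. -/
lemma union_alg {K P Pe g n N N2 θ w : ℝ} (hK : 0 < K) (hP : 0 < P) (hPe : 0 < Pe) (hg : 0 < g)
    (hn : 1 ≤ n) (hN : 0 < N) (hN2 : 0 < N2) (hθ : 0 ≤ θ) (hw : 0 ≤ w) :
    (K * (P * N)) ^ w * ((K * (Pe * N)) ^ (1 - θ) * (K * (n ^ 2 * (g * P * N2))) ^ θ) ^ (1 - w)
      ≤ K * (n ^ (2 * θ) * (g ^ (θ * (1 - w)) *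
          (P ^ (w + θ * (1 - w)) * Pe ^ ((1 - θ) * (1 - w))))) *
          (N ^ (1 - θ * (1 - w)) * N2 ^ (θ * (1 - w))) := by
  have hn0 : 0 < n := by linarith
  have e : (K * (P * N)) ^ w *
      ((K * (Pe * N)) ^ (1 - θ) * (K * (n ^ 2 * (g * P * N2))) ^ θ) ^ (1 - w)
      = K * (n ^ (2 * θ * (1 - w)) * (g ^ (θ * (1 - w)) *
          (P ^ (w + θ * (1 - w)) * Pe ^ ((1 - θ) * (1 - w))))) *
          (N ^ (1 - θ * (1 - w)) * N2 ^ (θ * (1 - w))) := by
    refine Real.log_injOn_pos (Set.mem_Ioi.2 (by positivity)) (Set.mem_Ioi.2 (by positivity)) ?_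
    simp (disch := positivity) only [Real.log_mul, Real.log_rpow, Real.log_pow]
    push_cast
    ring
  rw [e]
  refine mul_le_mul_of_nonneg_right (mul_le_mul_of_nonneg_left (mul_le_mul_of_nonneg_right ?_
    (by positivity)) hK.le) (by positivity)
  exact Real.rpow_le_rpow_of_exponent_le hn (mul_le_of_le_one_right (by linarith) (by linarith))

/-- The size of the levels of such a slice. -/
lemma LowSet.card_le {t1 H : ℝ} {ψ : ℕ → ℝ} {S : Finset ℕ} {C : ℝ}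
    (hcard : ∀ (L : Finset ℕ) (H : ℝ), 3 ≤ H → (∀ l ∈ L, scale l ≤ 2 * (1 + Real.log H)) →
      (L.card : ℝ) ≤ C * lev H)
    (hH : 3 ≤ H) (hS : LowSet t1 H ψ S) : ((S.image (cls ψ)).card : ℝ) ≤ C * lev H := by
  refine hcard _ H hH fun l hl => ?_
  obtain ⟨r, hr, rfl⟩ := mem_image.1 hl
  exact (hS r hr).2.2.2.2.2.2.1

lemma om_le (ψ : ℕ → ℝ) (hψ : ∀ q, 0 ≤ ψ q) (S V W : Finset ℕ) (hV : V ⊆ S) (hW : W ⊆ S) :
    om ψ V W ≤ msum (mu ψ) S + msum (mu ψ) S ^ 2 := by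
  have hμ := mu_nonneg' hψ
  have hU : msum (mu ψ) (V ∪ W) ≤ msum (mu ψ) S :=
    sum_le_sum_of_subset_of_nonneg (union_subset hV hW) fun q _ _ => hμ q
  have hU0 : 0 ≤ msum (mu ψ) (V ∪ W) := sum_nonneg fun q _ => hμ q
  unfold om
  gcongr

/-- The union over all pairs of low levels of the events of one modulus. -/
lemma union_low (θ : ℝ) (hθ0 : 0 < θ) (hθ1 : θ ≤ 1 / 2) :
    ∃ w K t1 : ℝ, 0 ≤ w ∧ w ≤ θ / 8 ∧ 1 ≤ K ∧
      ∀ (γ H : ℝ) (ψ : ℕ → ℝ) (S : Finset ℕ) (ab : ℕ → ℤ × ℕ) (y1 y2 Y n : ℝ) (D : ℕ),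
      (∀ q, 0 ≤ ψ q) → 3 ≤ H → LowSet t1 H ψ S →
      (∀ q ∈ S, ∀ r ∈ S, cls ψ q < cls ψ r → 10 ^ 7 * scale (cls ψ q) ≤ scale (cls ψ r)) →
      (∀ l, IsApprox γ (Real.exp (scale l / 2)) (ab l).1 (ab l).2) →
      0 < y1 → 0 < y2 → Y = 2 * max y1 y2 → 1 ≤ n → ((S.image (cls ψ)).card : ℝ) ≤ n →
      0 < msum (mu ψ) S → 0 < D →
      pairSum (mu ψ) (fun q r => Ph (uu q r * vv q r) *
        (if cls ψ q < cls ψ r then EVb γ (ab (cls ψ q)).1 (ab (cls ψ q)).2 (ab (cls ψ r)).1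
          (ab (cls ψ r)).2 (scale (cls ψ q)) (scale (cls ψ r)) y1 y2 D q r else 0) *
          clsI ψ y1 y2 q r) S S
      ≤ 2 * (K * (n ^ (2 * θ) * ((Y / D) ^ (5 * (θ * eps) * (1 - w)) *
          (((y1 * y2) ^ (1 / 2 - eps)) ^ (w + θ * (1 - w)) *
            ((y1 * y2) ^ (1 / 2 - θ * eps / 4)) ^ ((1 - θ) * (1 - w))))) *
              (2 * (msum (mu ψ) S + msum (mu ψ) S ^ (7 / 4 : ℝ)))) := by
  classical
  have heps : eps = 1 / 100000 := rfl
  have hu0 : 0 < θ * eps := mul_pos hθ0 eps_pos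
  have hue : θ * eps ≤ eps / 2 := by linarith [mul_le_mul_of_nonneg_right hθ1 eps_pos.le]
  obtain ⟨p, hp⟩ := exists_nat_ge (8 / θ)
  have hp0 : 0 < p := by
    have : (0 : ℝ) < 8 / θ := by positivity
    exact_mod_cast this.trans_le hp
  have hwθ : 1 / (p : ℝ) ≤ θ / 8 := by
    rw [div_le_iff₀ (by exact_mod_cast hp0)]
    rw [div_le_iff₀ hθ0] at hp
    linarith
  have hε : Vale.Agent.P028X.Small (θ * eps / 4) := ⟨by linarith, by linarith⟩
  obtain ⟨Cx, hCx, hclsX⟩ := cls_boundX hε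
  obtain ⟨Cp, hCp, hphi⟩ := phi_pow_class p
  obtain ⟨Ce, te, hCe, hev⟩ := ev2_low
  refine ⟨1 / (p : ℝ), Cx + Cp + Ce + 1, te, by positivity, hwθ, by linarith, ?_⟩
  intro γ H ψ S ab y1 y2 Y n D hψ hH hS hgap hab hy1 hy2 hY hn hLn hM hDpos
  have hμ := mu_nonneg' hψ
  have hSpos : ∀ q ∈ S, 0 < q ∧ 0 < ψ q := fun q hq => ⟨(hS q hq).1, (hS q hq).2.1⟩
  have hD0 : (0 : ℝ) < D := Nat.cast_pos.2 hDpos
  have hY0 : 0 < Y := (midRatio y1 y2 Y hy1 hy2 hY).1
  set M := msum (mu ψ) S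
  set N := M + M ^ (5 / 4 : ℝ)
  have hN : 0 < N := by positivity
  set N2 := M + M ^ 2
  have hN2 : 0 < N2 := by positivity
  set K := Cx + Cp + Ce + 1
  have hK : 0 < K := by linarith
  set E := fun q r => if cls ψ q < cls ψ r then EVb γ (ab (cls ψ q)).1 (ab (cls ψ q)).2
    (ab (cls ψ r)).1 (ab (cls ψ r)).2 (scale (cls ψ q)) (scale (cls ψ r)) y1 y2 D q r else 0 with hE
  have hEm : ∀ q r, 0 ≤ E q r ∧ E q r ≤ 1 := fun q r => by
    simp only [hE]
    split_ifs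
    · exact EVb_mem ..
    · exact ⟨le_rfl, zero_le_one⟩
  set P := (y1 * y2) ^ (1 / 2 - eps)
  set Pe := (y1 * y2) ^ (1 / 2 - θ * eps / 4)
  have hP : 0 < P := by positivity
  have hPe : 0 < Pe := by positivity
  set g := (Y / D) ^ (5 * eps) with hg
  have hg0 : 0 < g := by positivity
  have hA : pairSum (mu ψ) (fun q r => E q r * clsI ψ y1 y2 q r) S S ≤ K * (Pe * N) := by
    refine (pairSum_mono hμ fun q _ r _ => mul_le_of_le_one_left (cls_mem ψ y1 y2 q r).1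
      (hEm q r).2).trans ((hclsX ψ S S S y1 y2 hψ hSpos subset_rfl subset_rfl hy1 hy2).trans ?_)
    calc Cx * Pe * (M * M) ^ aX (θ * eps / 4) ≤ Cx * Pe * N :=
          mul_le_mul_of_nonneg_left (mass_pow _ _ (by unfold aX; linarith) (by unfold aX; linarith) hM.le) (by positivity)
      _ ≤ K * (Pe * N) := by
          rw [mul_assoc]
          exact mul_le_mul_of_nonneg_right (by linarith) (by positivity)
  have hB : pairSum (mu ψ) (fun q r => E q r * clsI ψ y1 y2 q r) S S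
      ≤ K * (n ^ 2 * (g * P * N2)) := by
    have e : pairSum (mu ψ) (fun q r => E q r * clsI ψ y1 y2 q r) S S = pairSum (mu ψ)
        (fun q r => if cls ψ q < cls ψ r then
          (fun j l q r => EVb γ (ab j).1 (ab j).2 (ab l).1 (ab l).2 (scale j) (scale l) y1 y2 D q r *
            clsI ψ y1 y2 q r) (cls ψ q) (cls ψ r) q r else 0) S S := by
      simp only [hE, ite_mul, zero_mul]
    rw [e, levels_eq (mu ψ) (cls ψ) (fun j l q r => EVb γ (ab j).1 (ab j).2 (ab l).1 (ab l).2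
      (scale j) (scale l) y1 y2 D q r * clsI ψ y1 y2 q r) S, mul_left_comm]
    refine pairs_le _ _ n _ hLn (by positivity) fun l hl j hj => ?_
    obtain ⟨hjL, hjl⟩ := mem_filter.1 hj
    obtain ⟨hLev, -, -, htj⟩ := hS.lev_pair hψ hH hgap hab hjL hl hjl
    by_cases hc : 2 * max y1 y2 * Real.exp (-nuM * scale l) ≤ y2 ∧
        Real.exp (-(2 * scale j)) ≤ 2 * max y1 y2 ∧ (D : ℝ) ≤ Real.exp (scale j / 2) ∧
        Nat.Coprime D ((ab j).2 * (ab l).2) ∧ 2 * max y1 y2 ≤ 4 * (D : ℝ)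
    · obtain ⟨c1, c2, c3, c4, c5⟩ := hc
      simp only [EVb, bb_true (show _ ∧ _ ∧ _ ∧ _ ∧ _ from ⟨c1, c2, c3, c4, c5⟩), one_mul]
      rw [← hY] at c1 c2 c5 ⊢
      refine (hev γ 0 te H _ _ ψ _ _ _ _ _ _ D y1 y2 Y hLev htj hy1 hY hDpos c4 c3 c2 c5 c1).trans ?_
      calc Ce * ((Y / D) ^ (5 * eps) * P * om ψ _ _) ≤ Ce * (g * P * N2) := by
            rw [hg]
            exact mul_le_mul_of_nonneg_left (mul_le_mul_of_nonneg_left
              (om_le ψ hψ S _ _ (filter_subset _ _) (filter_subset _ _)) (by positivity)) hCe.le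
        _ ≤ _ := mul_le_mul_of_nonneg_right (by linarith) (by positivity)
    · refine le_trans (le_of_eq (sum_eq_zero fun q _ => sum_eq_zero fun r _ => ?_)) (by positivity)
      simp only [EVb, bb_false hc, zero_mul, mul_zero]
  have hE2 := two_bounds (pairSum_nonneg hμ
    (fun q r => mul_nonneg (hEm q r).1 (cls_mem ψ y1 y2 q r).1) S S) hA hB hθ0.le (by linarith)
  have h1 : pairSum (mu ψ) (fun q r => Ph (uu q r * vv q r) ^ p * clsI ψ y1 y2 q r) S S
      ≤ K * (P * N) :=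
    (hphi ψ S y1 y2 hψ hSpos hy1 hy2).trans (mul_le_mul_of_nonneg_right (by linarith) (by positivity))
  refine (holder (mu ψ) (fun q r => Ph (uu q r * vv q r)) E _ S S p hp0 hμ
    (fun q r => (cls_mem ψ y1 y2 q r).1) (fun q r => Ph_nonneg _) hEm (by positivity) (by positivity)
    h1 hE2).trans (mul_le_mul_of_nonneg_left ?_ zero_le_two)
  have hw1 : 0 ≤ 1 - 1 / (p : ℝ) := by linarith
  refine (union_alg hK hP hPe hg0 hn hN hN2 hθ0.le (by positivity)).trans ?_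
  refine (mul_le_mul_of_nonneg_left (mass_mix _ M (mul_nonneg hθ0.le hw1)
    (le_trans (mul_le_of_le_one_right hθ0.le (by linarith [show 0 ≤ 1 / (p : ℝ) by positivity])) hθ1)
    hM) (by positivity)).trans (le_of_eq ?_)
  rw [hg, ← Real.rpow_mul (by positivity)]
  ring_nf

/-- The pairs of levels summed before the moduli. -/
lemma split_low (η : ℝ) {C t1 : ℝ} (hC : 0 ≤ C)
    (hside : ∀ (γ t0 H t s : ℝ) (ψ : ℕ → ℝ) (V W : Finset ℕ) (A A' : ℤ) (B B' : ℕ)
      (y1 y2 Y : ℝ), Lev γ 0 t0 H t s ψ V W A B A' B' → lev H ^ 4 ≤ t → s ≤ 2 * (1 + Real.log H) →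
      t1 ≤ t → 0 < y1 → 0 < y2 → Y = 2 * max y1 y2 → Y ≤ 4 * (1 + Real.log H) ^ 4 →
      pairSum (mu ψ) (fun q r => bG η γ A B A' B' Y q r * clsI ψ y1 y2 q r) V W
        ≤ max 1 (Y / 4) ^ η / Y *
            ∑ D ∈ (Icc 1 ⌊Real.exp (1 + Real.log H)⌋₊).filter (fun D : ℕ => Y ≤ 4 * (D : ℝ)),
              1 / (D.totient : ℝ) * pairSum (mu ψ) (fun q r =>
                Ph (uu q r * vv q r) * EVb γ A B A' B' t s y1 y2 D q r * clsI ψ y1 y2 q r) V W
          + C / lev H ^ 2 * midDel η y1 y2 * om ψ V W)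
    (γ H : ℝ) (ψ : ℕ → ℝ) (S : Finset ℕ) (ab : ℕ → ℤ × ℕ) (y1 y2 Y n : ℝ) {t0 : ℝ}
    (hψ : ∀ q, 0 ≤ ψ q) (hH : 3 ≤ H) (hS : LowSet t0 H ψ S) (ht0 : t1 ≤ t0)
    (hgap : ∀ q ∈ S, ∀ r ∈ S, cls ψ q < cls ψ r → 10 ^ 7 * scale (cls ψ q) ≤ scale (cls ψ r))
    (hab : ∀ l, IsApprox γ (Real.exp (scale l / 2)) (ab l).1 (ab l).2)
    (hy1 : 0 < y1) (hy2 : 0 < y2) (hY : Y = 2 * max y1 y2) (hYhi : Y ≤ 4 * (1 + Real.log H) ^ 4)
    (hLn : ((S.image (cls ψ)).card : ℝ) ≤ n) :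
    pairSum (mu ψ) (fun q r => if cls ψ q < cls ψ r then
        bG η γ (ab (cls ψ q)).1 (ab (cls ψ q)).2 (ab (cls ψ r)).1 (ab (cls ψ r)).2 Y q r *
          clsI ψ y1 y2 q r else 0) S S
      ≤ max 1 (Y / 4) ^ η / Y *
          ∑ D ∈ (Icc 1 ⌊Real.exp (1 + Real.log H)⌋₊).filter (fun D : ℕ => Y ≤ 4 * (D : ℝ)),
            1 / (D.totient : ℝ) * pairSum (mu ψ) (fun q r => Ph (uu q r * vv q r) *
              (if cls ψ q < cls ψ r then EVb γ (ab (cls ψ q)).1 (ab (cls ψ q)).2 (ab (cls ψ r)).1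
                (ab (cls ψ r)).2 (scale (cls ψ q)) (scale (cls ψ r)) y1 y2 D q r else 0) *
                clsI ψ y1 y2 q r) S S
        + n ^ 2 * (C / lev H ^ 2 * midDel η y1 y2 *
            (msum (mu ψ) S + msum (mu ψ) S ^ 2)) := by
  classical
  set Ds := (Icc 1 ⌊Real.exp (1 + Real.log H)⌋₊).filter (fun D : ℕ => Y ≤ 4 * (D : ℝ))
  set N := msum (mu ψ) S + msum (mu ψ) S ^ 2
  set δ := midDel η y1 y2 with hδ
  have hδ0 : 0 ≤ δ := by rw [hδ]; unfold midDel; positivity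
  have hN : 0 ≤ N := by
    have : 0 ≤ msum (mu ψ) S := sum_nonneg fun q _ => mu_nonneg' hψ q
    positivity
  rw [levels_eq (mu ψ) (cls ψ) (fun j l q r => bG η γ (ab j).1 (ab j).2 (ab l).1 (ab l).2 Y q r *
    clsI ψ y1 y2 q r) S]
  have hrhs : ∀ D : ℕ, pairSum (mu ψ) (fun q r => Ph (uu q r * vv q r) *
      (if cls ψ q < cls ψ r then EVb γ (ab (cls ψ q)).1 (ab (cls ψ q)).2 (ab (cls ψ r)).1
        (ab (cls ψ r)).2 (scale (cls ψ q)) (scale (cls ψ r)) y1 y2 D q r else 0) *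
        clsI ψ y1 y2 q r) S S
      = ∑ l ∈ S.image (cls ψ), ∑ j ∈ (S.image (cls ψ)).filter (fun j => j < l),
        pairSum (mu ψ) (fun q r => Ph (uu q r * vv q r) *
          EVb γ (ab j).1 (ab j).2 (ab l).1 (ab l).2 (scale j) (scale l) y1 y2 D q r *
            clsI ψ y1 y2 q r)
          (S.filter (fun q => cls ψ q = j)) (S.filter (fun q => cls ψ q = l)) := fun D => by
    rw [← levels_eq (mu ψ) (cls ψ) (fun j l q r => Ph (uu q r * vv q r) *
      EVb γ (ab j).1 (ab j).2 (ab l).1 (ab l).2 (scale j) (scale l) y1 y2 D q r *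
        clsI ψ y1 y2 q r) S]
    simp only [mul_ite, ite_mul, mul_zero, zero_mul]
  simp only [hrhs, mul_sum]
  rw [sum_comm (s := Ds)]
  simp only [sum_comm (s := Ds)]
  calc ∑ l ∈ S.image (cls ψ), ∑ j ∈ (S.image (cls ψ)).filter (fun j => j < l), pairSum (mu ψ)
        (fun q r => bG η γ (ab j).1 (ab j).2 (ab l).1 (ab l).2 Y q r * clsI ψ y1 y2 q r)
        (S.filter (fun q => cls ψ q = j)) (S.filter (fun q => cls ψ q = l))
      ≤ ∑ l ∈ S.image (cls ψ), ∑ j ∈ (S.image (cls ψ)).filter (fun j => j < l),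
        (max 1 (Y / 4) ^ η / Y * ∑ D ∈ Ds, 1 / (D.totient : ℝ) * pairSum (mu ψ) (fun q r =>
          Ph (uu q r * vv q r) *
            EVb γ (ab j).1 (ab j).2 (ab l).1 (ab l).2 (scale j) (scale l) y1 y2 D q r *
            clsI ψ y1 y2 q r) (S.filter (fun q => cls ψ q = j)) (S.filter (fun q => cls ψ q = l))
          + C / lev H ^ 2 * δ * N) := by
        refine sum_le_sum fun l hl => sum_le_sum fun j hj => ?_
        obtain ⟨hjL, hjl⟩ := mem_filter.1 hj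
        obtain ⟨hLev, hx4, hs2, htj⟩ := hS.lev_pair hψ hH hgap hab hjL hl hjl
        refine (hside γ _ H _ _ ψ _ _ _ _ _ _ y1 y2 Y hLev hx4 hs2 (ht0.trans htj) hy1 hy2 hY
          hYhi).trans ?_
        exact add_le_add le_rfl (mul_le_mul_of_nonneg_left
          (om_le ψ hψ S _ _ (filter_subset _ _) (filter_subset _ _)) (by positivity))
    _ ≤ _ := by
        simp only [sum_add_distrib, mul_sum]
        refine add_le_add le_rfl ?_
        exact pairs_le _ (fun _ _ => C / lev H ^ 2 * δ * N) n _ hLn (by positivity) fun _ _ _ _ => le_rfl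

/-- The sum over the moduli of the union bounds. -/
lemma num_low (θ w : ℝ) (hθ0 : 0 < θ) (hθ1 : θ ≤ 1 / 2) (hw0 : 0 ≤ w) (hw : w ≤ θ / 8) :
    ∃ C : ℝ, 0 ≤ C ∧ ∀ (Ds : Finset ℕ) (F : ℕ → ℝ) (Z y1 y2 Y : ℝ), 0 ≤ Z → 0 < y1 → 0 < y2 →
      Y = 2 * max y1 y2 → (∀ D ∈ Ds, 0 < D ∧ Y ≤ 4 * (D : ℝ) ∧ 0 ≤ F D ∧
        F D ≤ Z * ((Y / D) ^ (5 * (θ * eps) * (1 - w)) *
          (((y1 * y2) ^ (1 / 2 - eps)) ^ (w + θ * (1 - w)) *
            ((y1 * y2) ^ (1 / 2 - θ * eps / 4)) ^ ((1 - θ) * (1 - w))))) →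
      max 1 (Y / 4) ^ (θ * eps / 4) / Y * ∑ D ∈ Ds, 1 / (D.totient : ℝ) * F D
        ≤ C * Z * midDel (θ * eps / 4) y1 y2 := by
  have heps : eps = 1 / 100000 := rfl
  set u := θ * eps with hu
  have hu0 : 0 < u := mul_pos hθ0 eps_pos
  obtain ⟨Ct, hCt, hinv⟩ := midInvTotient (u / 4) (by linarith)
  obtain ⟨Cm, hCm, hsum⟩ := midTailSum (u / 2) (by linarith)
  refine ⟨16 * (Ct * Cm), by positivity, fun Ds F Z y1 y2 Y hZ hy1 hy2 hY hF => ?_⟩
  have hY0 : 0 < Y := (midRatio y1 y2 Y hy1 hy2 hY).1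
  have hnum := lowNum θ w hθ0 hθ1 hw0 hw y1 y2 Y hy1 hy2 hY
  rw [← hu] at hnum
  set Pw := ((y1 * y2) ^ (1 / 2 - eps)) ^ (w + θ * (1 - w)) *
    ((y1 * y2) ^ (1 / 2 - u / 4)) ^ ((1 - θ) * (1 - w))
  have hPw0 : 0 ≤ Pw := by positivity
  set Y1 := max 1 (Y / 4) with hY1
  have hY11 : 1 ≤ Y1 := le_max_left _ _
  have hY10 : 0 < Y1 := by linarith
  have hDs : ∀ D ∈ Ds, Y1 ≤ (D : ℝ) := fun D hD =>
    max_le (Nat.one_le_cast.2 (hF D hD).1) (by linarith [(hF D hD).2.1])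
  set s0 := 5 * u * (1 - w) - 3 / 4 * u with hs0
  have hs00 : 0 ≤ s0 := by
    have : u * w ≤ u / 16 := by
      linarith [mul_le_mul_of_nonneg_left (show w ≤ 1 / 16 by linarith) hu0.le]
    linarith
  calc Y1 ^ (u / 4) / Y * ∑ D ∈ Ds, 1 / (D.totient : ℝ) * F D
      ≤ Y1 ^ (u / 4) / Y * ∑ D ∈ Ds,
          Ct * Z * (Y ^ (5 * u * (1 - w)) * Pw) * Y1 ^ (-s0) * (D : ℝ) ^ (-1 - u / 2) := by
        refine mul_le_mul_of_nonneg_left (sum_le_sum fun D hD => ?_) (by positivity)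
        obtain ⟨hD0, hYD, hF0, hFD⟩ := hF D hD
        have hDR : (0 : ℝ) < D := Nat.cast_pos.2 hD0
        refine (mul_le_mul (hinv D hD0) hFD hF0 (by positivity)).trans ?_
        rw [Real.div_rpow hY0.le hDR.le]
        have e : (D : ℝ) ^ (u / 4 - 1) / (D : ℝ) ^ (5 * u * (1 - w))
            = (D : ℝ) ^ (-s0) * (D : ℝ) ^ (-1 - u / 2) := by
          rw [← Real.rpow_sub hDR, ← Real.rpow_add hDR, hs0]; ring_nf
        calc Ct * (D : ℝ) ^ (u / 4 - 1) *
              (Z * (Y ^ (5 * u * (1 - w)) / (D : ℝ) ^ (5 * u * (1 - w)) * Pw))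
            = Ct * Z * (Y ^ (5 * u * (1 - w)) * Pw) *
                ((D : ℝ) ^ (u / 4 - 1) / (D : ℝ) ^ (5 * u * (1 - w))) := by ring
          _ ≤ _ := by
              rw [e, mul_assoc _ (Y1 ^ (-s0))]
              exact mul_le_mul_of_nonneg_left (mul_le_mul_of_nonneg_right
                (Real.rpow_le_rpow_of_nonpos hY10 (hDs D hD) (by linarith)) (by positivity))
                (by positivity)
    _ ≤ Y1 ^ (u / 4) / Y * (Ct * Z * (Y ^ (5 * u * (1 - w)) * Pw) * Y1 ^ (-s0) *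
          (Cm * Y1 ^ (-(u / 2 / 2)))) := by
        rw [← mul_sum]
        exact mul_le_mul_of_nonneg_left (mul_le_mul_of_nonneg_left (hsum Ds Y1 hY11 hDs)
          (by positivity)) (by positivity)
    _ = Ct * Cm * Z * (Y1 ^ (u / 4 + -s0 + -(u / 2 / 2)) / Y * (Y ^ (5 * u * (1 - w)) * Pw)) := by
        rw [Real.rpow_add hY10, Real.rpow_add hY10]; ring
    _ ≤ Ct * Cm * Z * (16 * midDel (u / 4) y1 y2) := by
        refine mul_le_mul_of_nonneg_left ?_ (by positivity)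
        rw [show u / 4 + -s0 + -(u / 2 / 2) = 3 / 4 * u - 5 * u * (1 - w) by rw [hs0]; ring]
        exact hnum
    _ = _ := by ring

/-- One class over all low levels. -/
lemma class_low (θ : ℝ) (hθ0 : 0 < θ) (hθ1 : θ ≤ 1 / 2) :
    ∃ C t1 : ℝ, 0 ≤ C ∧ ∀ (γ H : ℝ) (ψ : ℕ → ℝ) (S : Finset ℕ) (ab : ℕ → ℤ × ℕ) (y1 y2 Y : ℝ),
      (∀ q, 0 ≤ ψ q) → 3 ≤ H → LowSet t1 H ψ S →
      (∀ q ∈ S, ∀ r ∈ S, cls ψ q < cls ψ r → 10 ^ 7 * scale (cls ψ q) ≤ scale (cls ψ r)) →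
      (∀ l, IsApprox γ (Real.exp (scale l / 2)) (ab l).1 (ab l).2) →
      0 < y1 → 0 < y2 → Y = 2 * max y1 y2 → Y ≤ 4 * (1 + Real.log H) ^ 4 →
      pairSum (mu ψ) (fun q r => if cls ψ q < cls ψ r then
          bG (θ * eps / 4) γ (ab (cls ψ q)).1 (ab (cls ψ q)).2 (ab (cls ψ r)).1 (ab (cls ψ r)).2 Y q r *
            clsI ψ y1 y2 q r else 0) S S
        ≤ C * midDel (θ * eps / 4) y1 y2 *
            (lev H ^ (2 * θ) * (msum (mu ψ) S + msum (mu ψ) S ^ (7 / 4 : ℝ)) +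
              (msum (mu ψ) S + msum (mu ψ) S ^ 2)) := by
  have heps : eps = 1 / 100000 := rfl
  have hu0 : 0 < θ * eps := mul_pos hθ0 eps_pos
  have hue : θ * eps ≤ eps / 2 := by linarith [mul_le_mul_of_nonneg_right hθ1 eps_pos.le]
  obtain ⟨w, K, te, hw0, hwθ, hK, hunion⟩ := union_low θ hθ0 hθ1
  obtain ⟨Cs, hCs, hnum⟩ := num_low θ w hθ0 hθ1 hw0 hwθ
  obtain ⟨Cn, hCn, hcard⟩ := level_card
  obtain ⟨Cd, ts, hCd, hside⟩ := side_low (θ * eps / 4) (θ * eps / 4) (by linarith) (by linarith)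
    (by linarith) (by linarith)
  refine ⟨Cs * 4 * K * Cn ^ (2 * θ) + Cd * Cn ^ 2, max te ts, by positivity, ?_⟩
  intro γ H ψ S ab y1 y2 Y hψ hH hS hgap hab hy1 hy2 hY hYhi
  have hμ := mu_nonneg' hψ
  set M := msum (mu ψ) S with hM
  have hM0 : 0 ≤ M := sum_nonneg fun q _ => hμ q
  have hx1 : 1 ≤ lev H := by
    unfold lev
    linarith [Real.log_nonneg (show 1 ≤ 1 + Real.log H by linarith [P028M.log_one hH])]
  have hδ : 0 ≤ midDel (θ * eps / 4) y1 y2 := by unfold midDel; positivity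
  rcases S.eq_empty_or_nonempty with he | ⟨q1, hq1⟩
  · subst he
    refine le_trans (le_of_eq (show pairSum _ _ ∅ ∅ = 0 by unfold pairSum; rw [sum_empty])) ?_
    positivity
  have hmu : 0 < mu ψ q1 := mul_pos
    (div_pos (by exact_mod_cast Nat.totient_pos.2 (hS q1 hq1).1) (by exact_mod_cast (hS q1 hq1).1))
    (hS q1 hq1).2.1
  have hMp : 0 < M := hmu.trans_le (single_le_sum (fun q _ => hμ q) hq1)
  have hn : 1 ≤ Cn * lev H := one_le_mul_of_one_le_of_one_le hCn hx1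
  have hLn := LowSet.card_le hcard hH hS
  have hS1 : LowSet te H ψ S := fun q hq => by
    obtain ⟨a1, a2, a3, a4, a5, a6, a7, a8⟩ := hS q hq
    exact ⟨a1, a2, a3, a4, a5, a6, a7, (le_max_left _ _).trans a8⟩
  refine (split_low (θ * eps / 4) hCd hside γ H ψ S ab y1 y2 Y (Cn * lev H) hψ hH hS
    (le_max_right _ _) hgap hab hy1 hy2 hY hYhi hLn).trans ?_
  refine (add_le_add (hnum _ _ (4 * K * (Cn * lev H) ^ (2 * θ) * (M + M ^ (7 / 4 : ℝ))) y1 y2 Y (by positivity)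
    hy1 hy2 hY fun D hD => ?_) le_rfl).trans ?_
  · obtain ⟨h1, h2⟩ := mem_filter.1 hD
    refine ⟨(mem_Icc.1 h1).1, h2, pairSum_nonneg hμ (fun q r => mul_nonneg (mul_nonneg (Ph_nonneg _)
      (by split_ifs <;> first | exact (EVb_mem ..).1 | exact le_rfl)) (cls_mem ψ y1 y2 q r).1) S S, ?_⟩
    refine (hunion γ H ψ S ab y1 y2 Y _ D hψ hH hS1 hgap hab hy1 hy2 hY hn hLn hMp
      (mem_Icc.1 h1).1).trans (le_of_eq ?_)
    ring
  rw [Real.mul_rpow (by linarith : (0:ℝ) ≤ Cn) (by linarith : 0 ≤ lev H)]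
  have hx2 : 0 ≤ lev H ^ (2 * θ) := by positivity
  set D := midDel (θ * eps / 4) y1 y2
  set N7 := M + M ^ (7 / 4 : ℝ)
  have hN7 : 0 ≤ N7 := by positivity
  calc Cs * (4 * K * (Cn ^ (2 * θ) * lev H ^ (2 * θ)) * N7) * D
        + (Cn * lev H) ^ 2 * (Cd / lev H ^ 2 * D * (M + M ^ 2))
      = Cs * 4 * K * Cn ^ (2 * θ) * D * (lev H ^ (2 * θ) * N7) + Cd * Cn ^ 2 * D * (M + M ^ 2) := by
        field_simp
    _ ≤ (Cs * 4 * K * Cn ^ (2 * θ) + Cd * Cn ^ 2) * D * (lev H ^ (2 * θ) * N7) +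
          (Cs * 4 * K * Cn ^ (2 * θ) + Cd * Cn ^ 2) * D * (M + M ^ 2) := by
        gcongr
        · exact le_add_of_nonneg_right (by positivity)
        · exact le_add_of_nonneg_left (by positivity)
    _ = _ := by ring

/-- The coincidences off the common resonance between the low levels of a slice. -/
theorem cross_low (δ : ℝ) (hδ : 0 < δ) : ∃ C t0 : ℝ, 0 ≤ C ∧
  ∀ (γ : ℝ) (ψ : ℕ → ℝ) (S : Finset ℕ) (H : ℝ) (ab : ℕ → ℤ × ℕ), (∀ q, 0 ≤ ψ q) → 3 ≤ H →
    LowSet t0 H ψ S →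
    (∀ q ∈ S, ∀ r ∈ S, cls ψ q < cls ψ r → 10 ^ 7 * scale (cls ψ q) ≤ scale (cls ψ r)) →
    (∀ l, IsApprox γ (Real.exp (scale l / 2)) (ab l).1 (ab l).2) →
    pairSum (mu ψ) (fun q r => if cls ψ q < cls ψ r then
        restK γ ψ (ab (cls ψ q)).1 (ab (cls ψ q)).2 (ab (cls ψ r)).1 (ab (cls ψ r)).2 q r else 0) S S
      ≤ C * (lev H ^ δ * (msum (mu ψ) S + msum (mu ψ) S ^ (7 / 4 : ℝ)) +
          (msum (mu ψ) S + msum (mu ψ) S ^ 2)) := by
  classical
  have heps : eps = 1 / 100000 := rfl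
  set θ := min (δ / 2) (1 / 2) with hθ
  have hθ0 : 0 < θ := lt_min (by linarith) (by norm_num)
  have hθ1 : θ ≤ 1 / 2 := min_le_right _ _
  set u := θ * eps with hu
  have hu0 : 0 < u := mul_pos hθ0 eps_pos
  have hue : u ≤ eps / 2 := by
    rw [hu]; linarith [mul_le_mul_of_nonneg_right hθ1 eps_pos.le]
  obtain ⟨Ck, hCk, hker⟩ := restK_gen (u / 4) (by linarith) (by linarith)
  obtain ⟨Ce, hCe, hexc⟩ := exc_sum
  obtain ⟨Cl, t1, hCl, hclass⟩ := class_low θ hθ0 hθ1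
  obtain ⟨Cg, hCg, hgeom⟩ := midDel_sum (u / 4) (by linarith) (by linarith)
  refine ⟨Ck * (Ce + Cl * Cg), t1, by positivity, ?_⟩
  intro γ ψ S H ab hψ hH hS hgap hab
  have hμ := mu_nonneg' hψ
  set M := msum (mu ψ) S with hM
  have hM0 : 0 ≤ M := sum_nonneg fun q _ => hμ q
  have hx1 : 1 ≤ lev H := by
    unfold lev
    linarith [Real.log_nonneg (show 1 ≤ 1 + Real.log H by linarith [P028M.log_one hH])]
  set L := ((S ×ˢ S).filter (fun z => etaP ψ z.1 z.2 ≤ (1 + Real.log H) ^ 4)).image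
    (fun z => (midIdx ((vv z.1 z.2 : ℝ) * ψ z.1), midIdx ((uu z.1 z.2 : ℝ) * ψ z.2))) with hL
  set T := fun (i : ℤ × ℤ) q r => if cls ψ q < cls ψ r then
    bG (u / 4) γ (ab (cls ψ q)).1 (ab (cls ψ q)).2 (ab (cls ψ r)).1 (ab (cls ψ r)).2
        (2 * max ((2 : ℝ) ^ (i.1 : ℝ)) ((2 : ℝ) ^ (i.2 : ℝ))) q r *
      clsI ψ ((2 : ℝ) ^ (i.1 : ℝ)) ((2 : ℝ) ^ (i.2 : ℝ)) q r else 0 with hT
  have hT0 : ∀ i q r, 0 ≤ T i q r := fun i q r => by
    simp only [hT]
    split_ifs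
    · exact mul_nonneg (mul_nonneg (by positivity) (mul_nonneg (Ph_nonneg _)
        (sum_nonneg fun D _ => div_nonneg (EV2i_mem ..).1 (Nat.cast_nonneg _))))
        (cls_mem ψ _ _ q r).1
    · exact le_rfl
  have hin : ∀ q ∈ S, ∀ r ∈ S, InCls ψ ((2 : ℝ) ^ (midIdx ((vv q r : ℝ) * ψ q) : ℝ))
      ((2 : ℝ) ^ (midIdx ((uu q r : ℝ) * ψ r) : ℝ)) q r := fun q hq r hr =>
    ⟨midIdx_spec _ (mul_pos (Nat.cast_pos.2 (vv_pos q r (hS r hr).1)) (hS q hq).2.1),
      midIdx_spec _ (mul_pos (Nat.cast_pos.2 (uu_pos q r (hS q hq).1)) (hS r hr).2.1)⟩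
  have hpt : ∀ q ∈ S, ∀ r ∈ S, (if cls ψ q < cls ψ r then
      restK γ ψ (ab (cls ψ q)).1 (ab (cls ψ q)).2 (ab (cls ψ r)).1 (ab (cls ψ r)).2 q r else 0)
      ≤ Ck * ((1 + exK (Yown ψ q r) (uu q r * vv q r)) + ∑ i ∈ L, T i q r) := by
    intro q hq r hr
    have hex : 0 ≤ exK (Yown ψ q r) (uu q r * vv q r) := by unfold exK; positivity
    have hsum : 0 ≤ ∑ i ∈ L, T i q r := sum_nonneg fun i _ => hT0 i q r
    split_ifs with h
    · obtain ⟨hq0, hψq, -, hlq, -⟩ := hS q hq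
      obtain ⟨hr0, hψr, -, hlr, -⟩ := hS r hr
      obtain ⟨h1, h2⟩ := midCls ψ hψ _ _ q r (hin q hq r hr)
      refine (hker γ ψ _ _ _ _ q r H (Yown ψ q r) hq0 hr0 (etaP_pos hq0 hr0 hψq hψr) h1 h2 hH hlq
        hlr).trans (mul_le_mul_of_nonneg_left (add_le_add le_rfl ?_) hCk)
      split_ifs with hb
      · refine le_trans (le_of_eq ?_) (single_le_sum (fun i _ => hT0 i q r)
          (mem_image.2 ⟨(q, r), mem_filter.2 ⟨mem_product.2 ⟨hq, hr⟩, hb⟩, rfl⟩))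
        simp only [hT, Yown, bG, if_pos h, clsI, if_pos (hin q hq r hr), mul_one]
        all_goals rfl
      · exact hsum
    · positivity
  refine (pairSum_mono hμ hpt).trans ?_
  rw [midPairSum_smul, pairSum_add, midPairSum_sum, mul_assoc]
  refine mul_le_mul_of_nonneg_left ?_ hCk
  set W := lev H ^ δ * (M + M ^ (7 / 4 : ℝ)) + (M + M ^ 2) with hW
  calc pairSum (mu ψ) (fun q r => 1 + exK (Yown ψ q r) (uu q r * vv q r)) S S
        + ∑ i ∈ L, pairSum (mu ψ) (T i) S S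
      ≤ Ce * (M + M ^ 2) + ∑ i ∈ L, Cl * W *
          midDel (u / 4) ((2 : ℝ) ^ (i.1 : ℝ)) ((2 : ℝ) ^ (i.2 : ℝ)) := by
        refine add_le_add (hexc ψ S hψ fun q hq => ⟨(hS q hq).1, (hS q hq).2.1⟩)
          (sum_le_sum fun i hi => ?_)
        obtain ⟨⟨q, r⟩, hz, rfl⟩ := mem_image.1 hi
        obtain ⟨hqr, hη⟩ := mem_filter.1 hz
        obtain ⟨hq, hr⟩ := mem_product.1 hqr
        obtain ⟨-, hY4⟩ := midCls ψ hψ _ _ q r (hin q hq r hr)
        refine (hclass γ H ψ S ab _ _ _ hψ hH hS hgap hab (by positivity) (by positivity) rfl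
          (by linarith)).trans ?_
        rw [mul_right_comm Cl W, ← hu]
        refine mul_le_mul_of_nonneg_left ?_ (mul_nonneg hCl (by unfold midDel; positivity))
        rw [hW]
        gcongr
        linarith [min_le_left (δ / 2) (1 / 2 : ℝ)]
    _ ≤ Ce * W + Cl * W * Cg := by
        refine add_le_add (mul_le_mul_of_nonneg_left (le_add_of_nonneg_left (by positivity)) hCe) ?_
        rw [← mul_sum]
        refine mul_le_mul_of_nonneg_left ?_ (by positivity)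
        simpa using hgeom L 0
    _ = _ := by ring

end Vale.Agent.P028G
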