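import Vale.Agent.P028G.Cross
import Vale.Agent.P028U.Cell
import Vale.Agent.P028A.Pos
import Vale.Agent.P028.Main

/-! P028G module MAIN: Q1 for every shift when the divergence is carried by `ψ q ≤ (log q) ^ (-θ)`, whatever the
levels of `ψ`. Every level excludes its own approximation of the shift. -/

namespace Vale.Agent.P028G

open Finset MeasureTheory Filter Topology
open Vale.Agent.P028
open Vale.Agent.P028.MainAux (cls scale cls_spec exists_block exists_residue sq_integral exists_approx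
  one_le_scale pairs_bound)
open Vale.Agent.P028L (restK zeroK approx_geo overlap_split zero_pairs W2_nonneg etaP_pos)
open Vale.Agent.P028X (mu_nonneg_X slice slice_spec slice_far)

/-- The denominators of the approximations of well separated levels grow geometrically. -/
lemma levels_geo (γ : ℝ) (ψ : ℕ → ℝ) (S : Finset ℕ) (ab : ℕ → ℤ × ℕ)
    (hab : ∀ l, IsApprox γ (Real.exp (scale l / 2)) (ab l).1 (ab l).2)
    (hgap : ∀ q ∈ S, ∀ r ∈ S, cls ψ q < cls ψ r → 10 ^ 7 * scale (cls ψ q) ≤ scale (cls ψ r)) :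
    ∀ a ∈ S.image (fun q => (ab (cls ψ q)).2), ∀ b ∈ S.image (fun q => (ab (cls ψ q)).2),
      ∀ c ∈ S.image (fun q => (ab (cls ψ q)).2), a < b → b < c → 2 * a ≤ c := by
  intro a ha b hb c hc hlt hlt'
  set Bd := fun q => (ab (cls ψ q)).2 with hBd
  obtain ⟨qa, hqa, ea⟩ := mem_image.1 ha
  obtain ⟨qb, hqb, eb⟩ := mem_image.1 hb
  obtain ⟨qc, hqc, ec⟩ := mem_image.1 hc
  have key : ∀ i ∈ S, ∀ j ∈ S, ∀ l ∈ S, cls ψ i < cls ψ j → cls ψ j < cls ψ l →
      Bd j ≠ Bd l → 2 * Bd i ≤ Bd l := by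
    intro i hi j hj l hl h1 h2 hne
    have g1 := hgap i hi j hj h1
    have g2 := hgap j hj l hl h2
    have s0 := one_le_scale (cls ψ i)
    have s1 := one_le_scale (cls ψ j)
    have h := approx_geo (hab (cls ψ j)) (hab (cls ψ l)) hne (by linarith)
    have hbi := (hab (cls ψ i)).2.1
    have h4 : 4 * Real.exp (scale (cls ψ i) / 2) ≤ Real.exp (scale (cls ψ j) / 2) := by
      refine le_trans ?_ (Real.exp_le_exp.2
        (show scale (cls ψ i) / 2 + 3 ≤ scale (cls ψ j) / 2 by linarith))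
      rw [Real.exp_add, mul_comm]
      exact mul_le_mul_of_nonneg_left (by linarith [Real.add_one_le_exp (3 : ℝ)]) (Real.exp_pos _).le
    have : 2 * (Bd i : ℝ) ≤ Bd l := by simp only [hBd]; linarith
    exact_mod_cast this
  have hne : ∀ i j, Bd i ≠ Bd j → cls ψ i ≠ cls ψ j := fun i j h e => h (by simp only [hBd, e])
  have n1 := hne qa qb (by rw [ea, eb]; omega)
  have n2 := hne qa qc (by rw [ea, ec]; omega)
  have n3 := hne qb qc (by rw [eb, ec]; omega)
  rcases lt_or_gt_of_ne n1 with h1 | h1 <;> rcases lt_or_gt_of_ne n2 with h2 | h2 <;>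
    rcases lt_or_gt_of_ne n3 with h3 | h3
  all_goals first
    | omega
    | (have := key qa hqa qb hqb qc hqc (by omega) (by omega) (by omega); omega)
    | (have := key qa hqa qc hqc qb hqb (by omega) (by omega) (by omega); omega)
    | (have := key qb hqb qa hqa qc hqc (by omega) (by omega) (by omega); omega)
    | (have := key qb hqb qc hqc qa hqa (by omega) (by omega) (by omega); omega)
    | (have := key qc hqc qa hqa qb hqb (by omega) (by omega) (by omega); omega)
    | (have := key qc hqc qb hqb qa hqa (by omega) (by omega) (by omega); omega)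

/-- The second moment of the levels above `a log H` of one slice `log q ≤ H`, for every shift. -/
theorem slice_moment (a : ℝ) (ha : 0 < a) : ∃ C t0 : ℝ, 0 ≤ C ∧
    ∀ (γ : ℝ) (ψ : ℕ → ℝ) (S : Finset ℕ) (H : ℝ) (ab : ℕ → ℤ × ℕ), (∀ q, 0 ≤ ψ q) → 3 ≤ H →
      (∀ q ∈ S, 0 < q ∧ 0 < ψ q ∧ 1 ≤ -Real.log (ψ q) ∧ Real.log q ≤ H ∧
        -Real.log (ψ q) ≤ 2 * H ∧ a * Real.log H ≤ scale (cls ψ q) ∧ t0 ≤ scale (cls ψ q)) →
      (∀ q ∈ S, ∀ r ∈ S, cls ψ q < cls ψ r → 10 ^ 7 * scale (cls ψ q) ≤ scale (cls ψ r)) →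
      (∀ l, IsApprox γ (Real.exp (scale l / 2)) (ab l).1 (ab l).2) →
      ∫ x in Set.Ico (0 : ℝ) 1, (∑ q ∈ S, fq γ ψ (ab (cls ψ q)).1 (ab (cls ψ q)).2 q x) ^ 2
        ≤ C * (msum (mu ψ) S + msum (mu ψ) S ^ 2) := by
  classical
  obtain ⟨C1, t1, hcell⟩ := P028U.cell_boundU
  obtain ⟨Cr, t2, hCr, hrest⟩ := cross_off a ha
  obtain ⟨Cz, hCz, hzero⟩ := zero_pairs
  refine ⟨max C1 0 + 8 * Cz + 8 * Cr, max t1 t2, by positivity, ?_⟩
  intro γ ψ S H ab hψ hH hS hgap hab
  have hμ := mu_nonneg' hψ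
  set M := msum (mu ψ) S with hM
  have hM0 : 0 ≤ M := sum_nonneg fun q _ => hμ q
  have hhalf : ∀ q ∈ S, 0 < q ∧ 0 < ψ q ∧ ψ q ≤ 1 / 2 := fun q hq => by
    obtain ⟨h1, h2, h3, -⟩ := hS q hq
    refine ⟨h1, h2, ((Real.log_le_iff_le_exp h2).1
      (show Real.log (ψ q) ≤ -1 by linarith)).trans ?_⟩
    rw [Real.exp_neg, one_div]
    exact inv_anti₀ two_pos (by linarith [Real.add_one_le_exp (1 : ℝ)])
  set I := fun q r => ∫ x in Set.Ico (0 : ℝ) 1, fq γ ψ (ab (cls ψ q)).1 (ab (cls ψ q)).2 q x *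
    fq γ ψ (ab (cls ψ r)).1 (ab (cls ψ r)).2 r x with hI
  set E := fun q r => if cls ψ q = cls ψ r then I q r else 0 with hE
  set Z := fun q r => zeroK ψ (ab (cls ψ q)).2 (ab (cls ψ r)).2 q r with hZ
  set R := fun q r => if cls ψ q < cls ψ r then
    restK γ ψ (ab (cls ψ q)).1 (ab (cls ψ q)).2 (ab (cls ψ r)).1 (ab (cls ψ r)).2 q r else 0 with hR
  have hη0 : ∀ q r, 0 ≤ etaP ψ q r := fun q r => by
    have h1 := hψ q
    have h2 := hψ r
    unfold etaP
    positivity
  have hZ0 : ∀ q r, 0 ≤ Z q r := fun q r => by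
    simp only [hZ, zeroK]
    split_ifs
    · exact div_nonneg (mul_nonneg (Ph_nonneg _) (Ph_nonneg _)) (hη0 q r)
    · exact le_rfl
  have hR0 : ∀ q r, 0 ≤ R q r := fun q r => by
    simp only [hR]
    split_ifs
    · exact div_nonneg (sum_nonneg fun n _ => W2_nonneg ..) (hη0 q r)
    · exact le_rfl
  have hover : ∀ q ∈ S, ∀ r ∈ S, cls ψ q < cls ψ r →
      I q r ≤ 4 * (mu ψ q * mu ψ r * (Z q r + R q r)) := fun q hq r hr hlt => by
    have := overlap_split γ ψ (ab (cls ψ q)).1 (ab (cls ψ r)).1 (ab (cls ψ q)).2 (ab (cls ψ r)).2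
      q r (hab _).2.2.1 (hab _).2.2.1 (hab _).1 (hab _).1 (hhalf q hq).1 (hhalf r hr).1
      (hhalf q hq).2.1 (hhalf q hq).2.2 (hhalf r hr).2.1 (hhalf r hr).2.2
    simp only [hI, hZ, hR, if_pos hlt]
    linarith
  have hpair : ∀ q ∈ S, ∀ r ∈ S, I q r
      ≤ E q r + 4 * (mu ψ q * mu ψ r * (Z q r + Z r q + R q r + R r q)) := by
    intro q hq r hr
    have hp := mul_nonneg (hμ q) (hμ r)
    rcases lt_trichotomy (cls ψ q) (cls ψ r) with h | h | h
    · have := hover q hq r hr h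
      simp only [hE, if_neg h.ne]
      linarith [mul_nonneg hp (hZ0 r q), mul_nonneg hp (hR0 r q)]
    · simp only [hE, if_pos h]
      linarith [mul_nonneg hp (add_nonneg (add_nonneg (add_nonneg (hZ0 q r) (hZ0 r q)) (hR0 q r))
        (hR0 r q))]
    · have e : I q r = I r q := by simp only [hI, mul_comm]
      have := hover r hr q hq h
      simp only [hE, if_neg h.ne']
      rw [e]
      linarith [mul_nonneg hp (hZ0 q r), mul_nonneg hp (hR0 q r)]
  have bE : ∑ q ∈ S, ∑ r ∈ S, E q r ≤ max C1 0 * (M + M ^ 2) := by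
    set cell := fun j => S.filter (fun q => cls ψ q = j) with hcd
    have hmaps : ∀ q ∈ S, cls ψ q ∈ S.image (cls ψ) := fun q hq => mem_image_of_mem _ hq
    have hMsum : ∑ j ∈ S.image (cls ψ), msum (mu ψ) (cell j) = M :=
      sum_fiberwise_of_maps_to hmaps _
    rw [← sum_fiberwise_of_maps_to hmaps]
    calc ∑ j ∈ S.image (cls ψ), ∑ q ∈ cell j, ∑ r ∈ S, E q r
        ≤ ∑ j ∈ S.image (cls ψ), max C1 0 * (msum (mu ψ) (cell j) + msum (mu ψ) (cell j) * M) := by
          refine sum_le_sum fun j hj => ?_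
          obtain ⟨q', hq', rfl⟩ := mem_image.1 hj
          have hc : IsCell zeta0 (∑ q ∈ cell (cls ψ q'), Real.log q) (scale (cls ψ q'))
              (cell (cls ψ q')) ψ := by
            intro q hq
            obtain ⟨hqS, hqm⟩ := mem_filter.1 hq
            obtain ⟨h1, h2, h3, -⟩ := hS q hqS
            obtain ⟨s1, s2⟩ := cls_spec ψ q h3
            rw [hqm] at s1 s2
            refine ⟨h1, ?_, ?_, ?_⟩
            · rw [← Real.le_log_iff_exp_le h2]; linarith
            · rw [← Real.log_le_iff_le_exp h2]; linarith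
            · exact (single_le_sum (fun q _ => Real.log_natCast_nonneg q) hq).trans
                (le_mul_of_one_le_right (sum_nonneg fun q _ => Real.log_natCast_nonneg q)
                  (one_le_scale _))
          have h := hcell _ γ ψ _ _ (ab (cls ψ q')).1 (ab (cls ψ q')).2
            ((le_max_left _ _).trans (hS q' hq').2.2.2.2.2.2) hψ hc (hab _)
          rw [sq_integral γ ψ (fun _ => ab (cls ψ q'))] at h
          have hsub : msum (mu ψ) (cell (cls ψ q')) ≤ M :=
            sum_le_sum_of_subset_of_nonneg (filter_subset _ _) fun q _ _ => hμ q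
          have h0 : 0 ≤ msum (mu ψ) (cell (cls ψ q')) := sum_nonneg fun q _ => hμ q
          have hE1 : ∑ q ∈ cell (cls ψ q'), ∑ r ∈ S, E q r
              = ∑ q ∈ cell (cls ψ q'), ∑ r ∈ cell (cls ψ q'), ∫ x in Set.Ico (0 : ℝ) 1,
                  fq γ ψ (ab (cls ψ q')).1 (ab (cls ψ q')).2 q x *
                  fq γ ψ (ab (cls ψ q')).1 (ab (cls ψ q')).2 r x := by
            refine sum_congr rfl fun q hq => ?_
            simp only [hcd, sum_filter]
            refine sum_congr rfl fun r _ => ?_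
            simp only [hE, hI, (mem_filter.1 hq).2]
            by_cases he : cls ψ r = cls ψ q'
            · rw [if_pos he, if_pos he.symm, he]
            · rw [if_neg he, if_neg (Ne.symm he)]
          rw [hE1]
          refine h.trans ((mul_le_mul_of_nonneg_right (le_max_left C1 0) (by positivity)).trans ?_)
          rw [sq]
          gcongr
      _ = _ := by rw [← mul_sum, sum_add_distrib, ← sum_mul, hMsum, sq]
  have bZ : pairSum (mu ψ) Z S S ≤ Cz * M :=
    hzero ψ S (fun q => (ab (cls ψ q)).2) hψ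
      (fun q hq => ⟨(hS q hq).1, (hS q hq).2.1, (hab _).1⟩) (levels_geo γ ψ S ab hab hgap)
  have bR : pairSum (mu ψ) R S S ≤ Cr * (M + M ^ 2) :=
    hrest γ ψ S H ab hψ hH (fun q hq => by
      obtain ⟨h1, h2, h3, h4, h5, h6, h7⟩ := hS q hq
      exact ⟨h1, h2, h3, h4, h5, h6, (le_max_right _ _).trans h7⟩) hgap hab
  rw [sq_integral γ ψ (fun q => ab (cls ψ q)) S]
  calc ∑ q ∈ S, ∑ r ∈ S, I q r
      ≤ ∑ q ∈ S, ∑ r ∈ S, (E q r + 4 * (mu ψ q * mu ψ r * (Z q r + Z r q + R q r + R r q))) :=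
        sum_le_sum fun q hq => sum_le_sum fun r hr => hpair q hq r hr
    _ = ∑ q ∈ S, ∑ r ∈ S, E q r + 4 * (pairSum (mu ψ) Z S S + pairSum (mu ψ) Z S S
          + pairSum (mu ψ) R S S + pairSum (mu ψ) R S S) := by
        have e : pairSum (mu ψ) (fun q r => Z q r + Z r q + R q r + R r q) S S
            = pairSum (mu ψ) Z S S + pairSum (mu ψ) Z S S + pairSum (mu ψ) R S S
              + pairSum (mu ψ) R S S := by
          rw [pairSum_add, pairSum_add, pairSum_add, pairSum_swap (mu ψ) Z S,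
            pairSum_swap (mu ψ) R S]
        rw [← e]
        simp only [pairSum, sum_add_distrib, mul_sum]
    _ ≤ _ := by
        have : Cz * M ≤ Cz * (M + M ^ 2) :=
          mul_le_mul_of_nonneg_left (le_add_of_nonneg_right (sq_nonneg M)) hCz
        linarith

/-- Blocks of total weight at least `k + 1` beyond `k` whose second moment is quadratic give full measure. -/
theorem full_of_moments (γ : ℝ) (ψ : ℕ → ℝ) (hψ : ∀ q, 0 ≤ ψ q) (AB : ℕ → ℤ × ℕ)
    (hAB : ∀ q, IsCoprime (AB q).1 ((AB q).2 : ℤ)) (T : ℕ → Finset ℕ) (Tot : ℝ)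
    (hT : ∀ k, ∀ q ∈ T k, k ≤ q ∧ 0 < q ∧ ψ q ≤ 1 / 2)
    (hM : ∀ k : ℕ, (k : ℝ) + 1 ≤ ∑ q ∈ T k, mu ψ q)
    (hsq : ∀ k, ∫ x in Set.Ico (0 : ℝ) 1, (∑ q ∈ T k, fq γ ψ (AB q).1 (AB q).2 q x) ^ 2
      ≤ Tot * (∑ q ∈ T k, mu ψ q) ^ 2) :
    ∀ᵐ x : ℝ, {q : ℕ | 0 < q ∧ distInt ((q : ℝ) * x - γ) < ψ q}.Infinite := by
  classical
  obtain ⟨C3, hfirst⟩ := integral_fq_interval
  obtain ⟨C4, hdivb⟩ := card_divisors_le (1 / 4) (by norm_num)
  have hμ0 : ∀ q, 0 ≤ mu ψ q := mu_nonneg_X hψ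
  set f : ℕ → ℝ → ℝ := fun q => fq γ ψ (AB q).1 (AB q).2 q with hf
  have hfn : ∀ q x, 0 ≤ f q x := fun q x => fq_nonneg γ ψ _ _ q x
  have hfm : ∀ q, Measurable (f q) := fun q => fq_measurable γ ψ _ _ q
  set M : ℕ → ℝ := fun k => ∑ q ∈ T k, mu ψ q with hMdef
  have hMpos : ∀ k, 0 < M k := fun k => lt_of_lt_of_le (by positivity) (hM k)
  set F : ℕ → ℝ → ℝ := fun k x => (∑ q ∈ T k, f q x) / (2 * M k) with hF
  refine full_measure_of_blocks γ ψ F (Tot / 4)
    (fun k => (Finset.measurable_sum _ fun q _ => hfm q).div_const _)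
    (fun k x => div_nonneg (sum_nonneg fun q _ => hfn q x) (by linarith [hMpos k]))
    (fun k => ⟨((T k).card : ℝ) / (2 * M k), fun x => ?_⟩) ?_ ?_ ?_
  · refine div_le_div_of_nonneg_right ?_ (by linarith [hMpos k])
    calc ∑ q ∈ T k, f q x ≤ ∑ q ∈ T k, (1 : ℝ) := sum_le_sum fun q _ => fq_le_one γ ψ _ _ q x
      _ = ((T k).card : ℝ) := by simp
  · intro k x hne
    obtain ⟨q, hq, hq'⟩ := exists_ne_zero_of_sum_ne_zero (left_ne_zero_of_mul hne)
    exact ⟨q, (hT k q hq).1, (hT k q hq).2.1, fq_ne_zero γ ψ _ _ q x hq'⟩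
  · intro k
    have hpos' := hMpos k
    simp only [hF, div_pow]
    rw [integral_div, div_le_iff₀ (by positivity)]
    exact (hsq k).trans_eq (by simp only [hMdef]; ring)
  intro a b ha hab hb
  rw [← tendsto_sub_nhds_zero_iff]
  set C5 := max C3 0 * max C4 0 ^ 2 * 2 with hC5
  refine squeeze_zero_norm (a := fun k : ℕ => C5 / ((k : ℝ) + 1) ^ (1 / 2 : ℝ)) (fun k => ?_) ?_
  · have hpos' := hMpos k
    have hfi : ∀ q ∈ T k, IntegrableOn (f q) (Set.Ioc a b) := fun q _ =>
      IntegrableOn.of_bound (by simp [Real.volume_Ioc]) (hfm q).aestronglyMeasurable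
        1 (Eventually.of_forall fun x => by
          rw [Real.norm_of_nonneg (hfn q x)]; exact fq_le_one γ ψ _ _ q x)
    have e : (∫ x in Set.Ioc a b, F k x) - (b - a)
        = (∑ q ∈ T k, ((∫ x in Set.Ioc a b, f q x) - (b - a) * (2 * mu ψ q))) / (2 * M k) := by
      simp only [hF]
      rw [integral_div, integral_finsetSum _ hfi, sum_sub_distrib, ← mul_sum, ← mul_sum]
      simp only [hMdef] at hpos' ⊢
      field_simp
    rw [Real.norm_eq_abs, e, abs_div, abs_of_pos (by linarith : (0 : ℝ) < 2 * M k),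
      div_le_iff₀ (by linarith)]
    refine (abs_sum_le_sum_abs _ _).trans ?_
    calc ∑ q ∈ T k, |(∫ x in Set.Ioc a b, f q x) - (b - a) * (2 * mu ψ q)|
        ≤ ∑ q ∈ T k, 2 * (C5 / ((k : ℝ) + 1) ^ (1 / 2 : ℝ)) * mu ψ q := by
          refine sum_le_sum fun q hq => ?_
          obtain ⟨hkq, hq0, hh⟩ := hT k q hq
          have hqR : (0 : ℝ) < q := by exact_mod_cast hq0
          refine (hfirst γ ψ _ _ q a b (hAB q) hq0 (hψ q) hh ha hab hb).trans ?_
          have hτ : (q.divisors.card : ℝ) ≤ max C4 0 * (q : ℝ) ^ (1 / 4 : ℝ) :=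
            (hdivb q hq0).trans (mul_le_mul_of_nonneg_right (le_max_left _ _) (by positivity))
          have hμ : ψ q ≤ (q.divisors.card : ℝ) * mu ψ q := by
            have hth : 1 ≤ (q.divisors.card : ℝ) * th q := by
              refine le_trans ?_ (mul_le_mul_of_nonneg_right (Ph_le_card_divisors q hq0) (th_nonneg q))
              have hne : (q.totient : ℝ) ≠ 0 := by
                exact_mod_cast (Nat.totient_pos.2 hq0).ne'
              rw [Ph, th]
              field_simp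
              rfl
            calc ψ q ≤ (q.divisors.card : ℝ) * th q * ψ q := le_mul_of_one_le_left (hψ q) hth
              _ = _ := by rw [mu]; ring
          have hμq := hμ0 q
          have hk : ((k : ℝ) + 1) ^ (1 / 2 : ℝ) ≤ 2 * (q : ℝ) ^ (1 / 2 : ℝ) := by
            calc ((k : ℝ) + 1) ^ (1 / 2 : ℝ) ≤ ((4 : ℝ) * q) ^ (1 / 2 : ℝ) := by
                  refine Real.rpow_le_rpow (by positivity) ?_ (by norm_num)
                  have : (k : ℝ) ≤ q := by exact_mod_cast hkq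
                  have : (1 : ℝ) ≤ q := by exact_mod_cast hq0
                  linarith
              _ = _ := by
                  rw [Real.mul_rpow (by norm_num) hqR.le, show (4 : ℝ) = 2 ^ (2 : ℝ) by norm_num,
                    ← Real.rpow_mul (by norm_num)]
                  norm_num
          calc C3 * ψ q * (q.divisors.card : ℝ) / q
              ≤ max C3 0 * ((max C4 0 * (q : ℝ) ^ (1 / 4 : ℝ)) * mu ψ q)
                  * (max C4 0 * (q : ℝ) ^ (1 / 4 : ℝ)) / q := by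
                refine div_le_div_of_nonneg_right ?_ hqR.le
                exact mul_le_mul (mul_le_mul (le_max_left _ _)
                  (hμ.trans (mul_le_mul_of_nonneg_right hτ hμq)) (hψ q) (le_max_right _ _))
                  hτ (Nat.cast_nonneg _) (by positivity)
            _ = max C3 0 * max C4 0 ^ 2 * mu ψ q / (q : ℝ) ^ (1 / 2 : ℝ) := by
                have e2 : (q : ℝ) ^ (1 / 4 : ℝ) * (q : ℝ) ^ (1 / 4 : ℝ)
                    = (q : ℝ) ^ (1 / 2 : ℝ) := by
                  rw [← Real.rpow_add hqR]; norm_num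
                have e3 : (q : ℝ) ^ (1 / 2 : ℝ) * (q : ℝ) ^ (1 / 2 : ℝ) = q := by
                  rw [← Real.rpow_add hqR]; norm_num
                rw [eq_div_iff (by positivity), div_mul_eq_mul_div, div_eq_iff hqR.ne']
                linear_combination (max C3 0 * max C4 0 ^ 2 * mu ψ q) *
                  ((q : ℝ) ^ (1 / 2 : ℝ) * e2 + e3)
            _ ≤ 2 * (C5 / ((k : ℝ) + 1) ^ (1 / 2 : ℝ)) * mu ψ q := by
                rw [hC5, div_le_iff₀ (by positivity), mul_comm (2 : ℝ), div_mul_eq_mul_div,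
                  div_mul_eq_mul_div, div_mul_eq_mul_div, le_div_iff₀ (by positivity)]
                have := mul_le_mul_of_nonneg_left hk
                  (show 0 ≤ max C3 0 * max C4 0 ^ 2 * mu ψ q by positivity)
                have h0 : 0 ≤ max C3 0 * max C4 0 ^ 2 * mu ψ q * (q : ℝ) ^ (1 / 2 : ℝ) := by
                  positivity
                linarith
      _ = _ := by rw [← mul_sum]; simp only [hMdef]; ring
  · exact tendsto_const_nhds.div_atTop ((tendsto_rpow_atTop (by norm_num)).comp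
      (tendsto_natCast_atTop_atTop.atTop_add tendsto_const_nhds))

/-- Q1 for every shift with no extra divergence below any negative power of `log q`. -/
theorem weak_inhom_DS_below (γ θ : ℝ) (hθ : 0 < θ) (ψ : ℕ → ℝ) (hψ : ∀ q, 0 ≤ ψ q)
    (hdiv : ¬ Summable ({q : ℕ | ψ q ≤ Real.log q ^ (-θ)}.indicator (mu ψ))) :
    ∀ᵐ x : ℝ, {q : ℕ | 0 < q ∧ distInt ((q : ℝ) * x - γ) < ψ q}.Infinite := by
  classical
  obtain ⟨C1, t0, hC1, hslice⟩ := slice_moment (θ / 4) (by linarith)
  obtain ⟨C2, q0, hcross⟩ := cross_bound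
  have hz : (1 : ℝ) < 1 + zeta0 := by norm_num [zeta0]
  obtain ⟨N, hN⟩ := pow_unbounded_of_one_lt ((10 : ℝ) ^ 7) hz
  set t1 := max t0 100 with ht1
  obtain ⟨q1, hq1⟩ := eventually_atTop.1 ((eventually_ge_atTop (max 3 q0)).and
    ((Real.tendsto_log_atTop.comp (Real.tendsto_log_atTop.comp
      tendsto_natCast_atTop_atTop)).eventually_ge_atTop (3 + 2 * t1 / θ)))
  have hμ0 : ∀ q, 0 ≤ mu ψ q := mu_nonneg_X hψ
  set S0 : Set ℕ := {q : ℕ | ψ q ≤ Real.log q ^ (-θ)} with hS0
  have h1 := P028A.not_summable_good ψ hψ (Set.indicator_nonneg fun q _ => hμ0 q)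
    (Set.indicator_le_self' fun q _ => hμ0 q) hdiv q1
  rw [Set.indicator_indicator] at h1
  obtain ⟨i, hi⟩ := exists_residue (mu ψ) _ h1 slice 3 (by norm_num)
  obtain ⟨i', hi'⟩ := exists_residue (mu ψ) _ hi (cls ψ) (N + 1) N.succ_pos
  set P : Set ℕ := {q | q ∈ {q | q ∈ MainAux.Good ψ q1 ∩ S0 ∧ slice q % 3 = i} ∧
    cls ψ q % (N + 1) = i'} with hP
  choose T hT hTsum using exists_block (mu ψ) P hμ0 hi'
  choose ab hab using fun m => exists_approx γ (scale m) (le_trans zero_le_one (one_le_scale m))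
  have hgood : ∀ q ∈ P, 3 ≤ q ∧ 0 < ψ q ∧ ψ q ≤ 1 / 2 ∧ q0 ≤ q ∧ 1 ≤ Real.log q ∧
      1 ≤ -Real.log (ψ q) ∧ -Real.log (ψ q) ≤ 2 * Real.log q ∧
      θ / 4 * Real.log (8 * (8 : ℝ) ^ slice q) ≤ scale (cls ψ q) ∧ t0 ≤ scale (cls ψ q) := by
    rintro q ⟨⟨⟨⟨hqq, hq2⟩, hqS⟩, -⟩, -⟩
    obtain ⟨hq3, hll⟩ := hq1 q hqq
    have h3 : 3 ≤ q := (le_max_left _ _).trans hq3
    have hqR : (3 : ℝ) ≤ q := by exact_mod_cast h3
    have hp : 0 < ψ q := lt_of_lt_of_le (by positivity) hq2
    have hlq : 1 ≤ Real.log q := P028X.one_le_log_three.trans (Real.log_le_log (by norm_num) hqR)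
    simp only [Function.comp_apply] at hll
    set ll := Real.log (Real.log q) with hlld
    have hl := Real.log_le_log hp hqS
    rw [Real.log_rpow (by linarith), ← hlld] at hl
    have hθl : 3 * θ + 2 * t1 ≤ θ * ll := by
      calc 3 * θ + 2 * t1 = θ * (3 + 2 * t1 / θ) := by field_simp
        _ ≤ _ := mul_le_mul_of_nonneg_left hll hθ.le
    have ht100 : 100 ≤ t1 := le_max_right _ _
    have ht0 : t0 ≤ t1 := le_max_left _ _
    have hL : 1 ≤ -Real.log (ψ q) := by linarith
    have hl2 := Real.log_le_log (by positivity) hq2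
    rw [Real.log_inv, Real.log_pow] at hl2
    push_cast at hl2
    obtain ⟨hlo, hhi⟩ := slice_spec q hlq
    have hs2 : (1 + zeta0) * scale (cls ψ q) ≤ 2 * scale (cls ψ q) :=
      mul_le_mul_of_nonneg_right (by norm_num [zeta0]) (le_trans zero_le_one (one_le_scale _))
    have hcs := (cls_spec ψ q hL).2
    have h8 : Real.log (8 * (8 : ℝ) ^ slice q) ≤ 2 * ll := by
      rw [Real.log_mul (by norm_num) (by positivity)]
      have e1 : Real.log ((8 : ℝ) ^ slice q) ≤ ll := Real.log_le_log (by positivity) hlo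
      have e2 : Real.log 8 ≤ 3 := by
        rw [show (8 : ℝ) = 2 ^ 3 by norm_num, Real.log_pow]
        have := Real.log_two_lt_d9
        push_cast
        linarith
      have : 0 ≤ 2 * t1 / θ := div_nonneg (by linarith) hθ.le
      linarith
    refine ⟨h3, hp, ?_, (le_max_right _ _).trans hq3, hlq, hL, by linarith, ?_, by linarith⟩
    · refine ((Real.log_le_iff_le_exp hp).1 (show Real.log (ψ q) ≤ -1 by linarith)).trans ?_
      rw [Real.exp_neg, one_div]
      exact inv_anti₀ two_pos (by linarith [Real.add_one_le_exp (1 : ℝ)])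
    · have := mul_le_mul_of_nonneg_left h8 (show 0 ≤ θ / 4 by linarith)
      linarith
  refine full_of_moments γ ψ hψ (fun q => ab (cls ψ q)) (fun q => (hab _).2.2.1) T
    (2 * C1 + max C2 0) (fun k q hq => ?_) hTsum fun k => ?_
  · obtain ⟨hqP, hkq⟩ := hT k q hq
    obtain ⟨h3, -, hh, -⟩ := hgood q hqP
    exact ⟨hkq, by omega, hh⟩
  set I := fun q r => ∫ x in Set.Ico (0 : ℝ) 1, fq γ ψ (ab (cls ψ q)).1 (ab (cls ψ q)).2 q x *
    fq γ ψ (ab (cls ψ r)).1 (ab (cls ψ r)).2 r x with hI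
  have main : ∀ q ∈ P, ∀ r ∈ P, slice q < slice r → I q r ≤ max C2 0 * mu ψ q * mu ψ r := by
    intro q hq r hr hlt
    obtain ⟨h3, hp, hh, hq0, hlq, -⟩ := hgood q hq
    obtain ⟨h3', hp', hh', -, hlr, -⟩ := hgood r hr
    have h8 : q ^ 8 ≤ r := slice_far (by omega) (by omega) hlq hlr (by
      have h1 := hq.1.2
      have h2 := hr.1.2
      omega)
    exact (hcross γ ψ _ _ _ _ q r (hab _).2.2.1 (hab _).2.2.1 hq0 (by omega) h8 hq.1.1.1.2 hh
      (hψ r) hh').trans
        (mul_le_mul_of_nonneg_right (mul_le_mul_of_nonneg_right (le_max_left C2 0) (hμ0 q)) (hμ0 r))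
  have hX : ∀ q ∈ P, ∀ r ∈ P, slice q ≠ slice r → I q r ≤ max C2 0 * mu ψ q * mu ψ r := by
    intro q hq r hr hne
    rcases lt_or_gt_of_ne hne with h | h
    · exact main q hq r hr h
    · have e : I q r = I r q := by simp only [hI, mul_comm]
      rw [e]
      refine (main r hr q hq h).trans_eq ?_
      ring
  rw [sq_integral γ ψ (fun q => ab (cls ψ q)) (T k)]
  refine (pairs_bound (T k) slice (mu ψ) I C1 (max C2 0) hμ0 hC1 (le_max_right _ _) ?_
    fun q hq r hr hne => hX q (hT k q hq).1 r (hT k r hr).1 hne).trans ?_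
  · intro j hj
    set S := (T k).filter (fun q => P028X.slice q = j) with hS
    have hSm : ∀ q ∈ S, q ∈ P ∧ slice q = j := fun q hq =>
      ⟨(hT k q (mem_filter.1 hq).1).1, (mem_filter.1 hq).2⟩
    refine le_trans (le_of_eq (sq_integral γ ψ (fun q => ab (cls ψ q)) S).symm) ?_
    refine hslice γ ψ S (8 * (8 : ℝ) ^ j) ab hψ ?_ (fun q hq => ?_) (fun q hq r hr hlt => ?_) hab
    · linarith [one_le_pow₀ (a := (8 : ℝ)) (n := j) (by norm_num)]
    · obtain ⟨hqP, rfl⟩ := hSm q hq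
      obtain ⟨h3, hp, -, -, hlq, hL, hL2, hlo, ht⟩ := hgood q hqP
      have := (slice_spec q hlq).2
      exact ⟨by omega, hp, hL, this, by linarith, hlo, ht⟩
    · have e1 := (hSm q hq).1.2
      have e2 := (hSm r hr).1.2
      have hmod : cls ψ q ≡ cls ψ r [MOD N + 1] := by rw [Nat.ModEq, e1, e2]
      have := Nat.le_of_dvd (by omega) ((Nat.modEq_iff_dvd' hlt.le).1 hmod)
      refine le_trans (mul_le_mul_of_nonneg_right hN.le (le_trans zero_le_one (one_le_scale _))) ?_
      rw [scale, scale, ← pow_add]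
      exact pow_le_pow_right₀ hz.le (by omega)
  · have hM1 : 1 ≤ ∑ q ∈ T k, mu ψ q :=
      le_trans (le_add_of_nonneg_left (Nat.cast_nonneg k)) (hTsum k)
    have h1 : ∑ q ∈ T k, mu ψ q ≤ (∑ q ∈ T k, mu ψ q) ^ 2 := by
      rw [sq]; exact le_mul_of_one_le_left (by linarith) hM1
    have h2 := mul_le_mul_of_nonneg_left h1 hC1
    linarith

end Vale.Agent.P028G
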