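import Vale.Agent.P028G.Low
import Vale.Agent.P028G.Main
import Vale.Agent.P028A.Main

/-! P028G module LOWMAIN: Q1 for every shift and every `ψ` with an extra divergence of any positive power of
`log log log q`. -/

namespace Vale.Agent.P028G

open Finset MeasureTheory Filter Topology
open Vale.Agent.P028
open Vale.Agent.P028.MainAux (cls scale cls_spec exists_block exists_residue sq_integral exists_approx
  one_le_scale pairs_bound)
open Vale.Agent.P028L (restK zeroK approx_geo overlap_split zero_pairs W2_nonneg etaP_pos)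
open Vale.Agent.P028X (mu_nonneg_X slice slice_spec slice_far)
open Vale.Agent.P028A (wA aLoss one_le_aLoss wA_nonneg not_summable_of_le one_le_log)

/-- The second moment of the low levels of one slice `log q ≤ H`, for every shift. -/
theorem slice_moment_low (δ : ℝ) (hδ : 0 < δ) : ∃ C t0 : ℝ, 0 ≤ C ∧
    ∀ (γ : ℝ) (ψ : ℕ → ℝ) (S : Finset ℕ) (H : ℝ) (ab : ℕ → ℤ × ℕ), (∀ q, 0 ≤ ψ q) → 3 ≤ H →
      LowSet t0 H ψ S →
      (∀ q ∈ S, ∀ r ∈ S, cls ψ q < cls ψ r → 10 ^ 7 * scale (cls ψ q) ≤ scale (cls ψ r)) →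
      (∀ l, IsApprox γ (Real.exp (scale l / 2)) (ab l).1 (ab l).2) →
      ∫ x in Set.Ico (0 : ℝ) 1, (∑ q ∈ S, fq γ ψ (ab (cls ψ q)).1 (ab (cls ψ q)).2 q x) ^ 2
        ≤ C * (lev H ^ δ * (msum (mu ψ) S + msum (mu ψ) S ^ (7 / 4 : ℝ)) +
          (msum (mu ψ) S + msum (mu ψ) S ^ 2)) := by
  classical
  obtain ⟨C1, t1, hcell⟩ := P028U.cell_boundU
  obtain ⟨Cr, t2, hCr, hrest⟩ := cross_low δ hδ
  obtain ⟨Cz, hCz, hzero⟩ := zero_pairs
  refine ⟨max C1 0 + 8 * Cz + 8 * Cr, max t1 t2, by positivity, ?_⟩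
  intro γ ψ S H ab hψ hH hS hgap hab
  have hμ := mu_nonneg' hψ
  set M := msum (mu ψ) S with hM
  have hM0 : 0 ≤ M := sum_nonneg fun q _ => hμ q
  have hhalf : ∀ q ∈ S, 0 < q ∧ 0 < ψ q ∧ ψ q ≤ 1 / 2 := fun q hq => by
    obtain ⟨h1, h2, h3, -⟩ := hS q hq
    refine ⟨h1, h2, ((Real.log_le_iff_le_exp h2).1
      (show Real.log (ψ q) ≤ -1 by linarith)).trans ?_⟩
    rw [Real.exp_neg, one_div]
    exact inv_anti₀ two_pos (by linarith [Real.add_one_le_exp (1 : ℝ)])
  set I := fun q r => ∫ x in Set.Ico (0 : ℝ) 1, fq γ ψ (ab (cls ψ q)).1 (ab (cls ψ q)).2 q x *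
    fq γ ψ (ab (cls ψ r)).1 (ab (cls ψ r)).2 r x with hI
  set E := fun q r => if cls ψ q = cls ψ r then I q r else 0 with hE
  set Z := fun q r => zeroK ψ (ab (cls ψ q)).2 (ab (cls ψ r)).2 q r with hZ
  set R := fun q r => if cls ψ q < cls ψ r then
    restK γ ψ (ab (cls ψ q)).1 (ab (cls ψ q)).2 (ab (cls ψ r)).1 (ab (cls ψ r)).2 q r else 0 with hR
  have hη0 : ∀ q r, 0 ≤ etaP ψ q r := fun q r => by
    have h1 := hψ q
    have h2 := hψ r
    unfold etaP
    positivity
  have hZ0 : ∀ q r, 0 ≤ Z q r := fun q r => by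
    simp only [hZ, zeroK]
    split_ifs
    · exact div_nonneg (mul_nonneg (Ph_nonneg _) (Ph_nonneg _)) (hη0 q r)
    · exact le_rfl
  have hR0 : ∀ q r, 0 ≤ R q r := fun q r => by
    simp only [hR]
    split_ifs
    · exact div_nonneg (sum_nonneg fun n _ => W2_nonneg ..) (hη0 q r)
    · exact le_rfl
  have hover : ∀ q ∈ S, ∀ r ∈ S, cls ψ q < cls ψ r →
      I q r ≤ 4 * (mu ψ q * mu ψ r * (Z q r + R q r)) := fun q hq r hr hlt => by
    have := overlap_split γ ψ (ab (cls ψ q)).1 (ab (cls ψ r)).1 (ab (cls ψ q)).2 (ab (cls ψ r)).2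
      q r (hab _).2.2.1 (hab _).2.2.1 (hab _).1 (hab _).1 (hhalf q hq).1 (hhalf r hr).1
      (hhalf q hq).2.1 (hhalf q hq).2.2 (hhalf r hr).2.1 (hhalf r hr).2.2
    simp only [hI, hZ, hR, if_pos hlt]
    linarith
  have hpair : ∀ q ∈ S, ∀ r ∈ S, I q r
      ≤ E q r + 4 * (mu ψ q * mu ψ r * (Z q r + Z r q + R q r + R r q)) := by
    intro q hq r hr
    have hp := mul_nonneg (hμ q) (hμ r)
    rcases lt_trichotomy (cls ψ q) (cls ψ r) with h | h | h
    · have := hover q hq r hr h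
      simp only [hE, if_neg h.ne]
      linarith [mul_nonneg hp (hZ0 r q), mul_nonneg hp (hR0 r q)]
    · simp only [hE, if_pos h]
      linarith [mul_nonneg hp (add_nonneg (add_nonneg (add_nonneg (hZ0 q r) (hZ0 r q)) (hR0 q r))
        (hR0 r q))]
    · have e : I q r = I r q := by simp only [hI, mul_comm]
      have := hover r hr q hq h
      simp only [hE, if_neg h.ne']
      rw [e]
      linarith [mul_nonneg hp (hZ0 q r), mul_nonneg hp (hR0 q r)]
  have bE : ∑ q ∈ S, ∑ r ∈ S, E q r ≤ max C1 0 * (M + M ^ 2) := by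
    set cell := fun j => S.filter (fun q => cls ψ q = j) with hcd
    have hmaps : ∀ q ∈ S, cls ψ q ∈ S.image (cls ψ) := fun q hq => mem_image_of_mem _ hq
    have hMsum : ∑ j ∈ S.image (cls ψ), msum (mu ψ) (cell j) = M :=
      sum_fiberwise_of_maps_to hmaps _
    rw [← sum_fiberwise_of_maps_to hmaps]
    calc ∑ j ∈ S.image (cls ψ), ∑ q ∈ cell j, ∑ r ∈ S, E q r
        ≤ ∑ j ∈ S.image (cls ψ), max C1 0 * (msum (mu ψ) (cell j) + msum (mu ψ) (cell j) * M) := by
          refine sum_le_sum fun j hj => ?_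
          obtain ⟨q', hq', rfl⟩ := mem_image.1 hj
          have hc : IsCell zeta0 (∑ q ∈ cell (cls ψ q'), Real.log q) (scale (cls ψ q'))
              (cell (cls ψ q')) ψ := by
            intro q hq
            obtain ⟨hqS, hqm⟩ := mem_filter.1 hq
            obtain ⟨h1, h2, h3, -⟩ := hS q hqS
            obtain ⟨s1, s2⟩ := cls_spec ψ q h3
            rw [hqm] at s1 s2
            refine ⟨h1, ?_, ?_, ?_⟩
            · rw [← Real.le_log_iff_exp_le h2]; linarith
            · rw [← Real.log_le_iff_le_exp h2]; linarith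
            · exact (single_le_sum (fun q _ => Real.log_natCast_nonneg q) hq).trans
                (le_mul_of_one_le_right (sum_nonneg fun q _ => Real.log_natCast_nonneg q)
                  (one_le_scale _))
          have h := hcell _ γ ψ _ _ (ab (cls ψ q')).1 (ab (cls ψ q')).2
            ((le_max_left _ _).trans (hS q' hq').2.2.2.2.2.2.2) hψ hc (hab _)
          rw [sq_integral γ ψ (fun _ => ab (cls ψ q'))] at h
          have hsub : msum (mu ψ) (cell (cls ψ q')) ≤ M :=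
            sum_le_sum_of_subset_of_nonneg (filter_subset _ _) fun q _ _ => hμ q
          have h0 : 0 ≤ msum (mu ψ) (cell (cls ψ q')) := sum_nonneg fun q _ => hμ q
          have hE1 : ∑ q ∈ cell (cls ψ q'), ∑ r ∈ S, E q r
              = ∑ q ∈ cell (cls ψ q'), ∑ r ∈ cell (cls ψ q'), ∫ x in Set.Ico (0 : ℝ) 1,
                  fq γ ψ (ab (cls ψ q')).1 (ab (cls ψ q')).2 q x *
                  fq γ ψ (ab (cls ψ q')).1 (ab (cls ψ q')).2 r x := by
            refine sum_congr rfl fun q hq => ?_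
            simp only [hcd, sum_filter]
            refine sum_congr rfl fun r _ => ?_
            simp only [hE, hI, (mem_filter.1 hq).2]
            by_cases he : cls ψ r = cls ψ q'
            · rw [if_pos he, if_pos he.symm, he]
            · rw [if_neg he, if_neg (Ne.symm he)]
          rw [hE1]
          refine h.trans ((mul_le_mul_of_nonneg_right (le_max_left C1 0) (by positivity)).trans ?_)
          rw [sq]
          gcongr
      _ = _ := by rw [← mul_sum, sum_add_distrib, ← sum_mul, hMsum, sq]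
  have bZ : pairSum (mu ψ) Z S S ≤ Cz * M :=
    hzero ψ S (fun q => (ab (cls ψ q)).2) hψ
      (fun q hq => ⟨(hS q hq).1, (hS q hq).2.1, (hab _).1⟩) (levels_geo γ ψ S ab hab hgap)
  set W := lev H ^ δ * (M + M ^ (7 / 4 : ℝ)) + (M + M ^ 2) with hW
  have hW1 : M + M ^ 2 ≤ W := by
    have : 0 ≤ lev H ^ δ := Real.rpow_nonneg (by
      unfold lev
      linarith [Real.log_nonneg (show 1 ≤ 1 + Real.log H by linarith [P028M.log_one hH])]) _
    exact le_add_of_nonneg_left (by positivity)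
  have bR : pairSum (mu ψ) R S S ≤ Cr * W :=
    hrest γ ψ S H ab hψ hH (fun q hq => by
      obtain ⟨h1, h2, h3, h4, h5, h6, h7, h8⟩ := hS q hq
      exact ⟨h1, h2, h3, h4, h5, h6, h7, (le_max_right _ _).trans h8⟩) hgap hab
  rw [sq_integral γ ψ (fun q => ab (cls ψ q)) S]
  calc ∑ q ∈ S, ∑ r ∈ S, I q r
      ≤ ∑ q ∈ S, ∑ r ∈ S, (E q r + 4 * (mu ψ q * mu ψ r * (Z q r + Z r q + R q r + R r q))) :=
        sum_le_sum fun q hq => sum_le_sum fun r hr => hpair q hq r hr
    _ = ∑ q ∈ S, ∑ r ∈ S, E q r + 4 * (pairSum (mu ψ) Z S S + pairSum (mu ψ) Z S S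
          + pairSum (mu ψ) R S S + pairSum (mu ψ) R S S) := by
        have e : pairSum (mu ψ) (fun q r => Z q r + Z r q + R q r + R r q) S S
            = pairSum (mu ψ) Z S S + pairSum (mu ψ) Z S S + pairSum (mu ψ) R S S
              + pairSum (mu ψ) R S S := by
          rw [pairSum_add, pairSum_add, pairSum_add, pairSum_swap (mu ψ) Z S,
            pairSum_swap (mu ψ) R S]
        rw [← e]
        simp only [pairSum, sum_add_distrib, mul_sum]
    _ ≤ _ := by
        have h1 : Cz * M ≤ Cz * W :=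
          mul_le_mul_of_nonneg_left ((le_add_of_nonneg_right (sq_nonneg M)).trans hW1) hCz
        have h2 := bE.trans (mul_le_mul_of_nonneg_left hW1 (le_max_right C1 0))
        linarith

/-- Weighted blocks of total weight at least `k + 1` beyond `k` whose second moment is quadratic give full
measure. -/
theorem full_of_weighted (γ : ℝ) (ψ c : ℕ → ℝ) (hψ : ∀ q, 0 ≤ ψ q) (hc : ∀ q, 0 ≤ c q ∧ c q ≤ 1)
    (AB : ℕ → ℤ × ℕ)
    (hAB : ∀ q, IsCoprime (AB q).1 ((AB q).2 : ℤ)) (T : ℕ → Finset ℕ) (Tot : ℝ)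
    (hT : ∀ k, ∀ q ∈ T k, k ≤ q ∧ 0 < q ∧ ψ q ≤ 1 / 2)
    (hM : ∀ k : ℕ, (k : ℝ) + 1 ≤ ∑ q ∈ T k, c q * mu ψ q)
    (hsq : ∀ k, ∫ x in Set.Ico (0 : ℝ) 1, (∑ q ∈ T k, c q * fq γ ψ (AB q).1 (AB q).2 q x) ^ 2
      ≤ Tot * (∑ q ∈ T k, c q * mu ψ q) ^ 2) :
    ∀ᵐ x : ℝ, {q : ℕ | 0 < q ∧ distInt ((q : ℝ) * x - γ) < ψ q}.Infinite := by
  classical
  obtain ⟨C3, hfirst⟩ := integral_fq_interval
  obtain ⟨C4, hdivb⟩ := card_divisors_le (1 / 4) (by norm_num)
  have hμ0 : ∀ q, 0 ≤ mu ψ q := mu_nonneg_X hψ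
  set f : ℕ → ℝ → ℝ := fun q x => c q * fq γ ψ (AB q).1 (AB q).2 q x with hf
  have hfn : ∀ q x, 0 ≤ f q x := fun q x => mul_nonneg (hc q).1 (fq_nonneg γ ψ _ _ q x)
  have hf1 : ∀ q x, f q x ≤ 1 := fun q x =>
    mul_le_one₀ (hc q).2 (fq_nonneg γ ψ _ _ q x) (fq_le_one γ ψ _ _ q x)
  have hfm : ∀ q, Measurable (f q) := fun q => (fq_measurable γ ψ _ _ q).const_mul _
  set M : ℕ → ℝ := fun k => ∑ q ∈ T k, c q * mu ψ q with hMdef
  have hMpos : ∀ k, 0 < M k := fun k => lt_of_lt_of_le (by positivity) (hM k)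
  set F : ℕ → ℝ → ℝ := fun k x => (∑ q ∈ T k, f q x) / (2 * M k) with hF
  refine full_measure_of_blocks γ ψ F (Tot / 4)
    (fun k => (Finset.measurable_sum _ fun q _ => hfm q).div_const _)
    (fun k x => div_nonneg (sum_nonneg fun q _ => hfn q x) (by linarith [hMpos k]))
    (fun k => ⟨((T k).card : ℝ) / (2 * M k), fun x => ?_⟩) ?_ ?_ ?_
  · refine div_le_div_of_nonneg_right ?_ (by linarith [hMpos k])
    calc ∑ q ∈ T k, f q x ≤ ∑ q ∈ T k, (1 : ℝ) := sum_le_sum fun q _ => hf1 q x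
      _ = ((T k).card : ℝ) := by simp
  · intro k x hne
    obtain ⟨q, hq, hq'⟩ := exists_ne_zero_of_sum_ne_zero (left_ne_zero_of_mul hne)
    exact ⟨q, (hT k q hq).1, (hT k q hq).2.1, fq_ne_zero γ ψ _ _ q x (right_ne_zero_of_mul hq')⟩
  · intro k
    have hpos' := hMpos k
    simp only [hF, div_pow]
    rw [integral_div, div_le_iff₀ (by positivity)]
    exact (hsq k).trans_eq (by simp only [hMdef]; ring)
  intro a b ha hab hb
  rw [← tendsto_sub_nhds_zero_iff]
  set C5 := max C3 0 * max C4 0 ^ 2 * 2 with hC5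
  refine squeeze_zero_norm (a := fun k : ℕ => C5 / ((k : ℝ) + 1) ^ (1 / 2 : ℝ)) (fun k => ?_) ?_
  · have hpos' := hMpos k
    have hfi : ∀ q ∈ T k, IntegrableOn (f q) (Set.Ioc a b) := fun q _ =>
      IntegrableOn.of_bound (by simp [Real.volume_Ioc]) (hfm q).aestronglyMeasurable
        1 (Eventually.of_forall fun x => by
          rw [Real.norm_of_nonneg (hfn q x)]; exact hf1 q x)
    have e : (∫ x in Set.Ioc a b, F k x) - (b - a)
        = (∑ q ∈ T k, ((∫ x in Set.Ioc a b, f q x) - (b - a) * (2 * (c q * mu ψ q)))) / (2 * M k) := by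
      simp only [hF]
      rw [integral_div, integral_finsetSum _ hfi, sum_sub_distrib, ← mul_sum, ← mul_sum]
      simp only [hMdef] at hpos' ⊢
      field_simp
    rw [Real.norm_eq_abs, e, abs_div, abs_of_pos (by linarith : (0 : ℝ) < 2 * M k),
      div_le_iff₀ (by linarith)]
    refine (abs_sum_le_sum_abs _ _).trans ?_
    calc ∑ q ∈ T k, |(∫ x in Set.Ioc a b, f q x) - (b - a) * (2 * (c q * mu ψ q))|
        ≤ ∑ q ∈ T k, 2 * (C5 / ((k : ℝ) + 1) ^ (1 / 2 : ℝ)) * (c q * mu ψ q) := by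
          refine sum_le_sum fun q hq => ?_
          obtain ⟨hkq, hq0, hh⟩ := hT k q hq
          have hqR : (0 : ℝ) < q := by exact_mod_cast hq0
          simp only [hf]
          rw [integral_const_mul, mul_left_comm 2 (c q), mul_left_comm (b - a) (c q),
            mul_left_comm _ (c q), ← mul_sub, abs_mul, abs_of_nonneg (hc q).1]
          refine mul_le_mul_of_nonneg_left ?_ (hc q).1
          refine (hfirst γ ψ _ _ q a b (hAB q) hq0 (hψ q) hh ha hab hb).trans ?_
          have hτ : (q.divisors.card : ℝ) ≤ max C4 0 * (q : ℝ) ^ (1 / 4 : ℝ) :=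
            (hdivb q hq0).trans (mul_le_mul_of_nonneg_right (le_max_left _ _) (by positivity))
          have hμ : ψ q ≤ (q.divisors.card : ℝ) * mu ψ q := by
            have hth : 1 ≤ (q.divisors.card : ℝ) * th q := by
              refine le_trans ?_ (mul_le_mul_of_nonneg_right (Ph_le_card_divisors q hq0) (th_nonneg q))
              have hne : (q.totient : ℝ) ≠ 0 := by
                exact_mod_cast (Nat.totient_pos.2 hq0).ne'
              rw [Ph, th]
              field_simp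
              rfl
            calc ψ q ≤ (q.divisors.card : ℝ) * th q * ψ q := le_mul_of_one_le_left (hψ q) hth
              _ = _ := by rw [mu]; ring
          have hμq := hμ0 q
          have hk : ((k : ℝ) + 1) ^ (1 / 2 : ℝ) ≤ 2 * (q : ℝ) ^ (1 / 2 : ℝ) := by
            calc ((k : ℝ) + 1) ^ (1 / 2 : ℝ) ≤ ((4 : ℝ) * q) ^ (1 / 2 : ℝ) := by
                  refine Real.rpow_le_rpow (by positivity) ?_ (by norm_num)
                  have : (k : ℝ) ≤ q := by exact_mod_cast hkq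
                  have : (1 : ℝ) ≤ q := by exact_mod_cast hq0
                  linarith
              _ = _ := by
                  rw [Real.mul_rpow (by norm_num) hqR.le, show (4 : ℝ) = 2 ^ (2 : ℝ) by norm_num,
                    ← Real.rpow_mul (by norm_num)]
                  norm_num
          calc C3 * ψ q * (q.divisors.card : ℝ) / q
              ≤ max C3 0 * ((max C4 0 * (q : ℝ) ^ (1 / 4 : ℝ)) * mu ψ q)
                  * (max C4 0 * (q : ℝ) ^ (1 / 4 : ℝ)) / q := by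
                refine div_le_div_of_nonneg_right ?_ hqR.le
                exact mul_le_mul (mul_le_mul (le_max_left _ _)
                  (hμ.trans (mul_le_mul_of_nonneg_right hτ hμq)) (hψ q) (le_max_right _ _))
                  hτ (Nat.cast_nonneg _) (by positivity)
            _ = max C3 0 * max C4 0 ^ 2 * mu ψ q / (q : ℝ) ^ (1 / 2 : ℝ) := by
                have e2 : (q : ℝ) ^ (1 / 4 : ℝ) * (q : ℝ) ^ (1 / 4 : ℝ)
                    = (q : ℝ) ^ (1 / 2 : ℝ) := by
                  rw [← Real.rpow_add hqR]; norm_num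
                have e3 : (q : ℝ) ^ (1 / 2 : ℝ) * (q : ℝ) ^ (1 / 2 : ℝ) = q := by
                  rw [← Real.rpow_add hqR]; norm_num
                rw [eq_div_iff (by positivity), div_mul_eq_mul_div, div_eq_iff hqR.ne']
                linear_combination (max C3 0 * max C4 0 ^ 2 * mu ψ q) *
                  ((q : ℝ) ^ (1 / 2 : ℝ) * e2 + e3)
            _ ≤ 2 * (C5 / ((k : ℝ) + 1) ^ (1 / 2 : ℝ)) * mu ψ q := by
                rw [hC5, div_le_iff₀ (by positivity), mul_comm (2 : ℝ), div_mul_eq_mul_div,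
                  div_mul_eq_mul_div, div_mul_eq_mul_div, le_div_iff₀ (by positivity)]
                have := mul_le_mul_of_nonneg_left hk
                  (show 0 ≤ max C3 0 * max C4 0 ^ 2 * mu ψ q by positivity)
                have h0 : 0 ≤ max C3 0 * max C4 0 ^ 2 * mu ψ q * (q : ℝ) ^ (1 / 2 : ℝ) := by
                  positivity
                linarith
      _ = _ := by rw [← mul_sum]; simp only [hMdef]; ring
  · exact tendsto_const_nhds.div_atTop ((tendsto_rpow_atTop (by norm_num)).comp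
      (tendsto_natCast_atTop_atTop.atTop_add tendsto_const_nhds))

lemma sq_integral_weighted (γ : ℝ) (ψ c : ℕ → ℝ) (ab : ℕ → ℤ × ℕ) (T : Finset ℕ) :
    ∫ x in Set.Ico (0 : ℝ) 1, (∑ q ∈ T, c q * fq γ ψ (ab q).1 (ab q).2 q x) ^ 2
      = ∑ q ∈ T, ∑ r ∈ T, c q * c r * ∫ x in Set.Ico (0 : ℝ) 1,
          fq γ ψ (ab q).1 (ab q).2 q x * fq γ ψ (ab r).1 (ab r).2 r x := by
  have e : ∀ q r x, c q * fq γ ψ (ab q).1 (ab q).2 q x * (c r * fq γ ψ (ab r).1 (ab r).2 r x)
      = c q * c r * (fq γ ψ (ab q).1 (ab q).2 q x * fq γ ψ (ab r).1 (ab r).2 r x) := fun q r x => by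
    ring
  simp only [sq, sum_mul_sum, e]
  rw [integral_finsetSum _ fun q _ => integrable_finsetSum _ fun r _ =>
    (MainAux.integrable_fq_mul γ ψ _ _ _ _ q r).const_mul _]
  refine sum_congr rfl fun q _ => ?_
  rw [integral_finsetSum _ fun r _ => (MainAux.integrable_fq_mul γ ψ _ _ _ _ q r).const_mul _]
  exact sum_congr rfl fun r _ => integral_const_mul _ _

/-- A weight `lev ^ (-δ)` absorbs the subquadratic excess. -/
lemma absorb_lev {x δ M : ℝ} (hx : 1 ≤ x) (hδ : 0 ≤ δ) (hM : 0 ≤ M) :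
    (x ^ (-δ)) ^ 2 * (x ^ (δ / 4) * (M + M ^ (7 / 4 : ℝ)) + (M + M ^ 2))
      ≤ 3 * (x ^ (-δ) * M + (x ^ (-δ) * M) ^ 2) := by
  set c := x ^ (-δ) with hc
  have hx0 : 0 < x := by linarith
  have hc0 : 0 < c := by positivity
  have hc1 : c ≤ 1 := Real.rpow_le_one_of_one_le_of_nonpos hx (by linarith)
  set y := c * M with hy
  have hy0 : 0 ≤ y := by positivity
  have h1 : c * x ^ (δ / 4) ≤ 1 := by
    rw [hc, ← Real.rpow_add hx0]
    exact Real.rpow_le_one_of_one_le_of_nonpos hx (by linarith)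
  have h2 : c ^ 2 * (x ^ (δ / 4) * M ^ (7 / 4 : ℝ)) = y ^ (7 / 4 : ℝ) := by
    have e : c ^ 2 * x ^ (δ / 4) = c ^ (7 / 4 : ℝ) := by
      rw [hc, ← Real.rpow_natCast, ← Real.rpow_mul hx0.le, ← Real.rpow_mul hx0.le,
        ← Real.rpow_add hx0]
      push_cast
      ring_nf
    rw [← mul_assoc, e, hy, Real.mul_rpow hc0.le hM]
  have h3 : y ^ (7 / 4 : ℝ) ≤ y + y ^ 2 := by
    rcases le_total y 1 with h | h
    · exact (Real.rpow_le_self_of_le_one hy0 h (by norm_num)).trans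
        (le_add_of_nonneg_right (sq_nonneg _))
    · refine (Real.rpow_le_rpow_of_exponent_le h (show (7 / 4 : ℝ) ≤ (2 : ℕ) by norm_num)).trans ?_
      rw [Real.rpow_natCast]
      exact le_add_of_nonneg_left hy0
  calc c ^ 2 * (x ^ (δ / 4) * (M + M ^ (7 / 4 : ℝ)) + (M + M ^ 2))
      = c * x ^ (δ / 4) * y + c ^ 2 * (x ^ (δ / 4) * M ^ (7 / 4 : ℝ)) + (c * y + y ^ 2) := by
        rw [hy]; ring
    _ ≤ 1 * y + (y + y ^ 2) + (1 * y + y ^ 2) := by
        rw [h2]
        gcongr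
    _ ≤ _ := by linarith [sq_nonneg y]

/-- A power of a logarithm against any positive power. -/
lemma log_sq_le {δ : ℝ} (hδ : 0 < δ) (R : ℝ) (hR : 1 ≤ R) :
    (1 + Real.log R) ^ 2 ≤ (1 + 2 / δ) ^ 2 * R ^ δ := by
  have h := Real.log_le_rpow_div (show 0 ≤ R by linarith) (show 0 < δ / 2 by linarith)
  have h1 : 1 ≤ R ^ (δ / 2) := Real.one_le_rpow hR (by linarith)
  have h0 := Real.log_nonneg hR
  have e : R ^ δ = (R ^ (δ / 2)) ^ 2 := by
    rw [← Real.rpow_natCast (R ^ (δ / 2)) 2, ← Real.rpow_mul (by linarith)]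
    push_cast
    ring_nf
  rw [e, ← mul_pow]
  refine pow_le_pow_left₀ (by linarith) ?_ 2
  rw [add_mul, one_mul]
  refine add_le_add h1 (h.trans_eq ?_)
  field_simp

/-- The slices against the triple logarithm. -/
lemma lev_slice {q : ℕ} (hq : 16 ≤ q) :
    1 ≤ Real.log (Real.log q) ∧ Real.log (Real.log q) ≤ Real.log (8 * (8 : ℝ) ^ slice q) ∧
      Real.log (Real.log (Real.log q)) ≤ lev (8 * (8 : ℝ) ^ slice q) ∧
      lev (8 * (8 : ℝ) ^ slice q) ≤ 8 * max 1 (Real.log (Real.log (Real.log q))) := by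
  have hq16 : Real.exp 1 ≤ Real.log q := by
    have h1 : Real.log 16 ≤ Real.log q := Real.log_le_log (by norm_num) (by exact_mod_cast hq)
    rw [show (16 : ℝ) = 2 ^ 4 by norm_num, Real.log_pow] at h1
    push_cast at h1
    linarith [Real.log_two_gt_d9, Real.exp_one_lt_d9]
  have hlq1 : 1 ≤ Real.log q := le_trans (Real.one_le_exp zero_le_one) hq16
  obtain ⟨hlo, hhi⟩ := slice_spec q hlq1
  set ll := Real.log (Real.log q) with hll
  have hll1 : 1 ≤ ll := by rwa [hll, Real.le_log_iff_exp_le (by linarith)]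
  have h1 : ll ≤ Real.log (8 * (8 : ℝ) ^ slice q) := Real.log_le_log (by linarith) hhi
  have h8' : Real.log 8 ≤ 3 := by
    rw [show (8 : ℝ) = 2 ^ 3 by norm_num, Real.log_pow]
    have := Real.log_two_lt_d9
    push_cast
    linarith
  have h2 : Real.log (8 * (8 : ℝ) ^ slice q) ≤ 4 * ll := by
    rw [Real.log_mul (by norm_num) (by positivity)]
    linarith [Real.log_le_log (by positivity) hlo]
  refine ⟨hll1, h1, ?_, ?_⟩
  · unfold lev
    linarith [Real.log_le_log (show 0 < ll by linarith)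
      (show ll ≤ 1 + Real.log (8 * (8 : ℝ) ^ slice q) by linarith)]
  · unfold lev
    have h3 : Real.log (1 + Real.log (8 * (8 : ℝ) ^ slice q)) ≤ Real.log (2 ^ 3 * ll) :=
      Real.log_le_log (by linarith) (by linarith)
    have e : Real.log (2 ^ 3 * ll) = 3 * Real.log 2 + Real.log ll := by
      rw [Real.log_mul (by norm_num) (by linarith), Real.log_pow]
      push_cast
      rfl
    rw [e] at h3
    have := Real.log_two_lt_d9
    linarith [le_max_left 1 (Real.log ll), le_max_right 1 (Real.log ll)]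

/-- Values `-log ψ q` below a power of `log log log q` have little loss against the anchor `1`. -/
lemma tiny_levels (γ δ : ℝ) (hδ : 0 < δ) (ψ : ℕ → ℝ) (hψ : ∀ q, 0 ≤ ψ q)
    (hdiv : ¬ Summable ({q : ℕ | -Real.log (ψ q) < 2 * lev (8 * (8 : ℝ) ^ slice q) ^ 4}.indicator
      (fun q : ℕ => mu ψ q / max 1 (Real.log (Real.log (Real.log q))) ^ δ))) :
    ∀ᵐ x : ℝ, {q : ℕ | 0 < q ∧ distInt ((q : ℝ) * x - γ) < ψ q}.Infinite := by
  refine P028A.weak_inhom_DS_anchor γ 1 one_pos (fun _ => 1) ψ hψ ?_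
  have hμ := mu_nonneg_X hψ
  set S1 : Set ℕ := {q : ℕ | -Real.log (ψ q) < 2 * lev (8 * (8 : ℝ) ^ slice q) ^ 4}
  set w : ℕ → ℝ := fun q => mu ψ q / max 1 (Real.log (Real.log (Real.log q))) ^ δ with hw
  have hR : ∀ q : ℕ, 1 ≤ max 1 (Real.log (Real.log (Real.log q))) ^ δ := fun q =>
    Real.one_le_rpow (le_max_left _ _) hδ.le
  have hw0 : ∀ q, 0 ≤ w q := fun q => div_nonneg (hμ q) (le_trans zero_le_one (hR q))
  refine not_summable_of_le ψ hψ (Set.indicator_nonneg fun q _ => hw0 q)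
    (wA_nonneg (by norm_num) _ hψ)
    (fun q => (Set.indicator_le_self' (fun q _ => hw0 q) q).trans (div_le_self (hμ q) (hR q)))
    16 (144 * (1 + 2 / δ) ^ 2) (fun q hq hq2 => ?_) hdiv
  have hA := one_le_aLoss ψ (fun _ => 1) q
  by_cases hm : q ∈ S1
  swap
  · rw [Set.indicator_of_notMem hm]
    exact mul_nonneg (by positivity) (wA_nonneg (by norm_num) _ hψ q)
  rw [Set.indicator_of_mem hm]
  obtain ⟨hll, h1, -, hlev⟩ := lev_slice hq
  set x := lev (8 * (8 : ℝ) ^ slice q) with hx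
  set R := max 1 (Real.log (Real.log (Real.log q))) with hRd
  have hR1 : 1 ≤ R := le_max_left _ _
  have hx1 : 1 ≤ x := by
    rw [hx]; unfold lev
    linarith [Real.log_nonneg (show 1 ≤ 1 + Real.log (8 * (8 : ℝ) ^ slice q) by linarith)]
  have hL : max 1 (-Real.log (ψ q)) ≤ 2 * (8 * R) ^ 4 := by
    have h4 := pow_le_pow_left₀ (by linarith) hlev 4
    have h5 : 1 ≤ (8 * R) ^ 4 := one_le_pow₀ (by linarith)
    exact max_le (by linarith) (hm.le.trans (by linarith))
  have hlog : aLoss ψ (fun _ => 1) q ≤ 12 * (1 + Real.log R) := by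
    unfold aLoss
    rw [max_eq_left (le_refl (1 : ℝ)), Real.log_one, sub_zero,
      abs_of_nonneg (Real.log_nonneg (le_max_left _ _))]
    have h := Real.log_le_log (lt_of_lt_of_le one_pos (le_max_left _ _)) hL
    rw [Real.log_mul two_ne_zero (by positivity), Real.log_pow,
      Real.log_mul (by norm_num) (by linarith), show (8 : ℝ) = 2 ^ 3 by norm_num, Real.log_pow] at h
    push_cast at h
    have := Real.log_two_lt_d9
    linarith [Real.log_nonneg hR1]
  simp only [hw, wA, ← hRd]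
  rw [← mul_div_assoc, div_le_div_iff₀ (Real.rpow_pos_of_pos (by linarith) _)
    (Real.rpow_pos_of_pos (by linarith) _), show ((1 : ℝ) + 1) = ((2 : ℕ) : ℝ) by norm_num,
    Real.rpow_natCast]
  calc mu ψ q * aLoss ψ (fun _ => 1) q ^ 2
      ≤ mu ψ q * (144 * ((1 + 2 / δ) ^ 2 * R ^ δ)) := by
        refine mul_le_mul_of_nonneg_left ((pow_le_pow_left₀ (by linarith) hlog 2).trans ?_) (hμ q)
        rw [mul_pow]
        linarith [log_sq_le hδ R hR1]
    _ = _ := by ring

/-- Q1 for every shift and every `ψ` with an extra divergence of any positive power of `log log log q`. -/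
theorem weak_inhom_DS_lll (γ δ : ℝ) (hδ : 0 < δ) (ψ : ℕ → ℝ) (hψ : ∀ q, 0 ≤ ψ q)
    (hdiv : ¬ Summable (fun q : ℕ => mu ψ q / max 1 (Real.log (Real.log (Real.log q))) ^ δ)) :
    ∀ᵐ x : ℝ, {q : ℕ | 0 < q ∧ distInt ((q : ℝ) * x - γ) < ψ q}.Infinite := by
  classical
  set S0 : Set ℕ := {q : ℕ | ψ q ≤ Real.log q ^ (-(1 : ℝ))} with hS0
  by_cases h0 : Summable (S0.indicator (mu ψ))
  swap
  · exact weak_inhom_DS_below γ 1 one_pos ψ hψ h0
  set w : ℕ → ℝ := fun q => mu ψ q / max 1 (Real.log (Real.log (Real.log q))) ^ δ with hw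
  set S1 : Set ℕ := {q : ℕ | -Real.log (ψ q) < 2 * lev (8 * (8 : ℝ) ^ slice q) ^ 4} with hS1
  by_cases h1' : Summable (S1.indicator w)
  swap
  · exact tiny_levels γ δ hδ ψ hψ h1'
  have hμ0 : ∀ q, 0 ≤ mu ψ q := mu_nonneg_X hψ
  have hR : ∀ q : ℕ, 1 ≤ max 1 (Real.log (Real.log (Real.log q))) ^ δ := fun q =>
    Real.one_le_rpow (le_max_left _ _) hδ.le
  have hw0 : ∀ q, 0 ≤ w q := fun q => div_nonneg (hμ0 q) (le_trans zero_le_one (hR q))
  have hwμ : ∀ q, w q ≤ mu ψ q := fun q => div_le_self (hμ0 q) (hR q)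
  have hd : ¬ Summable ((S0 ∪ S1)ᶜ.indicator w) := by
    intro hs
    refine hdiv (((h0.add h1').add hs).of_nonneg_of_le hw0 fun q => ?_)
    have a0 : 0 ≤ S0.indicator (mu ψ) q := Set.indicator_nonneg (fun q _ => hμ0 q) q
    have a1 : 0 ≤ S1.indicator w q := Set.indicator_nonneg (fun q _ => hw0 q) q
    have a2 : 0 ≤ (S0 ∪ S1)ᶜ.indicator w q := Set.indicator_nonneg (fun q _ => hw0 q) q
    by_cases hq : q ∈ S0
    · rw [Set.indicator_of_mem hq]; linarith [hwμ q]
    by_cases hq' : q ∈ S1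
    · rw [Set.indicator_of_mem hq']; linarith
    rw [Set.indicator_of_mem (show q ∈ (S0 ∪ S1)ᶜ from fun h => h.elim hq hq')]
    linarith
  obtain ⟨C1, t0, hC1, hslice⟩ := slice_moment_low (δ / 4) (by linarith)
  obtain ⟨C2, q0, hcross⟩ := cross_bound
  have hz : (1 : ℝ) < 1 + zeta0 := by norm_num [zeta0]
  obtain ⟨N, hN⟩ := pow_unbounded_of_one_lt ((10 : ℝ) ^ 7) hz
  obtain ⟨q1, hq1⟩ := eventually_atTop.1 ((eventually_ge_atTop (max 16 q0)).and
    ((Real.tendsto_log_atTop.comp (Real.tendsto_log_atTop.comp (Real.tendsto_log_atTop.comp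
      tendsto_natCast_atTop_atTop))).eventually_ge_atTop (max t0 2)))
  have h1 := P028A.not_summable_good ψ hψ (Set.indicator_nonneg fun q _ => hw0 q)
    (fun q => (Set.indicator_le_self' (fun q _ => hw0 q) q).trans (hwμ q)) hd q1
  rw [Set.indicator_indicator] at h1
  obtain ⟨i, hi⟩ := exists_residue w _ h1 slice 3 (by norm_num)
  obtain ⟨i', hi'⟩ := exists_residue w _ hi (cls ψ) (N + 1) N.succ_pos
  set P : Set ℕ := {q | q ∈ {q | q ∈ MainAux.Good ψ q1 ∩ (S0 ∪ S1)ᶜ ∧ slice q % 3 = i} ∧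
    cls ψ q % (N + 1) = i'} with hP
  have hgood : ∀ q ∈ P, 16 ≤ q ∧ 0 < ψ q ∧ ψ q ≤ 1 / 2 ∧ q0 ≤ q ∧ 1 ≤ Real.log q ∧
      1 ≤ -Real.log (ψ q) ∧ -Real.log (ψ q) ≤ 2 * Real.log q ∧
      lev (8 * (8 : ℝ) ^ slice q) ^ 4 ≤ scale (cls ψ q) ∧
      scale (cls ψ q) ≤ 2 * (1 + Real.log (8 * (8 : ℝ) ^ slice q)) ∧ t0 ≤ scale (cls ψ q) := by
    rintro q ⟨⟨⟨⟨hqq, hq2⟩, hqS⟩, -⟩, -⟩
    obtain ⟨hq3, hll⟩ := hq1 q hqq
    have h16 : 16 ≤ q := (le_max_left _ _).trans hq3
    have hqR : (0 : ℝ) < q := by exact_mod_cast (by omega : 0 < q)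
    have hp : 0 < ψ q := lt_of_lt_of_le (by positivity) hq2
    have hlq : 1 ≤ Real.log q := one_le_log (by omega)
    simp only [Function.comp_apply] at hll
    obtain ⟨hll1, hlH, hlev, -⟩ := lev_slice h16
    obtain ⟨hn0, hn1⟩ : q ∉ S0 ∧ q ∉ S1 := not_or.1 hqS
    have hl : -Real.log (ψ q) ≤ Real.log (Real.log q) := by
      have := Real.log_le_log (Real.rpow_pos_of_pos (by linarith) _) (not_le.1 hn0).le
      rw [Real.log_rpow (by linarith)] at this
      linarith
    have hn1' : 2 * lev (8 * (8 : ℝ) ^ slice q) ^ 4 ≤ -Real.log (ψ q) := not_lt.1 hn1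
    set x := lev (8 * (8 : ℝ) ^ slice q)
    have hx2 : max t0 2 ≤ x := hll.trans hlev
    have hxx : x ≤ x ^ 4 := le_self_pow₀ (by linarith [le_max_right t0 2]) (by norm_num)
    have hL : 1 ≤ -Real.log (ψ q) := by linarith [le_max_right t0 2]
    have hl2 := Real.log_le_log (by positivity) hq2
    rw [Real.log_inv, Real.log_pow] at hl2
    push_cast at hl2
    obtain ⟨hc1, hc2⟩ := cls_spec ψ q hL
    have hs2 : (1 + zeta0) * scale (cls ψ q) ≤ 2 * scale (cls ψ q) :=
      mul_le_mul_of_nonneg_right (by norm_num [zeta0]) (le_trans zero_le_one (one_le_scale _))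
    refine ⟨h16, hp, ?_, (le_max_right _ _).trans hq3, hlq, hL, by linarith, by linarith,
      by linarith, by linarith [le_max_left t0 2]⟩
    refine ((Real.log_le_iff_le_exp hp).1 (show Real.log (ψ q) ≤ -1 by linarith)).trans ?_
    rw [Real.exp_neg, one_div]
    exact inv_anti₀ two_pos (by linarith [Real.add_one_le_exp (1 : ℝ)])
  set cj : ℕ → ℝ := fun j => lev (8 * (8 : ℝ) ^ j) ^ (-δ) with hcj
  have hlev1 : ∀ j : ℕ, 1 ≤ lev (8 * (8 : ℝ) ^ j) := fun j => by
    have h8 : 1 ≤ 8 * (8 : ℝ) ^ j :=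
      one_le_mul_of_one_le_of_one_le (by norm_num) (one_le_pow₀ (by norm_num))
    unfold lev
    linarith [Real.log_nonneg (show 1 ≤ 1 + Real.log (8 * (8 : ℝ) ^ j) by
      linarith [Real.log_nonneg h8])]
  set c : ℕ → ℝ := fun q => cj (slice q) with hc
  have hc01 : ∀ q, 0 ≤ c q ∧ c q ≤ 1 := fun q =>
    ⟨Real.rpow_nonneg (le_trans zero_le_one (hlev1 _)) _,
      Real.rpow_le_one_of_one_le_of_nonpos (hlev1 _) (by linarith)⟩
  set v : ℕ → ℝ := fun q => c q * mu ψ q with hv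
  have hv0 : ∀ q, 0 ≤ v q := fun q => mul_nonneg (hc01 q).1 (hμ0 q)
  have hPv : ¬ Summable (P.indicator v) := by
    intro hs
    refine hi' ((hs.mul_left ((8 : ℝ) ^ δ)).of_nonneg_of_le (Set.indicator_nonneg fun q _ => hw0 q)
      fun q => ?_)
    by_cases hq : q ∈ P
    swap
    · rw [Set.indicator_of_notMem hq, Set.indicator_of_notMem hq, mul_zero]
    rw [Set.indicator_of_mem hq, Set.indicator_of_mem hq]
    obtain ⟨-, -, -, hlev⟩ := lev_slice (hgood q hq).1
    have hx0 : 0 < lev (8 * (8 : ℝ) ^ slice q) := lt_of_lt_of_le one_pos (hlev1 _)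
    set x := lev (8 * (8 : ℝ) ^ slice q) with hx
    set R := max 1 (Real.log (Real.log (Real.log q))) with hRd
    simp only [hw, hv, hc, hcj, ← hx, ← hRd]
    rw [Real.rpow_neg hx0.le, div_le_iff₀ (Real.rpow_pos_of_pos (lt_of_lt_of_le one_pos
      (le_max_left _ _)) _)]
    have hxR : x ^ δ ≤ (8 : ℝ) ^ δ * R ^ δ := by
      rw [← Real.mul_rpow (by norm_num) (le_trans zero_le_one (le_max_left _ _))]
      exact Real.rpow_le_rpow hx0.le hlev hδ.le
    calc mu ψ q = (x ^ δ)⁻¹ * mu ψ q * x ^ δ := by field_simp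
      _ ≤ (x ^ δ)⁻¹ * mu ψ q * ((8 : ℝ) ^ δ * R ^ δ) :=
          mul_le_mul_of_nonneg_left hxR (mul_nonneg (by positivity) (hμ0 q))
      _ = _ := by ring
  choose T hT hTsum using exists_block v P hv0 hPv
  choose ab hab using fun m => exists_approx γ (scale m) (le_trans zero_le_one (one_le_scale m))
  refine full_of_weighted γ ψ c hψ hc01 (fun q => ab (cls ψ q)) (fun q => (hab _).2.2.1) T
    (2 * (3 * C1) + max C2 0) (fun k q hq => ?_) hTsum fun k => ?_
  · obtain ⟨hqP, hkq⟩ := hT k q hq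
    obtain ⟨h3, -, hh, -⟩ := hgood q hqP
    exact ⟨hkq, by omega, hh⟩
  set I := fun q r => ∫ x in Set.Ico (0 : ℝ) 1, fq γ ψ (ab (cls ψ q)).1 (ab (cls ψ q)).2 q x *
    fq γ ψ (ab (cls ψ r)).1 (ab (cls ψ r)).2 r x with hI
  have main : ∀ q ∈ P, ∀ r ∈ P, slice q < slice r → I q r ≤ max C2 0 * mu ψ q * mu ψ r := by
    intro q hq r hr hlt
    obtain ⟨h3, hp, hh, hq0, hlq, -⟩ := hgood q hq
    obtain ⟨h3', hp', hh', -, hlr, -⟩ := hgood r hr
    have h8 : q ^ 8 ≤ r := slice_far (by omega) (by omega) hlq hlr (by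
      have h1 := hq.1.2
      have h2 := hr.1.2
      omega)
    exact (hcross γ ψ _ _ _ _ q r (hab _).2.2.1 (hab _).2.2.1 hq0 (by omega) h8 hq.1.1.1.2 hh
      (hψ r) hh').trans
        (mul_le_mul_of_nonneg_right (mul_le_mul_of_nonneg_right (le_max_left C2 0) (hμ0 q)) (hμ0 r))
  have hX : ∀ q ∈ P, ∀ r ∈ P, slice q ≠ slice r → I q r ≤ max C2 0 * mu ψ q * mu ψ r := by
    intro q hq r hr hne
    rcases lt_or_gt_of_ne hne with h | h
    · exact main q hq r hr h
    · have e : I q r = I r q := by simp only [hI, mul_comm]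
      rw [e]
      refine (main r hr q hq h).trans_eq ?_
      ring
  rw [sq_integral_weighted γ ψ c (fun q => ab (cls ψ q)) (T k)]
  refine (pairs_bound (T k) slice v (fun q r => c q * c r * I q r) (3 * C1) (max C2 0) hv0
    (by linarith) (le_max_right _ _) ?_ fun q hq r hr hne => ?_).trans ?_
  · intro j hj
    set S := (T k).filter (fun q => P028X.slice q = j) with hS
    have hSm : ∀ q ∈ S, q ∈ P ∧ slice q = j := fun q hq =>
      ⟨(hT k q (mem_filter.1 hq).1).1, (mem_filter.1 hq).2⟩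
    have eI : ∑ q ∈ S, ∑ r ∈ S, c q * c r * I q r = cj j ^ 2 * ∑ q ∈ S, ∑ r ∈ S, I q r := by
      simp only [mul_sum]
      refine sum_congr rfl fun q hq => sum_congr rfl fun r hr => ?_
      simp only [hc, (hSm q hq).2, (hSm r hr).2, sq]
    have ev : ∑ q ∈ S, v q = cj j * msum (mu ψ) S := by
      rw [msum, mul_sum]
      refine sum_congr rfl fun q hq => ?_
      simp only [hv, hc, (hSm q hq).2]
    rw [eI, ev]
    refine le_trans (mul_le_mul_of_nonneg_left (le_trans (le_of_eq (sq_integral γ ψ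
      (fun q => ab (cls ψ q)) S).symm) (hslice γ ψ S (8 * (8 : ℝ) ^ j) ab hψ ?_ (fun q hq => ?_)
      (fun q hq r hr hlt => ?_) hab)) (sq_nonneg _)) ?_
    · linarith [one_le_pow₀ (a := (8 : ℝ)) (n := j) (by norm_num)]
    · obtain ⟨hqP, rfl⟩ := hSm q hq
      obtain ⟨h3, hp, -, -, hlq, hL, hL2, hlo, hhi, ht⟩ := hgood q hqP
      have := (slice_spec q hlq).2
      exact ⟨by omega, hp, hL, this, by linarith, hlo, hhi, ht⟩
    · have e1 := (hSm q hq).1.2
      have e2 := (hSm r hr).1.2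
      have hmod : cls ψ q ≡ cls ψ r [MOD N + 1] := by rw [Nat.ModEq, e1, e2]
      have := Nat.le_of_dvd (by omega) ((Nat.modEq_iff_dvd' hlt.le).1 hmod)
      refine le_trans (mul_le_mul_of_nonneg_right hN.le (le_trans zero_le_one (one_le_scale _))) ?_
      rw [scale, scale, ← pow_add]
      exact pow_le_pow_right₀ hz.le (by omega)
    · rw [mul_left_comm, mul_comm 3 C1, mul_assoc]
      refine mul_le_mul_of_nonneg_left ?_ hC1
      exact absorb_lev (hlev1 j) hδ.le (sum_nonneg fun q _ => hμ0 q)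
  · simp only [hv]
    calc c q * c r * I q r ≤ c q * c r * (max C2 0 * mu ψ q * mu ψ r) :=
          mul_le_mul_of_nonneg_left (hX q (hT k q hq).1 r (hT k r hr).1 hne)
            (mul_nonneg (hc01 q).1 (hc01 r).1)
      _ = _ := by ring
  · have hM1 : 1 ≤ ∑ q ∈ T k, v q :=
      le_trans (le_add_of_nonneg_left (Nat.cast_nonneg k)) (hTsum k)
    have h1 : ∑ q ∈ T k, v q ≤ (∑ q ∈ T k, v q) ^ 2 := by
      rw [sq]; exact le_mul_of_one_le_left (by linarith) hM1
    have h2 := mul_le_mul_of_nonneg_left h1 (show 0 ≤ 3 * C1 by linarith)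
    simp only [hv] at *
    linarith

end Vale.Agent.P028G
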