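import Vale.Agent.P028G.Lin
import Vale.Agent.P028.DensityAux

/-! P028G module NORES: for every shift, a coincidence of two levels `t ≪ s` with a modulus is never resonant:
a resonance forces the two exclusion rationals to agree and then `D` is below `4 Y T^{1/4}`. -/

namespace Vale.Agent.P028G

open Finset
open Vale.Agent.P028
open Vale.Agent.P028L

/-- A resonance at `v` has a small denominator and a tiny error. -/
lemma res_denom (β T s εs : ℝ) (As : ℤ) (Bs d q r : ℕ) (hs : 1000 ≤ s) (hT : 10 ≤ T)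
    (hTs : T ≤ Real.exp (3 / 100000 * s)) (hBs : 0 < Bs) (hBsQ : (Bs : ℝ) ≤ Real.exp (s / 10))
    (hcop : IsCoprime As (Bs : ℤ)) (hβs : β = (As : ℝ) / Bs + εs)
    (hεs : (Bs : ℝ) * |εs| ≤ (Real.exp (s / 10))⁻¹) (hdT : (d : ℝ) ≤ T ^ (20 : ℝ)) (hdpos : 0 < d)
    (hdv : d ∣ vv q r) (hvlo : Real.exp (99 / 100 * s) ≤ (vv q r : ℝ)) (hnb : ¬ BigP T Bs q r)
    (hR : RV β T d (vv q r)) :
    (Bs : ℝ) ≤ T ^ (13 / 100 : ℝ) ∧ |εs| * (vv q r : ℝ) ≤ T ^ (3 / 25 - 1 : ℝ) := by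
  obtain ⟨B'', hB'1, hB'le, hB'd⟩ := hR
  set v := vv q r with hvdef
  have hs0 : 0 ≤ s := by linarith
  have hTp : 0 < T := by linarith
  have hT1 : 1 ≤ T := by linarith
  have hBsr : (0 : ℝ) < Bs := by exact_mod_cast hBs
  have hdr : (0 : ℝ) < d := by exact_mod_cast hdpos
  have hB'r : (1 : ℝ) ≤ B'' := by exact_mod_cast hB'1
  have hvr : (0 : ℝ) < v := lt_of_lt_of_le (Real.exp_pos _) hvlo
  set X := T ^ (3 / 25 - 1 : ℝ) with hX
  have hX0 : 0 < X := Real.rpow_pos_of_pos hTp _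
  have hX1 : X ≤ 1 := Real.rpow_le_one_of_one_le_of_nonpos hT1 (by norm_num)
  set m0 := round (β * d * B'') with hm0
  have hm : |β * d * B'' - m0| ≤ X * d / v := hB'd
  have hdexp : (d : ℝ) ≤ Real.exp (6 / 10000 * s) :=
    hdT.trans ((T_pow_le hTp hTs (by norm_num)).trans (exp_scale hs0 (by norm_num)))
  have hB'exp : (B'' : ℝ) ≤ Real.exp (1 / 10000 * s) :=
    hB'le.trans ((T_pow_le hTp hTs (by norm_num)).trans (exp_scale hs0 (by norm_num)))
  have hsmallexp : Real.exp (-(1 / 20 * s)) ≤ 1 / 4 := by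
    rw [Real.exp_neg, one_div (4 : ℝ)]
    refine inv_anti₀ (by norm_num : (0 : ℝ) < 4) ?_
    have := Real.add_one_le_exp (1 / 20 * s)
    linarith
  -- the denominator divides d B''
  have hz : (d : ℤ) * B'' * As - m0 * Bs = 0 := by
    have e : (((d : ℤ) * B'' * As - m0 * Bs : ℤ) : ℝ)
        = (Bs : ℝ) * (β * d * B'' - m0) - (d : ℝ) * B'' * ((Bs : ℝ) * εs) := by
      rw [hβs]; push_cast; field_simp; ring
    have hlt : |(((d : ℤ) * B'' * As - m0 * Bs : ℤ) : ℝ)| < 1 := by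
      rw [e]
      refine lt_of_le_of_lt (abs_sub _ _) ?_
      rw [abs_mul, abs_mul ((d : ℝ) * B''), abs_mul (Bs : ℝ) εs, Nat.abs_cast,
        abs_of_nonneg (show 0 ≤ (d : ℝ) * B'' by positivity)]
      have h1 : (Bs : ℝ) * |β * d * B'' - m0| ≤ Real.exp (-(1 / 20 * s)) := by
        refine (mul_le_mul hBsQ (hm.trans (div_le_div₀ hdr.le
          (mul_le_of_le_one_left hdr.le hX1) (Real.exp_pos _) hvlo)) (abs_nonneg _)
            (Real.exp_nonneg _)).trans ?_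
        refine (mul_le_mul_of_nonneg_left (div_le_div_of_nonneg_right hdexp (Real.exp_nonneg _))
          (Real.exp_nonneg _)).trans ?_
        rw [← Real.exp_sub, ← Real.exp_add]
        exact Real.exp_le_exp.2 (by linarith)
      have h2 : (d : ℝ) * B'' * ((Bs : ℝ) * |εs|) ≤ Real.exp (-(1 / 20 * s)) := by
        refine (mul_le_mul (mul_le_mul hdexp hB'exp (by positivity) (Real.exp_nonneg _)) hεs
          (by positivity) (by positivity)).trans ?_
        rw [← Real.exp_neg, ← Real.exp_add, ← Real.exp_add]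
        exact Real.exp_le_exp.2 (by linarith)
      linarith
    have : |(d : ℤ) * B'' * As - m0 * Bs| < 1 := by exact_mod_cast hlt
    exact Int.abs_lt_one_iff.1 this
  have hdiv : Bs ∣ d * B'' := by
    have : (Bs : ℤ) ∣ ((d * B'' : ℕ) : ℤ) * As := ⟨m0, by push_cast; linear_combination hz⟩
    exact_mod_cast hcop.symm.dvd_of_dvd_mul_right this
  have hBle : (Bs : ℝ) ≤ T ^ (13 / 100 : ℝ) := by
    by_contra hcon
    push Not at hcon
    refine hnb ⟨hcon, ?_⟩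
    have h1 : Bs ∣ Nat.gcd Bs v * B'' := by
      obtain ⟨k, l, hk, hl, hkl⟩ := Nat.dvd_mul.1 hdiv
      rw [← hkl]
      exact Nat.mul_dvd_mul (Nat.dvd_gcd (Dvd.intro l rfl) (hk.trans hdv)) hl
    have h3 := Nat.le_of_dvd (Nat.mul_pos (Nat.gcd_pos_of_pos_left _ hBs) hB'1) h1
    calc (Bs : ℝ) ≤ ((Nat.gcd Bs v * B'' : ℕ) : ℝ) := by exact_mod_cast h3
      _ = (Nat.gcd Bs v : ℕ) * (B'' : ℝ) := by push_cast; ring
      _ ≤ (Nat.gcd Bs v : ℕ) * T ^ (3 / 50 : ℝ) :=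
          mul_le_mul_of_nonneg_left hB'le (Nat.cast_nonneg _)
      _ = _ := by rw [hvdef, mul_comm]
  have hεv : |εs| * v ≤ X := by
    have h1 : (d : ℝ) * B'' * |εs| ≤ X * d / v := by
      refine le_trans (le_of_eq ?_) hm
      rw [← abs_of_nonneg (show 0 ≤ (d : ℝ) * B'' by positivity), ← abs_mul]
      congr 1
      have hz' : (d : ℝ) * B'' * As - m0 * Bs = 0 := by exact_mod_cast hz
      rw [hβs]
      field_simp
      linear_combination -hz'
    rw [le_div_iff₀ hvr] at h1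
    have h2 : (B'' : ℝ) * (|εs| * v) ≤ X := by
      refine le_of_mul_le_mul_left ?_ hdr
      linarith
    exact le_trans (le_mul_of_one_le_left (by positivity) hB'r) h2
  exact ⟨hBle, hεv⟩

/-- With a resonance, the two exclusion rationals agree. -/
lemma same_rat (γ β T t s εs : ℝ) (A A' As tt : ℤ) (B B' Bs D q r : ℕ) (ht : 30 ≤ t)
    (hts : 100 * t ≤ s) (hT : 10 ≤ T) (hTs : T ≤ Real.exp (3 / 100000 * s))
    (hTt : T ≤ Real.exp (3 * t)) (hDt : (D : ℝ) ≤ Real.exp t) (hβ : (D : ℝ) * β = γ - tt)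
    (hA : IsApprox γ (Real.exp (s / 2)) A B) (hA' : IsApprox γ (Real.exp (t / 2)) A' B')
    (hBs : 0 < Bs) (hβs : β = (As : ℝ) / Bs + εs)
    (hvlo : Real.exp (99 / 100 * s) ≤ (vv q r : ℝ)) (hBle : (Bs : ℝ) ≤ T ^ (13 / 100 : ℝ))
    (hεv : |εs| * (vv q r : ℝ) ≤ T ^ (3 / 25 - 1 : ℝ)) :
    A = A' ∧ B = B' ∧ (B : ℝ) ≤ T ^ (13 / 100 : ℝ) ∧
      |(B : ℝ) * γ - A| ≤ (B : ℝ) * (D * (T ^ (3 / 25 - 1 : ℝ) / (vv q r : ℝ))) := by
  set v := vv q r with hvdef
  have hs0 : 0 ≤ s := by linarith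
  have hTp : 0 < T := by linarith
  have hT1 : 1 ≤ T := by linarith
  have hBsr : (0 : ℝ) < Bs := by exact_mod_cast hBs
  have hvr : (0 : ℝ) < v := lt_of_lt_of_le (Real.exp_pos _) hvlo
  set X := T ^ (3 / 25 - 1 : ℝ) with hX
  have hX0 : 0 < X := Real.rpow_pos_of_pos hTp _
  have hX1 : X ≤ 1 := Real.rpow_le_one_of_one_le_of_nonpos hT1 (by norm_num)
  have hsmallexp : Real.exp (-(1 / 20 * s)) ≤ 1 / 4 := by
    rw [Real.exp_neg, one_div (4 : ℝ)]
    refine inv_anti₀ (by norm_num : (0 : ℝ) < 4) ?_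
    have := Real.add_one_le_exp (1 / 20 * s)
    linarith
  obtain ⟨hB0, hBQ, hAcop, hBA⟩ := hA
  obtain ⟨hB0', hBQ', hAcop', hBA'⟩ := hA'
  have hBr : (0 : ℝ) < B := by exact_mod_cast hB0
  have hε : |εs| ≤ Real.exp (-(99 / 100 * s)) := by
    rw [Real.exp_neg]
    refine le_trans ?_ (inv_anti₀ (Real.exp_pos _) hvlo)
    rw [← one_div, le_div_iff₀ hvr]
    linarith
  have hT13 : T ^ (13 / 100 : ℝ) ≤ Real.exp (39 / 100000000 * 10 * s) :=
    (T_pow_le hTp hTs (by norm_num)).trans (exp_scale hs0 (by norm_num))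
  have hDs : (D : ℝ) ≤ Real.exp (s / 100) := hDt.trans (Real.exp_le_exp.2 (by linarith))
  -- the high rational is the resonant one
  set P := tt * Bs + (D : ℤ) * As with hPdef
  have hPγ : (Bs : ℝ) * γ - P = Bs * (D * εs) := by
    have e : (D : ℝ) * ((As : ℝ) / Bs + εs) = γ - tt := hβs ▸ hβ
    field_simp at e
    simp only [hPdef]
    push_cast
    linear_combination -e
  have hAP : A * (Bs : ℤ) - (B : ℤ) * P = 0 := by
    have e : ((A * (Bs : ℤ) - (B : ℤ) * P : ℤ) : ℝ)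
        = -((Bs : ℝ) * ((B : ℝ) * γ - A)) + (B : ℝ) * (Bs * (D * εs)) := by
      rw [← hPγ]; push_cast; ring
    have hlt : |((A * (Bs : ℤ) - (B : ℤ) * P : ℤ) : ℝ)| < 1 := by
      rw [e]
      refine lt_of_le_of_lt (abs_add_le _ _) ?_
      rw [abs_neg, abs_mul, abs_mul (B : ℝ), abs_mul (Bs : ℝ) (D * εs), abs_mul (D : ℝ) εs,
        Nat.abs_cast, Nat.abs_cast, Nat.abs_cast]
      have h1 : (Bs : ℝ) * |(B : ℝ) * γ - A| ≤ Real.exp (-(1 / 20 * s)) := by
        refine (mul_le_mul (hBle.trans hT13) hBA (abs_nonneg _) (Real.exp_nonneg _)).trans ?_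
        rw [one_div (Real.exp _), ← Real.exp_neg, ← Real.exp_add]
        exact Real.exp_le_exp.2 (by linarith)
      have h2 : (B : ℝ) * ((Bs : ℝ) * ((D : ℝ) * |εs|)) ≤ Real.exp (-(1 / 20 * s)) := by
        refine (mul_le_mul hBQ (mul_le_mul (hBle.trans hT13) (mul_le_mul hDs hε (abs_nonneg _)
          (Real.exp_nonneg _)) (by positivity) (Real.exp_nonneg _)) (by positivity)
          (Real.exp_nonneg _)).trans ?_
        rw [← Real.exp_add, ← Real.exp_add, ← Real.exp_add]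
        exact Real.exp_le_exp.2 (by linarith)
      linarith
    have : |A * (Bs : ℤ) - (B : ℤ) * P| < 1 := by exact_mod_cast hlt
    exact Int.abs_lt_one_iff.1 this
  have hBT : (B : ℝ) ≤ T ^ (13 / 100 : ℝ) := by
    refine le_trans ?_ hBle
    have h1 : (B : ℤ) ∣ A * (Bs : ℤ) := ⟨P, by linarith⟩
    exact_mod_cast Nat.le_of_dvd hBs
      (Int.natCast_dvd_natCast.1 (hAcop.symm.dvd_of_dvd_mul_left h1))
  have hBγ : |(B : ℝ) * γ - A| ≤ (B : ℝ) * (D * (X / v)) := by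
    have e : (Bs : ℝ) * ((B : ℝ) * γ - A) = (Bs : ℝ) * ((B : ℝ) * (D * εs)) := by
      have h1 : (A : ℝ) * Bs - (B : ℝ) * P = 0 := by exact_mod_cast hAP
      linear_combination (B : ℝ) * hPγ - h1
    rw [mul_left_cancel₀ hBsr.ne' e, abs_mul, abs_mul, Nat.abs_cast, Nat.abs_cast]
    gcongr
    rw [le_div_iff₀ hvr]
    exact hεv
  -- the low rational is the same one
  have hBt : (B : ℝ) ≤ Real.exp (39 / 100 * t) := by
    refine hBT.trans ((Real.rpow_le_rpow hTp.le hTt (by norm_num)).trans ?_)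
    rw [← Real.exp_mul]
    exact Real.exp_le_exp.2 (by linarith)
  have hcross : A * (B' : ℤ) = A' * B := by
    have e : ((A * (B' : ℤ) - A' * B : ℤ) : ℝ)
        = -((B' : ℝ) * ((B : ℝ) * γ - A)) + (B : ℝ) * ((B' : ℝ) * γ - A') := by push_cast; ring
    have hlt : |((A * (B' : ℤ) - A' * B : ℤ) : ℝ)| < 1 := by
      rw [e]
      refine lt_of_le_of_lt (abs_add_le _ _) ?_
      rw [abs_neg, abs_mul, abs_mul (B : ℝ), Nat.abs_cast, Nat.abs_cast]
      have h1 : (B' : ℝ) * |(B : ℝ) * γ - A| ≤ Real.exp (-(1 / 20 * s)) := by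
        refine (mul_le_mul hBQ' (hBγ.trans (mul_le_mul hBt (mul_le_mul hDt
          (div_le_div₀ zero_le_one hX1 (Real.exp_pos _) hvlo) (by positivity) (Real.exp_nonneg _))
          (by positivity) (Real.exp_nonneg _))) (abs_nonneg _) (Real.exp_nonneg _)).trans ?_
        rw [one_div (Real.exp _), ← Real.exp_neg, ← Real.exp_add, ← Real.exp_add, ← Real.exp_add]
        exact Real.exp_le_exp.2 (by linarith)
      have h2 : (B : ℝ) * |(B' : ℝ) * γ - A'| ≤ 1 / 4 := by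
        refine (mul_le_mul hBt hBA' (abs_nonneg _) (Real.exp_nonneg _)).trans ?_
        rw [one_div (Real.exp _), ← Real.exp_neg, ← Real.exp_add, one_div (4 : ℝ),
          show 39 / 100 * t + -(t / 2) = -(11 / 100 * t) by ring, Real.exp_neg]
        refine inv_anti₀ (by norm_num) ?_
        linarith [Real.add_one_le_exp (11 / 100 * t)]
      linarith
    have : |A * (B' : ℤ) - A' * B| < 1 := by exact_mod_cast hlt
    linarith [Int.abs_lt_one_iff.1 this]
  have hBB : B = B' := Nat.dvd_antisymm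
    (Int.natCast_dvd_natCast.1 (hAcop.symm.dvd_of_dvd_mul_left ⟨A', by rw [hcross, mul_comm]⟩))
    (Int.natCast_dvd_natCast.1 (hAcop'.symm.dvd_of_dvd_mul_left ⟨A, by rw [← hcross, mul_comm]⟩))
  subst hBB
  exact ⟨mul_right_cancel₀ (by exact_mod_cast hB0.ne' : (B : ℤ) ≠ 0) hcross, rfl, hBT, hBγ⟩

/-- No resonance at the large cofactor `v`. -/
theorem no_res (γ β T t s Y εs : ℝ) (A A' As tt : ℤ) (B B' Bs D d q r : ℕ) (n : ℤ)
    (ht : 30 ≤ t) (hts : 100 * t ≤ s) (hT : 10 ≤ T) (hTs : T ≤ Real.exp (3 / 100000 * s))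
    (hTt : T ≤ Real.exp (3 * t)) (hD : 0 < D) (hDt : (D : ℝ) ≤ Real.exp t)
    (hDB : Nat.Coprime D B)
    (hβ : (D : ℝ) * β = γ - tt) (hTD : (D : ℝ) = T * Y)
    (hA : IsApprox γ (Real.exp (s / 2)) A B) (hA' : IsApprox γ (Real.exp (t / 2)) A' B')
    (hBs : 0 < Bs) (hBsQ : (Bs : ℝ) ≤ Real.exp (s / 10)) (hcop : IsCoprime As (Bs : ℤ))
    (hβs : β = (As : ℝ) / Bs + εs) (hεs : (Bs : ℝ) * |εs| ≤ (Real.exp (s / 10))⁻¹)
    (hdT : (d : ℝ) ≤ T ^ (20 : ℝ)) (hdpos : 0 < d) (hdv : d ∣ vv q r)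
    (hvlo : Real.exp (99 / 100 * s) ≤ (vv q r : ℝ)) (huv : uu q r ≤ vv q r)
    (hnb : ¬ BigP T Bs q r)
    (hn : |(n : ℝ) + γ * (hh q r : ℝ)| < Y) (hdvd : (D : ℤ) ∣ D2 A B A' B' q r n)
    (hne : D2 A B A' B' q r n ≠ 0) :
    ¬ RV β T d (vv q r) := by
  intro hR
  set v := vv q r with hvdef
  have hs0 : 0 ≤ s := by linarith
  have hTp : 0 < T := by linarith
  have hT1 : 1 ≤ T := by linarith
  have hBsr : (0 : ℝ) < Bs := by exact_mod_cast hBs
  have hDr : (0 : ℝ) < D := by exact_mod_cast hD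
  have hY : 0 < Y := (mul_pos_iff_of_pos_left hTp).1 (hTD ▸ hDr)
  have hvr : (0 : ℝ) < v := lt_of_lt_of_le (Real.exp_pos _) hvlo
  obtain ⟨hBle, hεv⟩ := res_denom β T s εs As Bs d q r (by linarith) hT hTs hBs hBsQ hcop hβs hεs
    hdT hdpos hdv hvlo hnb hR
  set X := T ^ (3 / 25 - 1 : ℝ) with hX
  have hX0 : 0 < X := Real.rpow_pos_of_pos hTp _
  have hX1 : X ≤ 1 := Real.rpow_le_one_of_one_le_of_nonpos hT1 (by norm_num)
  have hsmallexp : Real.exp (-(1 / 20 * s)) ≤ 1 / 4 := by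
    rw [Real.exp_neg, one_div (4 : ℝ)]
    refine inv_anti₀ (by norm_num : (0 : ℝ) < 4) ?_
    have := Real.add_one_le_exp (1 / 20 * s)
    linarith
  obtain ⟨eA, eB, hBT, hBγ⟩ := same_rat γ β T t s εs A A' As tt B B' Bs D q r ht hts hT hTs hTt
    hDt hβ hA hA' hBs hβs hvlo hBle hεv
  rw [← hX] at hBγ
  subst eA eB
  have hB0 : 0 < B := hA.1
  have hBr : (0 : ℝ) < B := by exact_mod_cast hB0
  -- a small multiple of D
  set m := (B : ℤ) * n + A * hh q r with hmdef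
  have eD : D2 A B A B q r n = (B : ℤ) * m := by simp only [D2, hmdef, hh]; ring
  rw [eD] at hdvd hne
  have hm0' : m ≠ 0 := right_ne_zero_of_mul hne
  have hDm : (D : ℝ) ≤ |(m : ℝ)| := by
    have h1 : (D : ℤ) ∣ m :=
      (Int.isCoprime_iff_nat_coprime.2 (by simpa using hDB)).dvd_of_dvd_mul_left hdvd
    have h2 := Int.le_of_dvd (abs_pos.2 hm0') ((dvd_abs _ _).2 h1)
    exact_mod_cast h2
  have hh' : |(hh q r : ℝ)| ≤ v := by
    have h1 : (uu q r : ℝ) ≤ v := by exact_mod_cast huv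
    have h2 : (0 : ℝ) ≤ uu q r := Nat.cast_nonneg _
    simp only [hh, ← hvdef]
    push_cast
    rw [abs_le]
    constructor <;> linarith
  have hup : |(m : ℝ)| ≤ (B : ℝ) * (Y + D * X) := by
    have e : (m : ℝ) = (B : ℝ) * ((n : ℝ) + γ * hh q r) - ((B : ℝ) * γ - A) * hh q r := by
      simp only [hmdef]; push_cast; ring
    rw [e]
    refine (abs_sub _ _).trans ((add_le_add ?_ ?_).trans_eq (mul_add _ _ _).symm)
    · rw [abs_mul, Nat.abs_cast]
      exact mul_le_mul_of_nonneg_left hn.le hBr.le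
    · rw [abs_mul]
      refine (mul_le_mul hBγ hh' (abs_nonneg _) (by positivity)).trans (le_of_eq ?_)
      simp only [← hvdef]
      field_simp
  have hfin : T ≤ 2 * T ^ (1 / 4 : ℝ) := by
    refine le_of_mul_le_mul_right ?_ hY
    rw [← hTD]
    refine hDm.trans (hup.trans ?_)
    have hTX : 1 ≤ T * X := by
      rw [hX, mul_comm, ← Real.rpow_add_one hTp.ne']
      exact Real.one_le_rpow hT1 (by norm_num)
    calc (B : ℝ) * (Y + D * X) ≤ T ^ (13 / 100 : ℝ) * (2 * (T * X) * Y) := by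
          rw [hTD]
          refine mul_le_mul hBT ?_ (by positivity) (by positivity)
          have := mul_le_mul_of_nonneg_right hTX hY.le
          linarith
      _ = 2 * (T ^ (13 / 100 : ℝ) * (X * T)) * Y := by ring
      _ = _ := by
          rw [hX, ← Real.rpow_add_one hTp.ne', ← Real.rpow_add hTp]
          norm_num
  have h2 : 2 * T ^ (1 / 4 : ℝ) < T := by
    have h3 : T ^ (1 / 4 : ℝ) ≤ T ^ (1 / 2 : ℝ) :=
      Real.rpow_le_rpow_of_exponent_le hT1 (by norm_num)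
    have h4 : 2 < T ^ (1 / 2 : ℝ) := by
      rw [← Real.sqrt_eq_rpow]
      exact (Real.lt_sqrt (by norm_num)).2 (by linarith)
    have h5 : T ^ (1 / 2 : ℝ) * T ^ (1 / 2 : ℝ) = T := by
      rw [← Real.rpow_add hTp]; norm_num
    nlinarith
  linarith

end Vale.Agent.P028G
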